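import Vale.Agent.P253W.HK.Defs

/-!
# P253W, block HK, row BAR: the barriers for the adjoint equation
-/

open scoped Manifold ContDiff Bundle ENNReal Topology ComplexOrder
open Bundle MeasureTheory Set Metric Filter Vale.Agent.P253Z
open Vale.Agent.P272.K (Cm Chart)

noncomputable section

namespace Vale.Agent.P253W.HK

namespace Bar

theorem sub_quad {b A ε : ℝ} (hb : b < 1) (hA : 0 ≤ A) (hε : 0 < ε) :
    ∃ B ≥ (0 : ℝ), ∀ s ≥ (1 : ℝ), A * s ^ (2 * b) ≤ ε * s ^ 2 + B := by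
  have h := (tendsto_rpow_neg_atTop (y := 2 - 2 * b) (by linarith)).const_mul A
  rw [mul_zero] at h
  obtain ⟨s₀, hs₀⟩ := eventually_atTop.1 (h.eventually (ge_mem_nhds hε))
  refine ⟨A * s₀ ^ 2, by positivity, fun s hs => ?_⟩
  have s0 : 0 < s := by linarith
  by_cases h1 : s₀ ≤ s
  · have h2 := mul_le_mul_of_nonneg_right (hs₀ s h1) (sq_nonneg s)
    have e : s ^ (2 * b) = s ^ (-(2 - 2 * b)) * s ^ 2 := by
      rw [← Real.rpow_two, ← Real.rpow_add s0]; congr 1; ring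
    have : 0 ≤ A * s₀ ^ 2 := by positivity
    rw [e]; linarith
  · have h2 : s ^ (2 * b) ≤ s ^ 2 := by
      rw [← Real.rpow_two]; exact Real.rpow_le_rpow_of_exponent_le hs (by linarith)
    have h3 : s ^ 2 ≤ s₀ ^ 2 := pow_le_pow_left₀ s0.le (not_le.1 h1).le 2
    have := mul_le_mul_of_nonneg_left (h2.trans h3) hA
    have : 0 ≤ ε * s ^ 2 := by positivity
    linarith

theorem d1 {w : ℝ} (hw : 0 < w) : deriv Real.sqrt w = 1 / (2 * √w) :=
  (Real.hasDerivAt_sqrt hw.ne').deriv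

theorem d2 {w : ℝ} (hw : 0 < w) : deriv (deriv Real.sqrt) w = -(1 / (4 * √w ^ 3)) := by
  have e : deriv Real.sqrt =ᶠ[𝓝 w] fun s => (2 * √s)⁻¹ :=
    (eventually_gt_nhds hw).mono fun s hs => by rw [d1 hs, one_div]
  have hs := Real.sqrt_pos.2 hw
  rw [e.deriv_eq, (((Real.hasDerivAt_sqrt hw.ne').const_mul 2).fun_inv (by positivity)).deriv]
  field_simp; ring

theorem d3 (s : ℝ) : deriv (fun s : ℝ => s * s) s = 2 * s := by
  rw [((hasDerivAt_id' s).fun_mul (hasDerivAt_id' s)).deriv]; ring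

variable {n : ℕ} {M : Type} [MetricSpace M] [ChartedSpace (Cm n) M]
  [RiemannianBundle (fun x : M => TangentSpace 𝓘(ℝ, Cm n) x)] {F : Flow n M}

theorem lap_chi (hc : Cal F) {t : ℝ} (ht : 0 ≤ t) {W σ : M → ℝ} {x : M} (hW : C2 n W x)
    (hσ : C2 n σ x) (h0 : ∀ y, 0 < W y) :
    F.lap t (fun y => √(W y) * (σ y * σ y)) x ≤
      √(W x) * (2 * σ x * F.lap t σ x + 6 * gr F t σ σ x) +
        σ x * σ x * F.lap t W x / (2 * √(W x)) := by
  have c1 : C2 n (fun y => √(W y)) x := ContDiffAt.sqrt hW (h0 _).ne'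
  have c2 : C2 n (fun y => σ y * σ y) x := ContDiffAt.mul hσ hσ
  have hs := Real.sqrt_pos.2 (h0 x)
  rw [hc.mul t ht _ _ x c1 c2, hc.mul t ht σ σ x hσ hσ,
    hc.comp t Real.sqrt W x (Real.contDiffAt_sqrt (h0 x).ne') hW,
    hc.gr_comp t Real.sqrt (fun s => s * s) W σ x (Real.hasDerivAt_sqrt (h0 x).ne').differentiableAt
      (by fun_prop) hW hσ, d1 (h0 x), d2 (h0 x), d3]
  have h := mul_le_mul_of_nonneg_left (hc.gr_cs t ht W σ x (σ x / (4 * √(W x) ^ 2)) hW hσ)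
    (show 0 ≤ 4 * √(W x) by positivity)
  generalize √(W x) = v at hs h ⊢
  have e1 : 4 * v * (2 * (σ x / (4 * v ^ 2)) * gr F t W σ x) =
      2 * (1 / (2 * v) * (2 * σ x) * gr F t W σ x) := by field_simp
  have e2 : 4 * v * ((σ x / (4 * v ^ 2)) ^ 2 * gr F t W W x + gr F t σ σ x) =
      σ x * σ x * (1 / (4 * v ^ 3) * gr F t W W x) + 4 * v * gr F t σ σ x := by field_simp
  have e3 : σ x * σ x * F.lap t W x / (2 * v) = σ x * σ x * (1 / (2 * v) * F.lap t W x) := by ring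
  rw [e1, e2] at h
  rw [e3]
  linarith

/-- the final arithmetic -/
theorem arith {v s y R Cs Cp B Y K m nn L lσ g lW P : ℝ} {N : ℕ} (hv : 1 ≤ v) (hR : 1 ≤ R)
    (hCs : 1 ≤ Cs) (hCp : 1 ≤ Cp) (hs : 0 ≤ s) (hy : 0 ≤ y) (hn : 0 ≤ nn)
    (hY : 0 ≤ Y) (hm : m = 2 + 24 * Cs ^ 4 * (Cp + 1)) (hK : v ≤ K * R)
    (hW : v ^ 2 ≤ 3 * (Cp * R ^ 2 + B) / 2) (h1 : s ≤ Cs / R ^ (2 * (N + 1)))
    (h2 : lσ ≤ Cs * y / R ^ (2 * (N + 1) + 2)) (h3 : g ≤ Cs * y / R ^ (4 * (N + 1) + 2))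
    (h4 : lW ≤ 2 * y - m * (y - nn)) (hL : L ≤ v * (2 * s * lσ + 6 * g) + s * s * lW / (2 * v))
    (hP : 8 * Cs ^ 2 * K * y / R ^ (2 * N) ≤ P ∨ (0 ≤ P ∧ 1 / R ^ (2 * (N + 1)) ≤ Cs * s))
    (hy2 : R ^ 2 ≤ B → y ≤ Y) : L ≤ (m * nn + 8 * Cs ^ 4 * Y) * (v * (s * s)) + P := by
  have v0 : 0 < v := by linarith
  have R0 : 0 < R := by linarith
  have m2 : 0 ≤ m - 2 := by rw [hm]; nlinarith [pow_nonneg (show 0 ≤ Cs by linarith) 4]
  have a1 : 2 * s * lσ + 6 * g ≤ 8 * Cs ^ 2 * y / R ^ (4 * (N + 1) + 2) := by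
    have b1 : s * lσ ≤ Cs / R ^ (2 * (N + 1)) * (Cs * y / R ^ (2 * (N + 1) + 2)) :=
      (mul_le_mul_of_nonneg_left h2 hs).trans (mul_le_mul_of_nonneg_right h1 (by positivity))
    have b2 : Cs / R ^ (2 * (N + 1)) * (Cs * y / R ^ (2 * (N + 1) + 2)) =
        Cs ^ 2 * y / R ^ (4 * (N + 1) + 2) := by field_simp; ring
    have b3 : Cs * y / R ^ (4 * (N + 1) + 2) ≤ Cs ^ 2 * y / R ^ (4 * (N + 1) + 2) := by
      gcongr; nlinarith
    have b4 : 8 * Cs ^ 2 * y / R ^ (4 * (N + 1) + 2) =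
        8 * (Cs ^ 2 * y / R ^ (4 * (N + 1) + 2)) := by ring
    linarith
  have a2 : s * s * lW / (2 * v) ≤ m * nn * (v * (s * s)) - (m - 2) * (s * s * y / (2 * v)) := by
    have b1 : s * s * lW / (2 * v) ≤ s * s * (2 * y - m * (y - nn)) / (2 * v) := by gcongr
    have b2 : s * s * (2 * y - m * (y - nn)) / (2 * v) =
        m * nn * (s * s) * (1 / (2 * v)) - (m - 2) * (s * s * y / (2 * v)) := by ring
    have b3 : 1 / (2 * v) ≤ v := by rw [div_le_iff₀ (by positivity)]; nlinarith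
    have b4 := mul_le_mul_of_nonneg_left b3
      (show 0 ≤ m * nn * (s * s) from mul_nonneg (mul_nonneg (by linarith) hn) (mul_self_nonneg s))
    linarith
  have a3 := mul_le_mul_of_nonneg_left a1 v0.le
  have a4 : 0 ≤ (m - 2) * (s * s * y / (2 * v)) := by positivity
  have a5 : 0 ≤ 8 * Cs ^ 4 * Y * (v * (s * s)) := by positivity
  rcases hP with hP | ⟨hP, h5⟩
  · have b1 : v * (8 * Cs ^ 2 * y / R ^ (4 * (N + 1) + 2)) ≤ 8 * Cs ^ 2 * K * y / R ^ (2 * N) := by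
      calc _ ≤ K * R * (8 * Cs ^ 2 * y / R ^ (2 * N + 1)) :=
            mul_le_mul hK (div_le_div_of_nonneg_left (by positivity) (by positivity)
              (pow_le_pow_right₀ hR (by omega))) (by positivity) (by linarith)
        _ = _ := by field_simp; ring
    linarith
  · have b1 : 8 * Cs ^ 2 * y / R ^ (4 * (N + 1) + 2) ≤ 8 * Cs ^ 4 * (s * s) * (y / R ^ 2) := by
      have c1 := pow_le_pow_left₀ (by positivity) h5 2
      calc _ = 8 * Cs ^ 2 * (1 / R ^ (2 * (N + 1))) ^ 2 * (y / R ^ 2) := by field_simp; ring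
        _ ≤ 8 * Cs ^ 2 * (Cs * s) ^ 2 * (y / R ^ 2) := by gcongr
        _ = _ := by ring
    have b2 := mul_le_mul_of_nonneg_left b1 v0.le
    by_cases hb : R ^ 2 ≤ B
    · have c1 : y / R ^ 2 ≤ Y := (div_le_self hy (one_le_pow₀ hR)).trans (hy2 hb)
      have c2 := mul_le_mul_of_nonneg_left c1 (show 0 ≤ v * (8 * Cs ^ 4 * (s * s)) by positivity)
      linarith
    · have c1 : v / R ^ 2 ≤ 3 * (Cp + 1) / (2 * v) := by
        rw [div_le_div_iff₀ (by positivity) (by positivity)]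
        nlinarith
      have c2 := mul_le_mul_of_nonneg_left c1 (show 0 ≤ 8 * Cs ^ 4 * (s * s) * y by positivity)
      have c3 : (m - 2) * (s * s * y / (2 * v)) =
          8 * Cs ^ 4 * (s * s) * y * (3 * (Cp + 1) / (2 * v)) := by rw [hm]; ring
      have c4 : v * (8 * Cs ^ 4 * (s * s) * (y / R ^ 2)) =
          8 * Cs ^ 4 * (s * s) * y * (v / R ^ 2) := by ring
      linarith

theorem y_bd [ProperSpace M] (h1 : F.Bas1) (S r : ℝ) :
    ∃ Y ≥ (0 : ℝ), ∀ t ∈ Icc 0 S, ∀ x, F.r x ≤ r → F.y t x ≤ Y := by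
  obtain ⟨Y, hY⟩ := ((isCompact_Icc (a := (0 : ℝ)) (b := S)).prod
    (isCompact_closedBall F.o r)).exists_bound_of_continuousOn
    ((h1.sm_cont _ h1.y_sm).mono (prod_mono (fun t ht => ht.1) (subset_univ _)))
  exact ⟨max Y 0, le_max_right _ _, fun t ht x hx =>
    ((le_abs_self _).trans (hY (t, x) ⟨ht, hx⟩)).trans (le_max_left _ _)⟩

theorem psi_bd (h2 : F.Bas2) (low : F.LOW) {S ε : ℝ} (hε : 0 < ε) :
    ∃ B ≥ (0 : ℝ), ∀ t ∈ Icc 0 S, ∀ x, |F.ψ t x| ≤ ε * (1 + F.r x) ^ 2 + B := by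
  obtain ⟨b, b0, b1, low⟩ := low
  obtain ⟨Cl, hl⟩ := low S
  obtain ⟨Cu, hu⟩ := h2.psi_up
  obtain ⟨B, hB, h⟩ := sub_quad b1 (A := |Cu| * (1 + S) ^ 2 + |Cl|) (by positivity) hε
  refine ⟨B, hB, fun t ht x => le_trans ?_ (h _ (le_add_of_nonneg_right dist_nonneg))⟩
  have r0 : 0 ≤ F.r x := dist_nonneg
  have e1 : 1 + F.r x ≤ (1 + F.r x) ^ (2 * b) := by
    conv_lhs => rw [← Real.rpow_one (1 + F.r x)]
    exact Real.rpow_le_rpow_of_exponent_le (by linarith) (by linarith)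
  have e0 : 0 ≤ (1 + F.r x) ^ (2 * b) := by linarith
  have a1 := hl t ht x
  have a2 := hu t ht.1 x
  have t0 := ht.1
  have t1 := ht.2
  have a3 : Cu * (1 + t) * (1 + t + F.r x) ≤ |Cu| * (1 + S) ^ 2 * (1 + F.r x) ^ (2 * b) := by
    calc _ ≤ |Cu| * (1 + t) * (1 + t + F.r x) := by gcongr; exact le_abs_self _
      _ ≤ |Cu| * (1 + S) * ((1 + S) * (1 + F.r x)) := by
          have : 0 ≤ 1 + S := by linarith
          gcongr
          nlinarith
      _ ≤ |Cu| * (1 + S) * ((1 + S) * (1 + F.r x) ^ (2 * b)) := by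
          have : 0 ≤ 1 + S := by linarith
          gcongr
      _ = _ := by ring
  have a4 := mul_le_mul_of_nonneg_right (le_abs_self Cl) e0
  have a5 : 0 ≤ |Cu| * (1 + S) ^ 2 * (1 + F.r x) ^ (2 * b) := by positivity
  have a6 : 0 ≤ |Cl| * (1 + F.r x) ^ (2 * b) := by positivity
  change _ ≤ _ * (1 + F.r x) ^ (2 * b)
  rw [abs_le]
  constructor <;> linarith

end Bar

variable {n : ℕ} {M : Type} [MetricSpace M] [ChartedSpace (Cm n) M]
  [RiemannianBundle (fun x : M => TangentSpace 𝓘(ℝ, Cm n) x)] {F : Flow n M}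

open Bar in
theorem bar [ProperSpace M] (hI : F.Is) (h1 : F.Bas1) (h2 : F.Bas2) (hc : Cal F)
    (rp : RP n F.o) (sta : STA F 1) (low : F.LOW) : BAR F := by
  intro S hS N
  obtain ⟨p, Cp, hCp, sp, hp⟩ := rp
  obtain ⟨Cs, hCs, sta⟩ := sta (N + 1)
  obtain ⟨m, hm⟩ : ∃ m, m = 2 + 24 * Cs ^ 4 * (Cp + 1) := ⟨_, rfl⟩
  have m0 : 0 < m := by rw [hm]; positivity
  obtain ⟨B₀, hB₀, hψ⟩ := psi_bd h2 low (S := S) (ε := 1 / (2 * m * Cp)) (by positivity)
  obtain ⟨B, hB⟩ : ∃ B, B = 2 + 2 * m * B₀ := ⟨_, rfl⟩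
  have B2 : 2 ≤ B := by rw [hB]; nlinarith
  obtain ⟨Y, hY, hy⟩ := y_bd h1 S B
  obtain ⟨K, hK⟩ : ∃ K, K = 2 * (Cp + B) := ⟨_, rfl⟩
  have K1 : 1 ≤ K := by rw [hK]; linarith
  have r0 : ∀ x, 0 ≤ F.r x := fun x => dist_nonneg
  have p0 : ∀ x, 0 ≤ p x := fun x =>
    nonneg_of_mul_nonneg_right ((sq_nonneg _).trans (hp x).1) (by linarith)
  have hW : ∀ t ∈ Icc 0 S, ∀ x, (p x + B) / 2 ≤ p x + B - m * F.ψ t x ∧
      p x + B - m * F.ψ t x ≤ 3 * (p x + B) / 2 := by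
    intro t ht x
    have a1 := mul_le_mul_of_nonneg_left (hψ t ht x) m0.le
    have a2 : m * (1 / (2 * m * Cp) * (1 + F.r x) ^ 2) ≤ p x / 2 := by
      have : m * (1 / (2 * m * Cp) * (1 + F.r x) ^ 2) = (1 + F.r x) ^ 2 / Cp / 2 := by field_simp
      rw [this]
      exact div_le_div_of_nonneg_right ((div_le_iff₀' (by linarith)).2 (hp x).1) zero_le_two
    have a3 := mul_le_mul_of_nonneg_left (le_abs_self (F.ψ t x)) m0.le
    have a4 := mul_le_mul_of_nonneg_left (neg_abs_le (F.ψ t x)) m0.le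
    constructor <;> linarith
  have W1 : ∀ t ∈ Icc 0 S, ∀ x, 1 ≤ p x + B - m * F.ψ t x := fun t ht x => by
    linarith [(hW t ht x).1, p0 x]
  have W2 : ∀ t ∈ Icc 0 S, ∀ x, p x + B - m * F.ψ t x ≤ 3 * (Cp * (1 + F.r x) ^ 2 + B) / 2 :=
    fun t ht x => by
      have : p x ≤ Cp * (1 + F.r x) ^ 2 := (hp x).2.1
      linarith [(hW t ht x).2]
  have W3 : ∀ t ∈ Icc 0 S, ∀ x, √(p x + B - m * F.ψ t x) ≤ K * (1 + F.r x) := fun t ht x => by
    have R1 : 1 ≤ (1 + F.r x) ^ 2 := one_le_pow₀ (by linarith [r0 x])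
    refine Real.sqrt_le_iff.2 ⟨by have := r0 x; positivity, (W2 t ht x).trans ?_⟩
    have a1 : K ≤ K ^ 2 := by nlinarith
    have a2 := mul_le_mul_of_nonneg_right a1 (sq_nonneg (1 + F.r x))
    have a3 := mul_le_mul_of_nonneg_left R1 (show 0 ≤ B by linarith)
    have a4 : 0 ≤ Cp * (1 + F.r x) ^ 2 := by positivity
    have a5 : K * (1 + F.r x) ^ 2 = 2 * (Cp * (1 + F.r x) ^ 2) + 2 * (B * (1 + F.r x) ^ 2) := by
      rw [hK]; ring
    rw [mul_pow]
    linarith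
  have q1 : 0 ≤ m * n + 8 * Cs ^ 4 * Y := by positivity
  have q2 : 1 ≤ 8 * Cs ^ 2 * K := by nlinarith [one_le_pow₀ (n := 2) hCs]
  refine ⟨m * n + 8 * Cs ^ 4 * Y + 8 * Cs ^ 2 * K, by linarith, fun ρ₀ =>
    ⟨(1 / (Cs * (1 + |ρ₀|) ^ (2 * (N + 1)))) ^ 2, by positivity, fun ρ => ?_⟩⟩
  obtain ⟨ρ', σ, sσ, hσ⟩ := sta (max ρ ρ₀)
  refine ⟨ρ', fun t x => √(p x + B - m * F.ψ t x) * (σ x * σ x), fun e he => ?_,
    fun t ht x => ?_⟩
  · have c0 : ∀ f : M → ℝ, Sm n f →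
        ContDiffOn ℝ ∞ (fun q : ℝ × Cm n => f (e.symm q.2)) (Ioo 0 S ×ˢ e.target) :=
      fun f hf q hq => ((hf e he q.2 hq.2).comp q contDiffAt_snd).contDiffWithinAt
    have c1 : ContDiffOn ℝ ∞ (ch e F.ψ) (Ioo 0 S ×ˢ e.target) :=
      (hI.sm e he).mono (prod_mono (fun t ht => ht.1.le) subset_rfl)
    exact ((((c0 p sp).add contDiffOn_const).sub (contDiffOn_const.mul c1)).sqrt fun q hq =>
      (zero_lt_one.trans_le (W1 q.1 ⟨hq.1.1.le, hq.1.2.le⟩ _)).ne').mul ((c0 σ sσ).mul (c0 σ sσ))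
  have ht' : t ∈ Icc 0 S := ⟨ht.1.le, ht.2.le⟩
  obtain ⟨s0, s1, s2, s3, s4⟩ := hσ x
  obtain ⟨s4, s5⟩ := s4 t ht'.1
  have R1 : 1 ≤ 1 + F.r x := by linarith [r0 x]
  have w0 := zero_lt_one.trans_le (W1 t ht' x)
  have v1 : 1 ≤ √(p x + B - m * F.ψ t x) := Real.one_le_sqrt.2 (W1 t ht' x)
  have y0 : 0 ≤ F.y t x := (Nat.cast_nonneg n).trans (h2.y_ge t ht'.1 x)
  refine ⟨by positivity, ?_, fun h => by simp [s2 h], fun h => ?_, ?_, ?_⟩
  · calc _ ≤ K * (1 + F.r x) * (Cs / (1 + F.r x) ^ (2 * (N + 1)) *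
          (Cs / (1 + F.r x) ^ (2 * (N + 1)))) :=
          mul_le_mul (W3 t ht' x) (mul_self_le_mul_self s0 s1) (by positivity) (by positivity)
      _ = Cs ^ 2 * K / (1 + F.r x) ^ (4 * N + 3) := by field_simp; ring
      _ ≤ _ := div_le_div₀ (by linarith) (by nlinarith [one_le_pow₀ (n := 2) hCs]) (by positivity)
          (pow_le_pow_right₀ R1 (by omega))
  · have a1 : 1 / (Cs * (1 + |ρ₀|) ^ (2 * (N + 1))) ≤ σ x := by
      have a2 := s3 (h.trans (le_max_right _ _))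
      have a3 : 1 / (1 + |ρ₀|) ^ (2 * (N + 1)) ≤ 1 / (1 + F.r x) ^ (2 * (N + 1)) := by
        gcongr
        exact h.trans (le_abs_self _)
      rw [← div_div, div_right_comm, div_le_iff₀' (by linarith)]
      exact a3.trans a2
    exact ((sq _).le.trans (mul_self_le_mul_self (by positivity) a1)).trans
      (le_mul_of_one_le_left (mul_self_nonneg _) v1)
  · have a1 := ((((hI.eq t ht.1 x).const_mul m).const_sub (p x + B)).sqrt w0.ne').mul_const
      (σ x * σ x)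
    rw [dt, a1.deriv]
    have a2 := mul_le_mul_of_nonneg_left (h2.psi_le t ht'.1 x).2 m0.le
    have a3 := Real.mul_self_sqrt w0.le
    have t0 := ht.1
    rw [mul_div_right_comm]
    refine mul_le_mul_of_nonneg_right ?_ (mul_self_nonneg _)
    rw [div_le_div_iff₀ (by positivity) (by positivity)]
    nlinarith [p0 x]
  · have cψ : C2 n (F.ψ t) x := hc.c2 _ (h1.sm_at _ hI.sm t ht'.1) x
    have cp : C2 n p x := hc.c2 p sp x
    have cB : C2 n (fun _ => B) x := contDiffAt_const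
    have cW : C2 n (fun y => p y + B - m * F.ψ t y) x :=
      (ContDiffAt.add cp cB).sub (contDiffAt_const.mul cψ)
    have lW : F.lap t (fun y => p y + B - m * F.ψ t y) x ≤ 2 * F.y t x - m * (F.y t x - n) := by
      have e : (fun y => p y + B - m * F.ψ t y) =
          fun y => 1 * (1 * p y + 1 * (fun _ => B) y) + (-m) * F.ψ t y := by funext y; ring
      have cq : C2 n (fun y => 1 * p y + 1 * (fun _ => B) y) x :=
        ContDiffAt.add (contDiffAt_const.mul cp) (contDiffAt_const.mul cB)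
      rw [e, hc.lin t 1 (-m) (fun y => 1 * p y + 1 * (fun _ => B) y) (F.ψ t) x cq cψ,
        hc.lin t 1 1 p (fun _ => B) x cp cB, hc.const, h2.lap_psi t ht'.1]
      linarith [hc.up t ht'.1 p 2 x (hp x).2.2.1]
    have hL := lap_chi hc ht'.1 cW (hc.c2 σ sσ x) fun y => zero_lt_one.trans_le (W1 t ht' y)
    rw [one_mul] at s4
    refine (arith (P := if ρ ≤ F.r x then (m * n + 8 * Cs ^ 4 * Y + 8 * Cs ^ 2 * K) * F.y t x /
      (1 + F.r x) ^ (2 * N) else 0) v1 R1 hCs hCp s0 y0 (Nat.cast_nonneg n) hY hm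
      (W3 t ht' x) (by rw [Real.sq_sqrt w0.le]; exact W2 t ht' x) s1 s4 s5 lW hL ?_
      fun h => hy t ht' x (by nlinarith [r0 x])).trans (add_le_add_left ?_ _)
    · split_ifs with h
      · refine Or.inl ?_
        gcongr
        linarith
      · exact Or.inr ⟨le_rfl, s3 ((not_le.1 h).le.trans (le_max_left _ _))⟩
    · exact mul_le_mul_of_nonneg_right (by linarith) (by positivity)

end Vale.Agent.P253W.HK
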