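import Vale.Agent.P253W.HK.BrsA
import Vale.Agent.P253Z.BG.Ric
import Vale.Agent.P253Z.BG.Vol
import Vale.Agent.P253Z.B1a
import Vale.Agent.P253Z.B1b
import Vale.Agent.P210.R2.H934.Cala
import Vale.Agent.P210.R2.H999.Vol

/-!
# P253W, block HK: the bridge from the Levi form to the energy inequalities
-/

open scoped Manifold ContDiff Bundle Topology ComplexOrder
open Bundle IsManifold MeasureTheory Set Metric Filter Vale.Agent.P253.Mfd Vale.Agent.P253Z
open Vale.Agent.P272.K (Cm)
open Vale.Agent.P210.R2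

noncomputable section

namespace Vale.Agent.P253W.HK

namespace Brs

theorem lap_onb {E : Type} [NormedAddCommGroup E] [NormedSpace ℝ E] [FiniteDimensional ℝ E]
    {G : E → E →L[ℝ] E →L[ℝ] ℝ} {U : Set E} {z : E} (h : H53.LocalRiem G U) (hz : z ∈ U)
    {b : Module.Basis (Fin (Module.finrank ℝ E)) ℝ E} (hb : H973.ONB (G z) b) (φ : E → ℝ) :
    H53.lapG G φ z = ∑ i, H53.hessG G φ z (b i) (b i) := by
  rw [H53.lapG, LinearMap.trace_eq_matrix_trace ℝ b, Matrix.trace]
  refine Finset.sum_congr rfl fun i _ => ?_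
  have e : ∀ v, b.repr v i = G z v (b i) := fun v => by
    conv_rhs => rw [← b.sum_repr v, map_sum, sum_apply]
    simp only [map_smul, smul_apply, hb _ i, smul_eq_mul, mul_ite, mul_one, mul_zero,
      Finset.sum_ite_eq', Finset.mem_univ, if_true]
  rw [Matrix.diag_apply, LinearMap.toMatrix_apply, e]
  exact DFunLike.congr_fun (H34.inv_spec (h.pos z hz) _) _

theorem fr (n : ℕ) : Module.finrank ℝ (Cm n) = 2 * n := by
  rw [Module.finrank_pi_fintype]
  simp [mul_comm]

variable {n : ℕ} {M : Type} [MetricSpace M] [ChartedSpace (Cm n) M]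
  [IsManifold 𝓘(ℂ, Cm n) 1 M] [IsManifold 𝓘(ℝ, Cm n) ∞ M]

theorem sm {u : M → ℝ} (hu : Sm n u) : ContMDiff 𝓘(ℝ, Cm n) 𝓘(ℝ, ℝ) ∞ u := fun x =>
  ((hu _ (chart_mem_maximalAtlas x) _ (mem_chart_target _ x)).contMDiffAt.comp x
    (contMDiffOn_chart.contMDiffAt (chart_source_mem_nhds _ x))).congr_of_eventuallyEq
    (((chartAt (Cm n) x).eventually_left_inverse (mem_chart_source _ x)).mono fun _ hy =>
      (congrArg u hy).symm)

variable [RiemannianBundle (fun x : M => TangentSpace 𝓘(ℝ, Cm n) x)]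
  [IsContMDiffRiemannianBundle 𝓘(ℝ, Cm n) ∞ (Cm n) (fun x : M => TangentSpace 𝓘(ℝ, Cm n) x)]

/-- from the Levi form to the Laplacian -/
theorem lap_ge (hK : IsKahler (Cm n) M) (b : B1b n M) {u : M → ℝ} (hu : Sm n u) {x : M} {a c : ℝ}
    (H : ((a : ℂ) • hs u (pc n x) (pc n x x) + (c : ℂ) • hm (pc n x) (pc n x x)).PosSemidef) :
    -(4 * n * c) ≤ a * H53.Lap (Cm n) u x := by
  have he : pc n x ∈ maximalAtlas 𝓘(ℝ, Cm n) ∞ M := chart_mem_maximalAtlas x
  have hc : Hc (pc n x) := chart_mem_maximalAtlas x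
  have hz := mem_chart_target (Cm n) x
  have R := H973.localRiem_chartG he
  obtain ⟨hI, Γ, hΓ, hJ⟩ := hK _ hc _ hz
  have e : ∀ u v, Γ u v = H53.chris (H53.chartG (pc n x)) (pc n x x) u v := fun u v =>
    H53.eq_chris_of_pos (R.pos _ hz) u v _ fun w => by
      have := (show H53.IsChristoffel (pc n x) (pc n x x) Γ from hΓ) u v w
      rwa [H53.fderiv_chartMetric he hz, H53.fderiv_chartMetric he hz,
        H53.fderiv_chartMetric he hz] at this
  have e2 : ∀ v, H53.chris (H53.chartG (pc n x)) (pc n x x) (Complex.I • v) (Complex.I • v) =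
      -H53.chris (H53.chartG (pc n x)) (pc n x x) v v := fun v => by
    rw [← e, hJ, e, R.chris_symm hz, ← e, hJ, e, smul_smul, Complex.I_mul_I, neg_one_smul]
  obtain ⟨β, hβ⟩ := H973.exists_onb _ (R.symm _ hz) (R.pos _ hz)
  have h1 := lap_onb R hz hβ (u ∘ (pc n x).symm)
  have h2 := lap_onb R hz (b := β.map (BGa.mulI n)) (fun i j => (hI _ _).trans (hβ i j))
    (u ∘ (pc n x).symm)
  have h3 : ∑ _i : Fin (Module.finrank ℝ (Cm n)), -(4 * c) ≤ a * (H53.Lap (Cm n) u x +
      H53.Lap (Cm n) u x) := by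
    refine le_of_le_of_eq ?_ (congrArg (a * ·) (congrArg₂ (· + ·) h1 h2)).symm
    simp only [← Finset.sum_add_distrib, Finset.mul_sum]
    refine Finset.sum_le_sum fun i _ => ?_
    have q1 := (b.psd _ H.isHermitian).1 H (β i)
    have q2 := b.levi _ _ (β i) ((hu _ hc _ hz).of_le (by norm_cast))
    have q3 := (b.quad _ hc _ hz (β i)).symm.trans (hβ i i)
    simp only [Matrix.add_apply, Matrix.smul_apply, smul_eq_mul, add_mul, mul_assoc,
      Finset.sum_add_distrib, ← Finset.mul_sum, Complex.add_re, Complex.re_ofReal_mul, q3,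
      if_true, hs] at q1
    have q4 : H53.hessG (H53.chartG (pc n x)) (u ∘ (pc n x).symm) (pc n x x) (β i) (β i) +
        H53.hessG (H53.chartG (pc n x)) (u ∘ (pc n x).symm) (pc n x x) (Complex.I • β i)
          (Complex.I • β i) = _ := Eq.trans (by
      simp only [H53.hessG, sub_apply, ContinuousLinearMap.comp_apply,
        ContinuousLinearMap.compL_apply, e2, map_neg, P253.R2.H451.levi2, Function.comp_def]
      ring) q2
    rw [show β.map (BGa.mulI n) i = Complex.I • β i from rfl, q4]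
    linarith
  rw [Finset.sum_const, Finset.card_univ, Fintype.card_fin, fr, nsmul_eq_mul] at h3
  push_cast at h3
  linarith

variable [IsRiemannianManifold 𝓘(ℝ, Cm n) M] [MeasurableSpace M] [BorelSpace M] {μ : Measure M}

theorem cal [ProperSpace M] [Nonempty M] (c : Ctx n μ) (b : B1b n M) : H53.Cal (Cm n) μ := by
  have hn : 1 ≤ Module.finrank ℝ (Cm n) := by
    have := c.npos
    rw [fr]
    omega
  obtain ⟨ν, hν⟩ := H999.vol (Cm n) M hn
  obtain ⟨k, rfl⟩ := BGa.vol_eq b c.vol hν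
  have hc := H53.cal_of H934.cala H34.calb H34.cald hn hν
  have hk : k ≠ 0 := fun h0 => by simpa [h0] using hc.pos univ isOpen_univ univ_nonempty
  have e : μ = k⁻¹ • k • μ := (inv_smul_smul₀ hk μ).symm
  exact { hc with
    fin := fun K hK => by
      rw [e]
      exact ENNReal.mul_lt_top ENNReal.coe_lt_top (hc.fin K hK)
    pos := fun U h h' => pos_iff_ne_zero.2 fun h0 => by simpa [h0] using hc.pos U h h'
    diff := fun u hu => by
      rw [e]
      exact Measure.ae_smul_measure (hc.diff u hu) _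
    ibp := fun u v hu hv => by
      rw [e, integral_smul_nnreal_measure _ k⁻¹, integral_smul_nnreal_measure _ k⁻¹,
        hc.ibp u v hu hv, smul_neg] }

end Brs

open Brs

variable {n : ℕ} {M : Type} [MetricSpace M] [ChartedSpace (Cm n) M]
  [IsManifold 𝓘(ℂ, Cm n) 1 M] [IsManifold 𝓘(ℝ, Cm n) ∞ M]
  [RiemannianBundle (fun x : M => TangentSpace 𝓘(ℝ, Cm n) x)]
  [IsContMDiffRiemannianBundle 𝓘(ℝ, Cm n) ∞ (Cm n) (fun x : M => TangentSpace 𝓘(ℝ, Cm n) x)]
  [IsRiemannianManifold 𝓘(ℝ, Cm n) M] [CompleteSpace M] [ConnectedSpace M] [NoncompactSpace M]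
  [MeasurableSpace M] [BorelSpace M] {μ : Measure M}

theorem brs (c : Ctx n μ) : BRS n μ := fun u hu => by
  have : ProperSpace M := H53.properSpace_riemannian (Cm n) M
  have b := b1b c.kahler b1a
  have l := (H755.contMDiff_Lap (sm hu)).continuous
  refine ⟨_, ug (sm hu), fun N U N0 h => cac (cal c b) (sm hu) l
    (wk_of (cal c b) (sm hu) l fun _ _ => le_rfl) (by positivity) fun p hp => ?_⟩
  simpa using lap_ge c.kahler b hu (a := 1) (c := N) (x := p) (by simpa [Lo] using h p hp)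

theorem brl (c : Ctx n μ) : BRL n μ := fun g x R hg g0 hU => by
  have : ProperSpace M := H53.properSpace_riemannian (Cm n) M
  have b := b1b c.kahler b1a
  have hc := cal c b
  obtain ⟨χ, c1, c2, c3, c4⟩ := hc.cut _ _ (isCompact_closedBall x R)
    (isOpen_lt continuous_const (sm hg).continuous) g0
  have p0 : ∀ y, 0 < χ y * g y + (1 - χ y) := fun y => by
    by_cases h : χ y = 0
    · simp [h]
    · exact add_pos_of_pos_of_nonneg (mul_pos ((c2 y).1.lt_of_ne' h) (c4 (subset_tsupport _ h)))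
        (sub_nonneg.2 (c2 y).2)
  have s : ContMDiff 𝓘(ℝ, Cm n) 𝓘(ℝ, ℝ) ∞ fun y => -Real.log (χ y * g y + (1 - χ y)) := fun y =>
    ((Real.contDiffAt_log.2 (p0 y).ne').comp_contMDiffAt
      (f := fun y => χ y * g y + (1 - χ y))
      (((c1.1.mul (sm hg)).add (contMDiff_const.sub c1.1)) y)).neg
  have ev := eventually_nhdsSet_iff_forall.1 c3
  refine ⟨_, _, fun y hy => by simp [(ev y hy).self_of_nhds], lg hc s (wk_log hc s fun y hy => ?_)⟩
  rw [lap_congr (v := g) ((ev y hy).mono fun z hz => by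
    simp only [neg_neg, Real.exp_log (p0 z)]
    simp [hz])]
  simpa using lap_ge c.kahler b hg (a := -1) (c := 0) (x := y) (by simpa [Up] using hU y hy)

end Vale.Agent.P253W.HK
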