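import Vale.Agent.P253W.HK.Defs
import Vale.Agent.P210.R2.H53.Cal
import Vale.Agent.P210.R2.H34.Cald
import Vale.Agent.P210.R2.H755.Mfd

/-!
# P253W, block HK: energy inequalities on a Riemannian manifold
-/

open scoped Manifold ContDiff Bundle Topology
open Bundle IsManifold MeasureTheory Set Metric Filter Vale.Agent.P210.R2 Vale.Agent.P210.R2.H53

noncomputable section

namespace Vale.Agent.P253W.HK.Brs

theorem quad {A B D : ℝ} (s t : ℝ) (hA : 0 ≤ A) (hD : 0 ≤ D) (h : B ^ 2 ≤ A * D) :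
    0 ≤ s ^ 2 * A + 2 * s * t * B + t ^ 2 * D := by
  rcases hA.eq_or_lt with rfl | hA'
  · rw [pow_eq_zero_iff two_ne_zero |>.1 ((h.trans_eq (zero_mul D)).antisymm (sq_nonneg B))]
    simpa using mul_nonneg (sq_nonneg t) hD
  · exact nonneg_of_mul_nonneg_right (a := A) (by
      nlinarith [sq_nonneg (s * A + t * B), mul_le_mul_of_nonneg_left h (sq_nonneg t)]) hA'

variable {E : Type} [NormedAddCommGroup E] [NormedSpace ℝ E] [FiniteDimensional ℝ E]
  {M : Type} [MetricSpace M] [ChartedSpace E M]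
  [RiemannianBundle (fun x : M => TangentSpace 𝓘(ℝ, E) x)] [IsManifold 𝓘(ℝ, E) ∞ M]
  [IsContMDiffRiemannianBundle 𝓘(ℝ, E) ∞ E (fun x : M => TangentSpace 𝓘(ℝ, E) x)]
  [IsRiemannianManifold 𝓘(ℝ, E) M] {u v h : M → ℝ} {U : Set M}

theorem ug (hu : ContMDiff 𝓘(ℝ, E) 𝓘(ℝ, ℝ) ∞ u) : Ug u fun p => √(Gam E u u p) := by
  refine ⟨hu.continuous, (H755.contMDiff_Gam hu hu).continuous.sqrt, fun _ => Real.sqrt_nonneg _,
    fun p ε hε => ?_⟩
  have he : chartAt E p ∈ maximalAtlas 𝓘(ℝ, E) ∞ M := chart_mem_maximalAtlas p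
  have hp := mem_chart_source E p
  have hpos := chartG_pos he (mem_chart_target E p)
  have a0 := Real.sqrt_nonneg (Gam E u u p)
  obtain ⟨ρ, hρ, K, hK, hs, h1⟩ := H34.chart_lip he hp
  obtain ⟨ρ', hρ', -, h2⟩ := H34.chart_le_dist he hp (ε := ε / 2 / (√(Gam E u u p) + 1))
    (by positivity)
  filter_upwards [ball_mem_nhds p hρ, ball_mem_nhds p hρ', ((chartAt E p).continuousAt hp).eventually
    ((H34.diff_chart he hp (hu.mdifferentiableAt (by simp))).hasFDerivAt.isLittleO.def
      (c := ε / 2 / K) (by positivity))] with q q1 q2 q3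
  have h4 := H34.form_cs_sqrt hpos (chartG_symm _ _) (gradG (chartG (chartAt E p))
    (u ∘ (chartAt E p).symm) (chartAt E p p)) (chartAt E p q - chartAt E p p)
  rw [gradG, H34.inv_spec hpos] at h4
  have h5 := mul_le_mul_of_nonneg_left (h1 p (mem_ball_self hρ) q q1) (show 0 ≤ ε / 2 / K by
    positivity)
  have h6 := mul_le_mul_of_nonneg_left (h2 p (mem_ball_self hρ') q q2) a0
  have h7 : √(Gam E u u p) * (ε / 2 / (√(Gam E u u p) + 1)) ≤ ε / 2 := by
    rw [mul_div_assoc', div_le_iff₀ (by positivity)]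
    linarith
  rw [← mul_assoc, div_mul_cancel₀ _ hK.ne', dist_comm] at h5
  simp only [Function.comp_apply, (chartAt E p).left_inv hp, (chartAt E p).left_inv (hs q1),
    Real.norm_eq_abs] at q3
  have h8 := abs_sub_abs_le_abs_sub (u q - u p) (fderiv ℝ (u ∘ (chartAt E p).symm) (chartAt E p p)
    (chartAt E p q - chartAt E p p))
  have h9 := mul_le_mul_of_nonneg_right h7 (dist_nonneg (x := q) (y := p))
  rw [dist_comm] at h6
  have := h4.trans h6
  linarith

omit [IsManifold 𝓘(ℝ, E) ∞ M] [FiniteDimensional ℝ E]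
  [IsContMDiffRiemannianBundle 𝓘(ℝ, E) ∞ E (fun x : M => TangentSpace 𝓘(ℝ, E) x)]
  [IsRiemannianManifold 𝓘(ℝ, E) M] in
theorem lap_congr {p : M} (h : u =ᶠ[𝓝 p] v) : Lap E u p = Lap E v p :=
  H755.lapG_congr (((chartAt E p).tendsto_symm (mem_chart_source E p)).eventually h)

variable [MeasurableSpace M] {μ : Measure M}

variable (E μ) in
/-- `Δu ≥ h` in `U`, in the weak sense -/
def Wk (u h : M → ℝ) (U : Set M) : Prop := ∀ v : M → ℝ, LC v → (∀ p, 0 ≤ v p) →
  (∀ p ∉ U, v p = 0) → ∫ p, (Gam E u v p + v p * h p) ∂μ ≤ 0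

variable [BorelSpace M] [ProperSpace M] [MeasurableSpace E] [BorelSpace E] (hc : H53.Cal E μ)
  (hu : ContMDiff 𝓘(ℝ, E) 𝓘(ℝ, ℝ) ∞ u)
include hc hu

theorem int (hh : Continuous h) (hv : LC v) : Integrable (fun p => Gam E u v p + v p * h p) μ :=
  (hc.int_gam (H34.locallyLipschitz_of_contMDiff hu) hv).add
    (hc.int_cont (hv.cont.mul hh) hv.2.mul_right)

theorem ibp (hv : LC v) : ∫ p, (Gam E u v p + v p * Lap E u p) ∂μ = 0 := by
  obtain ⟨χ, c1, -, c2, -⟩ := hc.cut (tsupport v) univ hv.2 isOpen_univ (subset_univ _)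
  have ev : ∀ p ∈ tsupport v, (fun q => χ q * u q) =ᶠ[𝓝 p] u := fun p hp =>
    (eventually_nhdsSet_iff_forall.1 c2 p hp).mono fun q hq => by simp only [hq, one_mul]
  have e1 : ∀ p, Gam E (fun q => χ q * u q) v p = Gam E u v p := fun p => by
    by_cases hp : p ∈ tsupport v
    · exact hc.congr _ _ _ _ (ev p hp)
    · rw [hc.gam_zero_of_notMem _ hp, hc.gam_zero_of_notMem _ hp]
  have e2 : ∀ p, v p * Lap E (fun q => χ q * u q) p = v p * Lap E u p := fun p => by
    by_cases hp : p ∈ tsupport v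
    · rw [lap_congr (ev p hp)]
    · rw [image_eq_zero_of_notMem_tsupport hp, zero_mul, zero_mul]
  have := hc.ibp (fun q => χ q * u q) v ⟨c1.1.mul hu, c1.2.mul_right⟩ hv
  simp only [e1, e2] at this
  rw [integral_add (hc.int_gam (H34.locallyLipschitz_of_contMDiff hu) hv)
    (hc.int_cont (u := fun p => v p * Lap E u p) (hv.cont.mul (H755.contMDiff_Lap hu).continuous)
      hv.2.mul_right), this, neg_add_cancel]

theorem wk_of (hh : Continuous h) (hle : ∀ p ∈ U, h p ≤ Lap E u p) : Wk E μ u h U :=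
  fun v hv v0 v1 => (integral_mono (int hc hu hh hv) (int hc hu (H755.contMDiff_Lap hu).continuous hv)
    fun p => by
      by_cases hp : p ∈ U
      · exact add_le_add_right (mul_le_mul_of_nonneg_left (hle p hp) (v0 p)) _
      · simp only [v1 p hp, zero_mul, le_refl]).trans_eq (ibp hc hu hv)

theorem wk_log (hle : ∀ p ∈ U, Lap E (fun q => Real.exp (-u q)) p ≤ 0) :
    Wk E μ u (Gam E u u) U := fun v hv v0 v1 => by
  have g : ContMDiff 𝓘(ℝ, E) 𝓘(ℝ, ℝ) ∞ fun q => Real.exp (-u q) :=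
    Real.contDiff_exp.comp_contMDiff hu.neg
  have g' : ContMDiff 𝓘(ℝ, E) 𝓘(ℝ, ℝ) ∞ fun q => Real.exp (u q) :=
    Real.contDiff_exp.comp_contMDiff hu
  have hV := hv.mul_right (H34.locallyLipschitz_of_contMDiff g')
  refine (integral_mono_ae (int hc hu (H755.contMDiff_Gam hu hu).continuous hv)
    (int hc g (H755.contMDiff_Lap g).continuous hV).neg ?_).trans_eq
    (by simp only [Pi.neg_apply, integral_neg, ibp hc g hV, neg_zero])
  filter_upwards [hc.diff v hv.ll] with p d
  have du := hu.mdifferentiableAt (x := p) (by simp)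
  have e : v p * Real.exp (u p) * Lap E (fun q => Real.exp (-u q)) p ≤ 0 := by
    by_cases hp : p ∈ U
    · exact mul_nonpos_of_nonneg_of_nonpos (mul_nonneg (v0 p) (Real.exp_pos _).le) (hle p hp)
    · simp only [v1 p hp, zero_mul, le_refl]
  have e' : Real.exp (-u p) * Real.exp (u p) = 1 := by
    rw [← Real.exp_add, neg_add_cancel, Real.exp_zero]
  rw [Pi.neg_apply, hc.comp (fun t => Real.exp (-t)) u _ p du (by fun_prop),
    (hasDerivAt_neg' (u p)).exp.deriv, hc.mul' _ _ _ _ d (g'.mdifferentiableAt (by simp)),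
    hc.symm u fun q => Real.exp (u q), hc.comp Real.exp u u p du (by fun_prop), Real.deriv_exp]
  linear_combination e - (Gam E u v p + v p * Gam E u u p) * e'

/-- testing with `η² ψ` -/
theorem test (hh : Continuous h) (hW : Wk E μ u h U) {x : M} {r r' c : ℝ} (hr : r < r')
    (hU : closedBall x r' ⊆ U) {ψ F g : M → ℝ} (hψ : LocallyLipschitz ψ) (ψ0 : ∀ p, 0 ≤ ψ p)
    (c0 : 0 ≤ c) (F0 : ∀ p, 0 ≤ F p) (hg : Continuous g)
    (H : ∀ p ∈ ball x r', ∀ s B : ℝ, 0 ≤ s → s ≤ 1 → B ^ 2 ≤ Gam E u u p * (r' - r)⁻¹ ^ 2 →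
      s ^ 2 * F p ≤ c * (s ^ 2 * Gam E u ψ p + 2 * s * ψ p * B + s ^ 2 * ψ p * h p) + g p) :
    ∫ p in ball x r, F p ∂μ ≤ ∫ p in ball x r', g p ∂μ := by
  obtain ⟨η, η1, η2, η3, η4, η5⟩ := lc_cutoff x hr
  have hv := (η1.mul_right η1.ll).mul_right hψ
  have i1 := (int hc hu hh hv).const_mul c
  have i2 := (integrable_indicator_iff measurableSet_ball).2
    (hc.intOn_cont hg (isCompact_closedBall x r') ball_subset_closedBall)
  have k := hW _ hv (fun p => mul_nonneg (mul_self_nonneg _) (ψ0 p)) fun p hp => by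
    rw [η4 p (not_le.1 (mt (@hU p) hp)).le, zero_mul, zero_mul]
  rw [← integral_indicator measurableSet_ball, ← integral_indicator measurableSet_ball]
  refine (integral_mono_of_nonneg (.of_forall (indicator_nonneg fun p _ => F0 p)) (i1.add i2)
    ?_).trans ?_
  · filter_upwards [hc.diff η η1.ll, hc.diff ψ hψ] with p d1 d2
    rw [Pi.add_apply, hc.mul' _ _ _ _ (hc.md_mul d1 d1) d2, hc.mul' _ _ _ _ d1 d1]
    by_cases hp : p ∈ ball x r'
    · have := H p hp _ _ (η2 p).1 (η2 p).2 ((hc.cs u η p).trans (mul_le_mul_of_nonneg_left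
        (hc.le_of_lip' (inv_pos.2 (sub_pos.2 hr)).le η5 p) (hc.nonneg u p)))
      rw [indicator_of_mem hp]
      refine le_trans ?_ (this.trans_eq (by ring))
      by_cases hp' : p ∈ ball x r
      · rw [indicator_of_mem hp', η3 p (le_of_lt hp'), one_pow, one_mul]
      · rw [indicator_of_notMem hp']
        exact mul_nonneg (sq_nonneg _) (F0 p)
    · simp [indicator_of_notMem hp, indicator_of_notMem (mt (@ball_subset_ball _ _ x _ _ hr.le p) hp),
        η4 p (not_lt.1 hp)]
  · rw [integral_add' i1 i2, integral_const_mul]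
    exact add_le_of_nonpos_left (mul_nonpos_of_nonneg_of_nonpos c0 k)

theorem cac (hh : Continuous h) (hW : Wk E μ u h U) {N : ℝ} (N0 : 0 ≤ N) (hN : ∀ p ∈ U, -N ≤ h p) :
    Cac μ u (fun p => √(Gam E u u p)) N U := fun x r r' k _ hr hU => by
  have l : LipschitzWith 1 fun t : ℝ => max (t - k) 0 :=
    (LipschitzWith.of_dist_le_mul fun s t => by simp).max_const 0
  have cw : Continuous fun p => max (u p - k) 0 := l.continuous.comp hu.continuous
  have i := fun {f : M → ℝ} (hf : Continuous f) =>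
    hc.intOn_cont hf (isCompact_closedBall x r') ball_subset_closedBall
  have o : IsOpen {y | k < u y} := isOpen_lt continuous_const hu.continuous
  rw [← setIntegral_indicator o.measurableSet, ← integral_const_mul, ← integral_const_mul,
    ← integral_add (i (by fun_prop)) (i (by fun_prop))]
  refine test hc hu hh hW hr hU (c := 2)
    (l.locallyLipschitz.comp (H34.locallyLipschitz_of_contMDiff hu)) (fun p => le_max_right _ _)
    zero_le_two (indicator_nonneg fun p _ => sq_nonneg _) (by fun_prop) fun p hp s B s0 s1 hB => ?_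
  have du := hu.mdifferentiableAt (x := p) (by simp)
  have A0 := hc.nonneg u p
  change _ ≤ 2 * (_ * Gam E u (fun p => max (u p - k) 0) p + _ * max (u p - k) 0 * B +
    _ * max (u p - k) 0 * _) + _
  rw [hc.symm u]
  by_cases hk : k < u p
  · have e : Gam E (fun p => max (u p - k) 0) u p = Gam E u u p := by
      rw [hc.congr _ (fun p => u p - k) u p (mem_of_superset (o.mem_nhds hk) fun q hq =>
        max_eq_left (sub_pos.2 hq).le), hc.sub _ _ _ _ du mdifferentiableAt_const, hc.const, sub_zero]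
    have w0 := le_max_right (u p - k) 0
    have := quad s (2 * max (u p - k) 0) A0 (sq_nonneg _) hB
    have h1 := mul_le_mul_of_nonneg_left (hN p (hU (ball_subset_closedBall hp)))
      (mul_nonneg (sq_nonneg s) w0)
    have h2 := mul_le_mul_of_nonneg_right (pow_le_one₀ (n := 2) s0 s1) (mul_nonneg w0 N0)
    rw [indicator_of_mem (by exact hk), e, Real.sq_sqrt A0, div_eq_mul_inv, ← inv_pow]
    linarith
  · obtain ⟨a, a0, -, ha⟩ := hc.mono _ 1 u p
      (fun s t h => max_le_max (sub_le_sub_right h k) le_rfl) l du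
    rw [indicator_of_notMem (by exact hk), ha, max_eq_right (sub_nonpos.2 (not_lt.1 hk))]
    simp only [mul_zero, zero_mul, add_zero, zero_pow two_ne_zero]
    positivity

theorem lg (hW : Wk E μ u (Gam E u u) U) : Lg μ u (fun p => √(Gam E u u p)) U := by
  have hh := (H755.contMDiff_Gam hu hu).continuous
  refine ⟨ug hu, cac hc hu hh hW le_rfl fun p _ => neg_zero.trans_le (hc.nonneg u p),
    fun x r r' β _ hr _ β1 hU => ?_⟩
  have g : ContMDiff 𝓘(ℝ, E) 𝓘(ℝ, ℝ) ∞ fun q => Real.exp (-β * u q) :=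
    Real.contDiff_exp.comp_contMDiff (contMDiff_const.mul hu)
  have b := sub_pos.2 β1
  rw [← integral_const_mul]
  refine test hc hu hh hW hr hU (c := 2 / (1 - β)) (H34.locallyLipschitz_of_contMDiff g)
    (fun p => (Real.exp_pos _).le) (by positivity) (fun p => by positivity)
    (continuous_const.mul g.continuous) fun p _ s B _ _ hB => ?_
  have A0 := hc.nonneg u p
  have := mul_nonneg (Real.exp_pos (-β * u p)).le (quad s (2 / (1 - β)) A0 (sq_nonneg _) hB)
  rw [hc.symm u, hc.comp (fun t => Real.exp (-β * t)) u u p (hu.mdifferentiableAt (by simp))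
    (by fun_prop), ((hasDerivAt_id' (u p)).const_mul (-β)).exp.deriv, Real.sq_sqrt A0,
    ← sub_nonneg]
  refine this.trans_eq ?_
  have := (sub_pos.2 hr).ne'
  field_simp
  ring

end Vale.Agent.P253W.HK.Brs
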