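import Vale.Agent.P253W.HK.U1

/-!
# P253W, block HK, row CLN: the loss of volume
-/

open scoped Manifold ContDiff Bundle ENNReal Topology
open Bundle MeasureTheory Set Metric Filter Vale.Agent.P253Z
open Vale.Agent.P272.K (Cm Chart)

noncomputable section

namespace Vale.Agent.P253W.HK

variable {n : ℕ} {M : Type} [MetricSpace M] [ChartedSpace (Cm n) M]
  [RiemannianBundle (fun x : M => TangentSpace 𝓘(ℝ, Cm n) x)] [ProperSpace M]
  [MeasurableSpace M] [BorelSpace M] {μ : Measure M} {F : Flow n M}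

open U1a in
/-- **CLN** -/
theorem cln (C : Cal F) (h1 : F.Bas1) (h2 : F.Bas2) (b3 : B3 n μ) (hS : STA F (-1))
    (hP : RP n F.o) (hU : UPB F) (hG : GRN F μ) (hT : TFT F μ) : CLN F μ := by
  intro N hW S
  have : IsFiniteMeasureOnCompacts μ := ⟨fun K hK => b3.fin K hK⟩
  obtain ⟨K, hK, hσ⟩ := hS N
  obtain ⟨p, P, hP, sp, hp⟩ := hP
  obtain ⟨A, hA, hu⟩ := hU S
  set W := ∫ x, maj F x / (1 + F.r x) ^ (2 * N) ∂μ
  set E := (A * P * P + 1) * K * n + A * P * K * 2 * n with hE
  have r1 : ∀ x, 1 ≤ 1 + F.r x := fun x => le_add_of_nonneg_right dist_nonneg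
  refine ⟨K * (E * W), fun ρ t ht => ?_⟩
  obtain ⟨ρ', σ, sσ, hσ⟩ := hσ ρ
  have hs : ∀ x, σ x ≠ 0 → F.r x ≤ ρ' := fun x hx => not_lt.1 fun h => hx ((hσ x).2.2.1 h.le)
  have z : ∀ x, ρ' < F.r x → σ x = 0 := fun x hx => (hσ x).2.2.1 hx.le
  have cσ := sm_cont C sσ
  obtain ⟨i1, e1⟩ := hT (S + 1) ρ' (fun _ => σ) (smT_const sσ) (fun t _ x hx => (hσ x).2.2.1 hx)
    0 t le_rfl ht.1 (ht.2.trans_lt (lt_add_one S))
  have iv : ∀ τ, 0 ≤ τ → Integrable (fun x => σ x * vol F τ x) μ := fun τ h =>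
    int_of (cσ.mul (slice (vol_cont h1) h)) fun x hx => mul_eq_zero_of_left (z x hx) _
  have e2 : ∫ x, σ x * (1 - vol F t x) ∂μ ≤ E * W * t := by
    have e3 : ∫ x, σ x * (1 - vol F t x) ∂μ =
        -(∫ x, σ x * vol F t x ∂μ - ∫ x, σ x * vol F 0 x ∂μ) := by
      rw [neg_sub, ← integral_sub (iv 0 le_rfl) (iv t ht.1)]
      simp only [vol, sub_self, Real.exp_zero, mul_sub]
    rw [e3, e1, neg_le]
    refine le_trans (by simp; linarith) (intervalIntegral.integral_mono_on ht.1
      (intervalIntegrable_const (c := -(E * W))) i1 fun τ hτ => ?_)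
    have cv : Continuous (vol F τ) := slice (vol_cont h1) hτ.1
    have su := h1.sm_at _ h1.u_sm τ hτ.1
    have sw : Sm n fun y => A * P * p y + -1 * F.u τ y := fun e he z hz =>
      (contDiffAt_const.mul (sp e he z hz)).add (contDiffAt_const.mul (su e he z hz))
    have j1 : Integrable (fun x => σ x * F.lap τ (fun y => A * P * p y + -1 * F.u τ y) x *
        vol F τ x) μ := int_of ((cσ.mul (lap_cont C sw hτ.1)).mul cv) fun x hx =>
      mul_eq_zero_of_left (mul_eq_zero_of_left (z x hx) _) _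
    have j2 : Integrable (fun x => (A * P * p x + -1 * F.u τ x) * F.lap τ σ x * vol F τ x) μ :=
      int_of (((sm_cont C sw).mul (lap_cont C sσ hτ.1)).mul cv) fun x hx =>
        mul_eq_zero_of_left (mul_eq_zero_of_right _ (lap_zero C hs τ hx)) _
    have j3 : Integrable (fun x => A * P * (σ x * F.lap τ p x * vol F τ x)) μ :=
      (int_of ((cσ.mul (lap_cont C sp hτ.1)).mul cv) fun x hx =>
        mul_eq_zero_of_left (mul_eq_zero_of_left (z x hx) _) _).const_mul _
    have e4 : ∀ x, (dt (fun _ => σ) τ x - F.R τ x * σ x) * vol F τ x =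
        σ x * F.lap τ (fun y => A * P * p y + -1 * F.u τ y) x * vol F τ x -
          A * P * (σ x * F.lap τ p x * vol F τ x) := fun x => by
      rw [C.lin τ _ _ _ _ x (C.c2 _ sp x) (C.c2 _ su x), dt, deriv_const, Flow.R]
      ring
    simp only [e4]
    rw [integral_sub j1 j3, hG τ hτ.1 σ _ sσ sw (HasCompactSupport.intro
      (isCompact_closedBall F.o ρ') fun x hx => z x (not_le.1 hx)), ← integral_sub j2 j3,
      ← integral_const_mul, ← integral_neg]
    refine integral_mono (hW.const_mul E).neg (j2.sub j3) fun x => ?_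
    obtain ⟨p1, p2, p3, -⟩ := hp x
    obtain ⟨σ0, σ1, -, -, σ2⟩ := hσ x
    have l1 := (σ2 τ hτ.1).1
    have l2 := C.up τ hτ.1 p 2 x p3
    obtain ⟨y1, v1⟩ := C.y_vol τ hτ.1 x
    have y0 : 0 ≤ F.y τ x := (Nat.cast_nonneg n).trans (h2.y_ge τ hτ.1 x)
    have v0 : 0 < vol F τ x := Real.exp_pos _
    have r0 := r1 x
    have m0 := maj_pos (F := F) x
    have u1 := hu τ ⟨hτ.1, hτ.2.trans ht.2⟩ x
    have u0 : F.u 0 x - F.u τ x ≤ 0 := Real.exp_le_one_iff.1 v1
    change (1 + F.r x) ^ 2 ≤ _ at p1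
    change _ ≤ P * (1 + F.r x) ^ 2 at p2
    have w0 : 0 ≤ A * P * p x + -1 * F.u τ x := by nlinarith
    have w1 : A * P * p x + -1 * F.u τ x ≤ (A * P * P + 1) * maj F x := by
      have := mul_le_mul_of_nonneg_left p2 (show 0 ≤ A * P by positivity)
      have h3 : 0 ≤ A * P * P * |F.u 0 x| := by positivity
      rw [maj]
      nlinarith [neg_abs_le (F.u 0 x), sq_nonneg (1 + F.r x)]
    have k1 : (A * P * p x + -1 * F.u τ x) * (-1 * F.lap τ σ x) * vol F τ x ≤
        (A * P * P + 1) * K * n * (maj F x / (1 + F.r x) ^ (2 * N)) :=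
      calc _ ≤ (A * P * p x + -1 * F.u τ x) * (K * F.y τ x / (1 + F.r x) ^ (2 * N + 2)) *
            vol F τ x := by gcongr
        _ ≤ (A * P * P + 1) * maj F x * (K * F.y τ x / (1 + F.r x) ^ (2 * N)) * vol F τ x := by
          gcongr; omega
        _ = (A * P * P + 1) * K * (F.y τ x * vol F τ x) * (maj F x / (1 + F.r x) ^ (2 * N)) := by
          ring
        _ ≤ _ := by gcongr
    have k2 : A * P * (σ x * F.lap τ p x * vol F τ x) ≤
        A * P * K * 2 * n * (maj F x / (1 + F.r x) ^ (2 * N)) :=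
      calc _ ≤ A * P * (σ x * (2 * F.y τ x) * vol F τ x) := by gcongr
        _ ≤ A * P * (K / (1 + F.r x) ^ (2 * N) * (2 * F.y τ x) * vol F τ x) := by gcongr
        _ = A * P * K * 2 * (F.y τ x * vol F τ x) * (1 / (1 + F.r x) ^ (2 * N)) := by ring
        _ ≤ _ := by gcongr
    simp only [hE]
    linarith
  have i3 : Integrable (fun x => K * (σ x * (1 - vol F t x))) μ :=
    (int_of (cσ.mul (continuous_const.sub (slice (vol_cont h1) ht.1))) fun x hx =>
      mul_eq_zero_of_left (z x hx) _).const_mul K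
  have v1 : ∀ x, 0 ≤ 1 - vol F t x := fun x => sub_nonneg.2 (C.y_vol t ht.1 x).2
  calc _ ≤ ∫ x in closedBall F.o ρ, K * (σ x * (1 - vol F t x)) ∂μ := by
        refine integral_mono_of_nonneg (Eventually.of_forall fun x =>
          div_nonneg (v1 x) (pow_nonneg (zero_le_one.trans (r1 x)) _)) i3.integrableOn ?_
        filter_upwards [ae_restrict_mem measurableSet_closedBall] with x hx
        rw [div_eq_mul_one_div]
        exact (mul_le_mul_of_nonneg_left ((hσ x).2.2.2.1 hx) (v1 x)).trans (le_of_eq (by ring))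
    _ ≤ ∫ x, K * (σ x * (1 - vol F t x)) ∂μ := setIntegral_le_integral i3
        (Eventually.of_forall fun x => mul_nonneg (by linarith) (mul_nonneg (hσ x).1 (v1 x)))
    _ ≤ _ := by
        rw [integral_const_mul, mul_assoc]
        exact mul_le_mul_of_nonneg_left e2 (by linarith)

end Vale.Agent.P253W.HK
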