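import Vale.Agent.P253W.HK.Defs

/-!
# P253W, block HK, row CAL1: the pointwise rules of calculus
-/

open scoped Manifold ContDiff Bundle Topology ComplexOrder
open Bundle Set Filter Vale.Agent.P253Z
open Vale.Agent.P272.K (Cm Chart cHess cHess_congr cHess_add cHess_const_mul cHess_const dz_const
  dzb_const)
open Vale.Agent.P272.K.AMP
open Vale.Agent.P272.K.C2 (trace_mul_nonneg)

noncomputable section

namespace Vale.Agent.P253W.HK

variable {n : ℕ} {M : Type} [MetricSpace M] [ChartedSpace (Cm n) M]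

namespace Cal1

theorem li (x : M) : (pc n x).symm (pc n x x) = x := (pc n x).left_inv (mem_chart_source _ x)

theorem tnd (x : M) : Tendsto (pc n x).symm (𝓝 (pc n x x)) (𝓝 x) := by
  have := (pc n x).continuousAt_symm (mem_chart_target _ x)
  rwa [ContinuousAt, li] at this

theorem df {f : M → ℝ} {x : M} (h : C2 n f x) :
    DifferentiableAt ℝ (fun y => f ((pc n x).symm y)) (pc n x x) :=
  ContDiffAt.differentiableAt h (by simp)

theorem trg_nonneg {g a : Mx n} (hg : g.PosDef) (ha : a.PosSemidef) : 0 ≤ trg g a :=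
  (Complex.le_def.1 (trace_mul_nonneg hg.inv.posSemidef ha)).1

end Cal1

open Cal1

theorem cal_c2 (ba : B1a n M) : ∀ f : M → ℝ, Sm n f → ∀ x, C2 n f x := fun _ h x =>
  (h _ (ba.chart x) _ (mem_chart_target _ x)).of_le (by norm_cast)

variable [RiemannianBundle (fun x : M => TangentSpace 𝓘(ℝ, Cm n) x)] {F : Flow n M}

theorem Cal1.pos (ba : B1a n M) (hI : F.Is) {t : ℝ} (ht : 0 ≤ t) (x : M) : (F.gx t x).PosDef :=
  hI.pos t ht _ (ba.chart x) _ (mem_chart_target _ x)

theorem cal_congr : ∀ t (f h : M → ℝ) x, f =ᶠ[𝓝 x] h → F.lap t f x = F.lap t h x :=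
  fun _ _ _ x e => congrArg (trg _) (cHess_congr ((tnd x).eventually e))

theorem cal_const : ∀ t c x, F.lap t (fun _ => c) x = 0 := fun t c x => by
  simp [Flow.lap, hs, cHess_const, trg]

theorem cal_lin : ∀ t (a b : ℝ) (f h : M → ℝ) x, C2 n f x → C2 n h x →
    F.lap t (fun y => a * f y + b * h y) x = a * F.lap t f x + b * F.lap t h x := by
  intro t a b f h x hf hh
  simp only [Flow.lap, hs, trg]
  rw [cHess_add (contDiffAt_const.mul hf) (contDiffAt_const.mul hh), cHess_const_mul a hf,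
    cHess_const_mul b hh, tr_add, tr_smul, tr_smul]

theorem cal_mul (ba : B1a n M) (hI : F.Is) : ∀ t, 0 ≤ t → ∀ (f h : M → ℝ) x, C2 n f x →
    C2 n h x → F.lap t (fun y => f y * h y) x =
      f x * F.lap t h x + h x * F.lap t f x + 2 * gr F t f h x := by
  intro t ht f h x hf hh
  simp only [Flow.lap, hs, trg, gr, dd]
  rw [cHess_mul hf hh, tr_add, tr_add, tr_add, tr_smul, tr_smul, li,
    trace_gm_comm (Cal1.pos ba hI ht x) (fun y => h ((pc n x).symm y))]
  ring

theorem cal_comp : ∀ t (φ : ℝ → ℝ) (f : M → ℝ) x, ContDiffAt ℝ 2 φ (f x) → C2 n f x →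
    F.lap t (fun y => φ (f y)) x =
      deriv φ (f x) * F.lap t f x + deriv (deriv φ) (f x) * gr F t f f x := by
  intro t φ f x hφ hf
  simp only [Flow.lap, hs, trg, gr, dd]
  rw [cHess_comp_real (f := fun y => f ((pc n x).symm y)) (by rwa [li]) hf, tr_add, tr_smul,
    tr_smul, li]

theorem cal_gr_comp : ∀ t (φ χ : ℝ → ℝ) (f h : M → ℝ) x, DifferentiableAt ℝ φ (f x) →
    DifferentiableAt ℝ χ (h x) → C2 n f x → C2 n h x →
    gr F t (fun y => φ (f y)) (fun y => χ (h y)) x =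
      deriv φ (f x) * deriv χ (h x) * gr F t f h x := by
  intro t φ χ f h x hφ hχ hf hh
  have e : dd (fun y => φ (f y)) (fun y => χ (h y)) (pc n x) (pc n x x) =
      ((deriv φ (f x) * deriv χ (h x) : ℝ) : ℂ) • dd f h (pc n x) (pc n x x) := by
    ext i j
    simp only [dd, gm, Matrix.of_apply, Matrix.smul_apply, smul_eq_mul]
    rw [dz_real_comp (f := fun y => f ((pc n x).symm y)) (by rwa [li]) (df hf),
      dzb_real_comp (f := fun y => h ((pc n x).symm y)) (by rwa [li]) (df hh), li]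
    push_cast
    ring
  simp only [gr, trg, e, tr_smul]

theorem cal_gr_nonneg (ba : B1a n M) (hI : F.Is) :
    ∀ t, 0 ≤ t → ∀ (f : M → ℝ) x, 0 ≤ gr F t f f x :=
  fun _ ht _ x => trace_gm_nonneg (Cal1.pos ba hI ht x) _ _

theorem cal_gr_cs (ba : B1a n M) (hI : F.Is) : ∀ t, 0 ≤ t → ∀ (f h : M → ℝ) x (a : ℝ),
    C2 n f x → C2 n h x → 2 * a * gr F t f h x ≤ a ^ 2 * gr F t f f x + gr F t h h x := by
  intro t ht f h x a hf hh
  have e : dd (fun y => a * f y + -1 * h y) (fun y => a * f y + -1 * h y) (pc n x) (pc n x x) =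
      ((a ^ 2 : ℝ) : ℂ) • dd f f (pc n x) (pc n x x) + dd h h (pc n x) (pc n x x) -
        (a : ℂ) • dd f h (pc n x) (pc n x x) - (a : ℂ) • dd h f (pc n x) (pc n x x) := by
    ext i j
    have c : ∀ s : ℝ, DifferentiableAt ℝ (fun _ : Cm n => s) (pc n x x) :=
      fun s => differentiableAt_const s
    simp only [dd, gm, Matrix.of_apply, Matrix.smul_apply, Matrix.add_apply, Matrix.sub_apply,
      smul_eq_mul]
    rw [dz_real_add ((c a).fun_mul (df hf)) ((c _).fun_mul (df hh)),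
      dzb_real_add ((c a).fun_mul (df hf)) ((c _).fun_mul (df hh)), dz_real_mul (c a) (df hf),
      dz_real_mul (c _) (df hh), dzb_real_mul (c a) (df hf), dzb_real_mul (c _) (df hh)]
    simp only [dz_const, dzb_const]
    push_cast
    ring
  have p := cal_gr_nonneg ba hI t ht (fun y => a * f y + -1 * h y) x
  have q : gr F t h f x = gr F t f h x := trace_gm_comm (Cal1.pos ba hI ht x) _ _ _
  simp only [gr, trg] at p q ⊢
  rw [e, tr_sub, tr_sub, tr_add, tr_smul, tr_smul, tr_smul, q] at p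
  linarith

theorem cal_lo (ba : B1a n M) (hI : F.Is) : ∀ t, 0 ≤ t → ∀ (f : M → ℝ) c x, Lo n f c x →
    -(c * F.y t x) ≤ F.lap t f x := by
  intro t ht f c x h
  have := trg_nonneg (Cal1.pos ba hI ht x) h
  rw [trg, tr_add, tr_smul] at this
  exact neg_le_iff_add_nonneg.2 this

theorem cal_up (ba : B1a n M) (hI : F.Is) : ∀ t, 0 ≤ t → ∀ (f : M → ℝ) c x, Up n f c x →
    F.lap t f x ≤ c * F.y t x := by
  intro t ht f c x h
  have := trg_nonneg (Cal1.pos ba hI ht x) h
  rw [trg, tr_sub, tr_smul] at this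
  exact sub_nonneg.1 this

theorem cal_gr_le (ba : B1a n M) (hI : F.Is) : ∀ t, 0 ≤ t → ∀ (f : M → ℝ) c x, Gr n f c x →
    gr F t f f x ≤ c * F.y t x := by
  intro t ht f c x h
  have := trg_nonneg (Cal1.pos ba hI ht x) h
  rw [trg, tr_sub, tr_smul] at this
  exact sub_nonneg.1 this

theorem cal_min (ba : B1a n M) (hI : F.Is) : ∀ t, 0 ≤ t → ∀ (f : M → ℝ) x, C2 n f x →
    IsLocalMin f x → 0 ≤ F.lap t f x := by
  intro t ht f x hf h
  have h1 : IsLocalMin (fun y => f ((pc n x).symm y)) (pc n x x) := by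
    have := (tnd (n := n) x).eventually h
    show ∀ᶠ y in _, f _ ≤ f _
    rwa [li]
  have h2 := Vale.Agent.P272.K.N.neg_cHess_posSemidef (ContDiffAt.neg hf) h1.neg
  have h3 := cHess_const_mul (-1) hf
  simp only [neg_mul, one_mul] at h3
  rw [h3] at h2
  exact trg_nonneg (Cal1.pos ba hI ht x) (by simpa [hs] using h2)

theorem cal_psi (ba : B1a n M) (hI : F.Is) :
    ∀ t, 0 ≤ t → ∀ x, Lo n (F.ψ t) 0 x ∧ Up n (F.ψ t) 1 x := fun t ht x =>
  ⟨by simpa [Lo] using hI.le t ht _ (ba.chart x) _ (mem_chart_target _ x),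
    by simpa [Up, Flow.gx, Flow.g] using (Cal1.pos ba hI ht x).posSemidef⟩

theorem cal_u0 (ba : B1a n M) (b1 : F.Bas1) (b2 : F.Bas2) (hB : B2 n M) :
    ∀ x, Lo n (F.u 0) 0 x := fun x => by
  have h := b2.u_hs 0 le_rfl _ (ba.chart x) _ (mem_chart_target _ x)
  simp only [b1.g_zero] at h
  have h2 := (hB _ (ba.chart x) _ (mem_chart_target _ x)).posSemidef
  rw [Lo, h, Complex.ofReal_zero, zero_smul, add_zero]
  exact h2

theorem cal_y_vol (hI : F.Is) (b2 : F.Bas2) :
    ∀ t, 0 ≤ t → ∀ x, F.y t x * vol F t x ≤ n ∧ vol F t x ≤ 1 := by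
  intro t ht x
  refine ⟨(mul_le_mul_of_nonneg_right (b2.y_le t ht x) (Real.exp_pos _).le).trans (le_of_eq ?_),
    Real.exp_le_one_iff.2 (sub_nonpos.2 (hI.mono x (mem_Ici.2 le_rfl) ht ht))⟩
  rw [mul_assoc, ← Real.exp_add]
  simp

end Vale.Agent.P253W.HK
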