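import Vale.Agent.P253W.HK.Cal1
import Vale.Agent.P253W.FG.Calc

/-!
# P253W, block HK, row CAL2: cutoff functions, locality of smoothness, continuity
-/

set_option linter.unusedSectionVars false

open scoped Manifold ContDiff Bundle Topology ComplexOrder
open Bundle MeasureTheory Set Metric Filter Vale.Agent.P253Z
open Vale.Agent.P272.K (Cm Chart jacM)

noncomputable section

namespace Vale.Agent.P253W.HK

variable {n : ℕ} {M : Type} [MetricSpace M] [ChartedSpace (Cm n) M]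

namespace Cal2

theorem sm_of (a : B1a n M) {ζ : M → ℝ} (h : ContMDiff 𝓘(ℝ, Cm n) 𝓘(ℝ, ℝ) ∞ ζ) : Sm n ζ :=
  a.sm_loc ζ fun x => ⟨_, a.chart x, mem_chart_source _ x, by
    simpa [contMDiffWithinAt_univ, contMDiffAt_iff_contDiffAt, Function.comp_def] using
      contMDiffAt_iff_source.1 (h x)⟩

theorem cut [ProperSpace M] [IsManifold 𝓘(ℝ, Cm n) ∞ M] (h : B1a n M) (o : M) (a b : ℝ)
    (hab : a < b) : ∃ ζ : M → ℝ, Sm n ζ ∧ ∀ x, 0 ≤ ζ x ∧ ζ x ≤ 1 ∧
      (dist x o ≤ a → ζ x = 1) ∧ (b ≤ dist x o → ζ x = 0) := by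
  have c : Continuous fun x => dist x o := continuous_id.dist continuous_const
  obtain ⟨f, h0, h1, h2⟩ := exists_contMDiffMap_zero_one_of_isClosed (n := ⊤) 𝓘(ℝ, Cm n)
    (isClosed_le (continuous_const (y := b)) c) (isClosed_le c (continuous_const (y := a)))
    (Set.disjoint_left.2 fun x (p : b ≤ dist x o) (q : dist x o ≤ a) => by linarith)
  exact ⟨f, sm_of h f.contMDiff, fun x => ⟨(h2 x).1, (h2 x).2, fun p => h1 p, fun p => h0 p⟩⟩

theorem trans_at (a : B1a n M) {e e' : Chart n M} (he : Hc e) (he' : Hc e') {z : Cm n}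
    (hz : z ∈ e.target) (hs : e.symm z ∈ e'.source) :
    ContDiffAt ℝ ∞ (fun y => e' (e.symm y)) z :=
  ((a.hol e e' he he' z hz hs).contDiffAt (n := ∞)).restrict_scalars ℝ

theorem ev_src {e e' : Chart n M} {z : Cm n} (hz : z ∈ e.target) (hs : e.symm z ∈ e'.source) :
    ∀ᶠ y in 𝓝 z, e.symm y ∈ e'.source :=
  e.continuousAt_symm hz (e'.open_source.mem_nhds hs)

theorem loc (a : B1a n M) (I : Set ℝ) (f : ℝ → M → ℝ)
    (h : ∀ t ∈ I, ∀ x, ∃ e : Chart n M, Hc e ∧ x ∈ e.source ∧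
      ContDiffWithinAt ℝ ∞ (ch e f) (I ×ˢ univ) (t, e x)) : SmT n I f := by
  rintro e' he' ⟨t, z⟩ ⟨ht, hz⟩
  obtain ⟨e, he, hx, h1⟩ := h t ht (e'.symm z)
  have h2 : ContDiffAt ℝ ∞ (fun q : ℝ × Cm n => (q.1, e (e'.symm q.2))) (t, z) :=
    contDiffAt_fst.prodMk ((trans_at a he' he hz hx).comp (t, z) contDiffAt_snd)
  have h3 := ContDiffWithinAt.comp (t, z) (g := ch e f) (s := I ×ˢ e'.target) h1
    h2.contDiffWithinAt fun q hq => mk_mem_prod hq.1 (mem_univ _)
  have h4 : ∀ᶠ q : ℝ × Cm n in 𝓝 (t, z),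
      ch e' f q = (ch e f ∘ fun q : ℝ × Cm n => (q.1, e (e'.symm q.2))) q := by
    filter_upwards [continuousAt_snd (p := (t, z)) (ev_src hz hx)] with q hq
    simp only [ch, Function.comp, e.left_inv hq]
  exact h3.congr_of_eventuallyEq (nhdsWithin_le_nhds h4) h4.self_of_nhds

theorem smD {I : Set ℝ} {f : ℝ → M → ℝ} (h : SmT n I f) (D : Set M) : SmD n I D f :=
  fun e he => (h e he).mono (prod_mono le_rfl inter_subset_left)

theorem slice (a : B1a n M) (I : Set ℝ) (D : Set M) (f : ℝ → M → ℝ) (hD : IsOpen D)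
    (h : SmD n I D f) (t : ℝ) (ht : t ∈ I) (x : M) (hx : x ∈ D) :
    C2 n (f t) x ∧ ContDiffWithinAt ℝ ∞ (fun s => f s x) I t := by
  have h0 := mem_chart_source (Cm n) x
  have h1 : pc n x x ∈ (pc n x).target ∩ (pc n x).symm ⁻¹' D :=
    ⟨(pc n x).map_source h0, by rwa [mem_preimage, (pc n x).left_inv h0]⟩
  refine ⟨(FG.Calc.slice ((pc n x).isOpen_inter_preimage_symm hD) (h _ (a.chart x)) ht h1).of_le
    FG.Calc.two_le, ?_⟩
  have h2 := ContDiffWithinAt.comp t (f := fun s => (s, pc n x x)) (s := I)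
    (h _ (a.chart x) (t, pc n x x) ⟨ht, h1⟩)
    (contDiff_id.prodMk contDiff_const).contDiffAt.contDiffWithinAt fun s hs => ⟨hs, h1⟩
  simpa only [Function.comp_def, ch, (pc n x).left_inv h0] using h2

theorem sm (I : Set ℝ) (f : ℝ → M → ℝ) (h : SmT n I f) (t : ℝ) (ht : t ∈ I) : Sm n (f t) :=
  fun e he _ hz => FG.Calc.slice e.open_target (h e he) ht hz

/-- continuity can be checked in charts -/
theorem cont_of (a : B1a n M) {I : Set ℝ} {D : Set M} {Φ : ℝ × M → ℝ}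
    (h : ∀ e : Chart n M, Hc e → ContinuousOn (fun q : ℝ × Cm n => Φ (q.1, e.symm q.2))
      (I ×ˢ (e.target ∩ e.symm ⁻¹' D))) : ContinuousOn Φ (I ×ˢ D) := by
  rintro ⟨t, x⟩ ⟨ht, hx⟩
  have h0 := mem_chart_source (Cm n) x
  have m : MapsTo (fun q : ℝ × M => (q.1, pc n x q.2)) (I ×ˢ D ∩ univ ×ˢ (pc n x).source)
      (I ×ˢ ((pc n x).target ∩ (pc n x).symm ⁻¹' D)) := fun q hq =>
    ⟨hq.1.1, (pc n x).map_source hq.2.2, by
      rw [mem_preimage, (pc n x).left_inv hq.2.2]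
      exact hq.1.2⟩
  have c : ContinuousAt (fun q : ℝ × M => (q.1, pc n x q.2)) (t, x) :=
    continuousAt_fst.prodMk (ContinuousAt.comp (x := (t, x)) ((pc n x).continuousAt h0)
      continuousAt_snd)
  have h1 := ContinuousWithinAt.comp (f := fun q : ℝ × M => (q.1, pc n x q.2))
    (h _ (a.chart x) _ (m ⟨⟨ht, hx⟩, trivial, h0⟩)) c.continuousWithinAt m
  rw [← continuousWithinAt_inter ((isOpen_univ.prod (pc n x).open_source).mem_nhds ⟨trivial, h0⟩)]
  refine h1.congr (fun q hq => ?_) ?_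
  · simp only [Function.comp, (pc n x).left_inv hq.2.2]
  · simp only [Function.comp, (pc n x).left_inv h0]

theorem cont_of' (a : B1a n M) {I : Set ℝ} {Φ : ℝ × M → ℝ}
    (h : ∀ e : Chart n M, Hc e → ContinuousOn (fun q : ℝ × Cm n => Φ (q.1, e.symm q.2))
      (I ×ˢ e.target)) : ContinuousOn Φ (I ×ˢ univ) :=
  cont_of a fun e he => (h e he).mono (prod_mono le_rfl inter_subset_left)

theorem cont (a : B1a n M) (I : Set ℝ) (D : Set M) (f : ℝ → M → ℝ) (h : SmD n I D f) :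
    ContinuousOn (Function.uncurry f) (I ×ˢ D) :=
  cont_of a fun e he => (h e he).continuousOn

/-- the time derivative within `I` is smooth -/
theorem smT_dt {I : Set ℝ} (hI : UniqueDiffOn ℝ I) {f : ℝ → M → ℝ} (h : SmT n I f) :
    SmT n I fun t x => derivWithin (fun s => f s x) I t := fun e he => by
  have h1 : ContDiffOn ℝ ∞ (fderivWithin ℝ (ch e f) (I ×ˢ e.target)) (I ×ˢ e.target) :=
    (h e he).fderivWithin (hI.prod e.open_target.uniqueDiffOn) (by simp)
  refine (h1.clm_apply (contDiffOn_const (c := ((1 : ℝ), (0 : Cm n))))).congr fun q hq => ?_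
  have h2 : HasDerivWithinAt (fun s : ℝ => (s, q.2)) ((1 : ℝ), (0 : Cm n)) I q.1 :=
    ((hasDerivAt_id q.1).prodMk (hasDerivAt_const q.1 q.2)).hasDerivWithinAt
  exact (((h e he).differentiableOn (by simp) q hq).hasFDerivWithinAt.comp_hasDerivWithinAt q.1 h2
    fun s hs => mk_mem_prod hs hq.2).derivWithin (hI _ hq.1)

theorem cont_dt (a : B1a n M) (T : ℝ) (f : ℝ → M → ℝ) (h : SmT n (Ico 0 T) f) :
    ∃ f' : ℝ → M → ℝ, ContinuousOn (Function.uncurry f') (Ico 0 T ×ˢ univ) ∧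
      ∀ t ∈ Ioo 0 T, ∀ x, HasDerivAt (fun s => f s x) (f' t x) t :=
  ⟨_, cont a _ _ _ (smD (smT_dt (uniqueDiffOn_Ico 0 T) h) _), fun t ht x =>
    ((slice a _ _ f isOpen_univ (smD h _) t (Ioo_subset_Ico_self ht) x trivial).2.differentiableWithinAt
      (by simp)).hasDerivWithinAt.hasDerivAt (Ico_mem_nhds ht.1 ht.2)⟩

theorem trg_pb {J g b : Mx n} (h : J.det ≠ 0) : trg (pb J g) (pb J b) = trg g b :=
  congrArg Complex.re (P272.K.trace_form h.isUnit)

theorem trg_cont {X : Type} [TopologicalSpace X] {s : Set X} {g b : X → Mx n}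
    (hg : ∀ j k, ContinuousOn (fun x => g x j k) s) (hb : ∀ j k, ContinuousOn (fun x => b x j k) s)
    (h0 : ∀ x ∈ s, (g x).det ≠ 0) : ContinuousOn (fun x => trg (g x) (b x)) s := by
  have c1 : ContinuousOn g s := continuousOn_pi.2 fun j => continuousOn_pi.2 (hg j)
  have c2 : ContinuousOn b s := continuousOn_pi.2 fun j => continuousOn_pi.2 (hb j)
  have c3 : ContinuousOn (fun x => (g x)⁻¹) s := fun x hx =>
    ContinuousAt.comp_continuousWithinAt (g := fun A : Mx n => A⁻¹) (f := g)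
      (continuousAt_matrix_inv (g x) (by
        rw [Ring.inverse_eq_inv']
        exact continuousAt_inv₀ (h0 x hx))) (c1 x hx)
  have c4 : Continuous fun p : Mx n × Mx n => (p.1 * p.2).trace :=
    (continuous_fst.matrix_mul continuous_snd).matrix_trace
  exact Complex.continuous_re.comp_continuousOn
    (Continuous.comp_continuousOn (f := fun x => ((g x)⁻¹, b x)) c4 (c3.prodMk c2))

/-- the gradient matrix is a form -/
theorem dd_ch (a : B1a n M) {f h : M → ℝ} {e e' : Chart n M} (he : Hc e) (he' : Hc e') {x : M}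
    (hx : x ∈ e.source) (hx' : x ∈ e'.source)
    (hf : DifferentiableAt ℝ (fun y => f (e'.symm y)) (e' x))
    (hh : DifferentiableAt ℝ (fun y => h (e'.symm y)) (e' x)) :
    dd f h e (e x) = pb (jacM e e' x) (dd f h e' (e' x)) := by
  have h2 := e.left_inv hx
  have key : ∀ w : M → ℝ, (fun y => ((w (e.symm y) : ℝ) : ℂ)) =ᶠ[𝓝 (e x)]
      fun y => (fun y => ((w (e'.symm y) : ℝ) : ℂ)) (e' (e.symm y)) := fun w => by
    filter_upwards [ev_src (e.map_source hx) (h2.symm ▸ hx')] with z hz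
    rw [e'.left_inv hz]
  have hτ := (a.hol e e' he he' _ (e.map_source hx) (h2.symm ▸ hx')).differentiableAt
  ext i j
  simp only [dd, P272.K.AMP.gm, Matrix.of_apply, pb]
  rw [P272.K.dz_congr (key f), P272.K.dzb_congr (key h),
    P272.K.dz_comp_holo (f := fun y => ((f (e'.symm y) : ℝ) : ℂ))
      (h2.symm ▸ P272.K.AMP.ofReal_diff hf) hτ,
    P272.K.dzb_comp_holo (f := fun y => ((h (e'.symm y) : ℝ) : ℂ))
      (h2.symm ▸ P272.K.AMP.ofReal_diff hh) hτ, h2]
  simp only [Matrix.mul_apply, Matrix.transpose_apply, Matrix.map_apply, Matrix.of_apply,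
    Finset.sum_mul, Finset.mul_sum, P272.K.jacM_eq]
  refine Finset.sum_congr rfl fun p _ => Finset.sum_congr rfl fun q _ => ?_
  simp only [P272.K.cj]
  ring

variable [RiemannianBundle (fun x : M => TangentSpace 𝓘(ℝ, Cm n) x)] {F : Flow n M}

/-- the inner product of the gradients in any chart -/
theorem gr_eq (a : B1a n M) (b : F.Bas1) {t : ℝ} (ht : 0 ≤ t) {f h : M → ℝ} {e : Chart n M}
    (he : Hc e) {z : Cm n} (hz : z ∈ e.target)
    (hf : DifferentiableAt ℝ (fun y => f (e.symm y)) z)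
    (hh : DifferentiableAt ℝ (fun y => h (e.symm y)) z) :
    gr F t f h (e.symm z) = trg (F.g t e z) (dd f h e z) := by
  have h0 := mem_chart_source (Cm n) (e.symm z)
  have h1 := e.map_target hz
  have h2 := e.right_inv hz
  rw [gr, Flow.gx, b.g_ch t ht _ e (a.chart _) he _ h0 h1,
    dd_ch a (a.chart _) he h0 h1 (h2.symm ▸ hf) (h2.symm ▸ hh),
    trg_pb (a.jac_ne _ e (a.chart _) he _ h0 h1), h2]

theorem cont_trg (a : B1a n M) (i : F.Is) (b : F.Bas1) {I : Set ℝ} (hI : I ⊆ Ici 0) {Φ : ℝ × M → ℝ}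
    (h : ∀ e : Chart n M, Hc e → ∃ B : ℝ × Cm n → Mx n,
      (∀ j k, ContinuousOn (fun q => B q j k) (I ×ˢ e.target)) ∧
      ∀ q ∈ I ×ˢ e.target, Φ (q.1, e.symm q.2) = trg (F.g q.1 e q.2) (B q)) :
    ContinuousOn Φ (I ×ˢ univ) :=
  cont_of' a fun e he => by
    obtain ⟨B, h1, h2⟩ := h e he
    exact (trg_cont (fun j k => (b.g_sm e he j k).continuousOn.mono (prod_mono hI le_rfl)) h1
      fun q hq => (i.pos _ (hI hq.1) e he _ hq.2).det_pos.ne').congr h2

theorem lap_cont (a : B1a n M) (i : F.Is) (b : F.Bas1) {I : Set ℝ} (hI : I ⊆ Ici 0)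
    (hU : UniqueDiffOn ℝ I) {f : ℝ → M → ℝ} (h : SmT n I f) :
    ContinuousOn (fun q : ℝ × M => F.lap q.1 (f q.1) q.2) (I ×ˢ univ) :=
  cont_trg a i b hI fun e he => ⟨fun q => hs (f q.1) e q.2,
    fun j k => (FG.Calc.hess hU e.open_target (h e he) j k).continuousOn, fun _ hq =>
      b.lap_eq _ (hI hq.1) _ e he _ hq.2 ((sm I f h _ hq.1 e he _ hq.2).of_le FG.Calc.two_le)⟩

theorem gr_cont (a : B1a n M) (i : F.Is) (b : F.Bas1) {I : Set ℝ} (hI : I ⊆ Ici 0)
    (hU : UniqueDiffOn ℝ I) {f g : ℝ → M → ℝ} (h : SmT n I f) (h' : SmT n I g) :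
    ContinuousOn (fun q : ℝ × M => gr F q.1 (f q.1) (g q.1) q.2) (I ×ˢ univ) :=
  cont_trg a i b hI fun e he => ⟨fun q => dd (f q.1) (g q.1) e q.2, fun j k =>
    ((FG.Calc.d hU e.open_target (FG.Calc.ofR (h e he)) j).1.mul
      (FG.Calc.d hU e.open_target (FG.Calc.ofR (h' e he)) k).2).continuousOn, fun q hq =>
      gr_eq a b (hI hq.1) he hq.2 ((sm I f h _ hq.1 e he _ hq.2).differentiableAt (by simp))
        ((sm I g h' _ hq.1 e he _ hq.2).differentiableAt (by simp))⟩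

theorem cont_lap (a : B1a n M) (i : F.Is) (b : F.Bas1) (T : ℝ) (f : ℝ → M → ℝ)
    (h : SmT n (Ico 0 T) f) :
    ContinuousOn (fun q : ℝ × M => F.lap q.1 (f q.1) q.2) (Ico 0 T ×ˢ univ) ∧
    ContinuousOn (fun q : ℝ × M => gr F q.1 (f q.1) (f q.1) q.2) (Ico 0 T ×ˢ univ) :=
  ⟨lap_cont a i b Ico_subset_Ici_self (uniqueDiffOn_Ico 0 T) h,
    gr_cont a i b Ico_subset_Ici_self (uniqueDiffOn_Ico 0 T) h h⟩

end Cal2

/-- **CAL** -/
theorem cal [RiemannianBundle (fun x : M => TangentSpace 𝓘(ℝ, Cm n) x)] [ProperSpace M]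
    [IsManifold 𝓘(ℝ, Cm n) ∞ M] {F : Flow n M} (a : B1a n M) (hB : B2 n M) (i : F.Is)
    (b1 : F.Bas1) (b2 : F.Bas2) : Cal F where
  c2 := cal_c2 a
  congr := cal_congr
  const := cal_const
  lin := cal_lin
  mul := cal_mul a i
  comp := cal_comp
  gr_comp := cal_gr_comp
  gr_nonneg := cal_gr_nonneg a i
  gr_cs := cal_gr_cs a i
  lo := cal_lo a i
  up := cal_up a i
  gr_le := cal_gr_le a i
  min := cal_min a i
  psi := cal_psi a i
  u0 := cal_u0 a b1 b2 hB
  y_vol := cal_y_vol i b2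
  cut := Cal2.cut a F.o
  loc := Cal2.loc a
  slice := Cal2.slice a
  sm := Cal2.sm
  cont := Cal2.cont a
  cont_dt := Cal2.cont_dt a
  cont_lap := Cal2.cont_lap a i b1

end Vale.Agent.P253W.HK
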