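import Vale.Agent.P253W.Flow
import Vale.Agent.P272.K.AMP.Calc

/-!
# P253W, block HK: Harnack and mean value inequalities, barriers, the `L¹` argument. Statements.
-/

open scoped Manifold ContDiff Bundle ENNReal Topology ComplexOrder
open Bundle MeasureTheory Set Metric Filter Vale.Agent.P253Z
open Vale.Agent.P272.K (Cm Chart)
open Vale.Agent.P272.K.AMP (gm)
open Vale.Agent.P253.R2.H451 (WeakLevi)

noncomputable section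

namespace Vale.Agent.P253W.HK

/-- a smooth decreasing step from `1` to `0` on `[0, 1]` -/
structure Prof (β : ℝ → ℝ) (L : ℝ) : Prop where
  sm : ContDiff ℝ ∞ β
  one : ∀ s ≤ 0, β s = 1
  zero : ∀ s, 1 ≤ s → β s = 0
  mem : ∀ s, 0 ≤ β s ∧ β s ≤ 1
  d1 : ∀ s, -L ≤ deriv β s ∧ deriv β s ≤ 0
  d2 : ∀ s, |deriv (deriv β) s| ≤ L

theorem exists_prof : ∃ β L, Prof β L := by
  have h : ContDiff ℝ ∞ fun s : ℝ => Real.smoothTransition (1 - s) :=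
    Real.smoothTransition.contDiff.comp (contDiff_const.sub contDiff_id)
  have h1 := (contDiff_infty_iff_deriv.1 h).2
  have h2 := (contDiff_infty_iff_deriv.1 h1).2
  have hz : ∀ s : ℝ, s ∉ Icc (0 : ℝ) 1 →
      ∃ c : ℝ, (fun s : ℝ => Real.smoothTransition (1 - s)) =ᶠ[𝓝 s] fun _ => c := fun s hs => by
    rcases not_and_or.1 hs with h0 | h0
    · exact ⟨1, mem_of_superset (Iio_mem_nhds (not_le.1 h0)) fun t (ht : t < 0) =>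
        Real.smoothTransition.one_of_one_le (by linarith)⟩
    · exact ⟨0, mem_of_superset (Ioi_mem_nhds (not_le.1 h0)) fun t (ht : 1 < t) =>
        Real.smoothTransition.zero_of_nonpos (by linarith)⟩
  obtain ⟨a, ha⟩ := (isCompact_Icc (a := (0 : ℝ)) (b := 1)).exists_bound_of_continuousOn
    h1.continuous.continuousOn
  obtain ⟨b, hb⟩ := (isCompact_Icc (a := (0 : ℝ)) (b := 1)).exists_bound_of_continuousOn
    h2.continuous.continuousOn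
  have ha0 : 0 ≤ a := (norm_nonneg _).trans (ha 0 ⟨le_rfl, zero_le_one⟩)
  have hb0 : 0 ≤ b := (norm_nonneg _).trans (hb 0 ⟨le_rfl, zero_le_one⟩)
  refine ⟨_, a + b, h, fun s hs => Real.smoothTransition.one_of_one_le (by linarith),
    fun s hs => Real.smoothTransition.zero_of_nonpos (by linarith),
    fun s => ⟨Real.smoothTransition.nonneg _, Real.smoothTransition.le_one _⟩,
    fun s => ⟨?_, ?_⟩, fun s => ?_⟩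
  · by_cases hs : s ∈ Icc (0 : ℝ) 1
    · linarith [(abs_le.1 (ha s hs)).1]
    · obtain ⟨c, hc⟩ := hz s hs
      rw [hc.deriv_eq, deriv_const]; linarith
  · exact Antitone.deriv_nonpos fun x y hxy => Real.smoothTransition.monotone (by linarith)
  · by_cases hs : s ∈ Icc (0 : ℝ) 1
    · linarith [show |deriv (deriv fun s : ℝ => Real.smoothTransition (1 - s)) s| ≤ b from hb s hs]
    · obtain ⟨c, hc⟩ := hz s hs
      rw [hc.deriv.deriv_eq]; simp; linarith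

/-! ### metric measure spaces -/

section abs

variable {X : Type} [MetricSpace X]

/-- `G` is a continuous bound for the pointwise Lipschitz constant of `v` -/
def Ug (v G : X → ℝ) : Prop := Continuous v ∧ Continuous G ∧ (∀ p, 0 ≤ G p) ∧
  ∀ p, ∀ ε > (0 : ℝ), ∀ᶠ q in 𝓝 p, |v q - v p| ≤ (G p + ε) * dist q p

variable [MeasurableSpace X] (μ : Measure X)

/-- volume comparison and the Poincaré inequality -/
structure Sp (m : ℕ) : Prop where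
  mpos : 1 ≤ m
  fin : ∀ x s, μ (closedBall x s) < ⊤
  pos : ∀ x s, 0 < s → 0 < μ.real (ball x s)
  bg : ∃ C ≥ (1 : ℝ), ∀ x s t, 0 < s → s ≤ t →
    μ.real (ball x t) ≤ C * (t / s) ^ m * μ.real (ball x s)
  poi : ∃ C ≥ (1 : ℝ), ∀ v G, Ug v G → ∀ x s, 0 < s →
    ∫ y in ball x s, (∫ z in ball x s, (v y - v z) ^ 2 ∂μ) ∂μ ≤
      C * s ^ 2 * μ.real (ball x s) * ∫ w in ball x (3 * s), G w ^ 2 ∂μ

/-- the energy inequalities of a solution of `Δu ≥ -N` in `U` -/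
def Cac (u G : X → ℝ) (N : ℝ) (U : Set X) : Prop := ∀ x r r' k, 0 < r → r < r' →
  closedBall x r' ⊆ U → ∫ y in ball x r ∩ {y | k < u y}, G y ^ 2 ∂μ ≤
    4 / (r' - r) ^ 2 * ∫ y in ball x r', max (u y - k) 0 ^ 2 ∂μ +
      2 * N * ∫ y in ball x r', max (u y - k) 0 ∂μ

/-- the energy inequalities of `l = - log g`, `g` positive and superharmonic in `U` -/
def Lg (l G : X → ℝ) (U : Set X) : Prop := Ug l G ∧ Cac μ l G 0 U ∧ ∀ x r r' β, 0 < r → r < r' →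
  0 ≤ β → β < 1 → closedBall x r' ⊆ U → ∫ y in ball x r, Real.exp (-β * l y) * G y ^ 2 ∂μ ≤
    4 / ((1 - β) ^ 2 * (r' - r) ^ 2) * ∫ y in ball x r', Real.exp (-β * l y) ∂μ

/-- **FK**: the inequality of Faber and Krahn -/
def FK (m : ℕ) : Prop := ∃ C ≥ (1 : ℝ), ∀ v G, Ug v G → ∀ x R σ, 0 < R → 0 < σ → C * σ ≤ 1 →
  (∀ y ∉ ball x R, v y = 0 ∧ G y = 0) → μ.real {y | v y ≠ 0} ≤ σ ^ m * μ.real (ball x R) →
  ∫ y, v y ^ 2 ∂μ ≤ C * (σ * R) ^ 2 * ∫ y, G y ^ 2 ∂μ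

/-- **DG**: the lemma of De Giorgi -/
def DG : Prop := ∃ C ≥ (1 : ℝ), ∀ u G N U, 0 ≤ N → Ug u G → Cac μ u G N U → ∀ x s a, 0 < s →
  0 ≤ a → closedBall x (2 * s) ⊆ U →
  ∫ y in ball x (2 * s), max (u y) 0 ^ 2 ∂μ ≤ a ^ 2 * μ.real (ball x (2 * s)) →
  u x ≤ C * (a + N * s ^ 2)

/-- **MV1**: the mean value inequality -/
def MV1 : Prop := ∃ C ≥ (1 : ℝ), ∀ u G N U, 0 ≤ N → Ug u G → Cac μ u G N U → ∀ x R a, 0 < R →
  0 ≤ a → closedBall x R ⊆ U → ∫ y in ball x R, max (u y) 0 ∂μ ≤ a * μ.real (ball x R) →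
  u x ≤ C * (a + N * R ^ 2)

/-- **KL**: the logarithm has bounded oscillation -/
def KL : Prop := ∃ C ≥ (1 : ℝ), ∀ l G U, Lg μ l G U → ∀ y s, 0 < s → closedBall y (10 * s) ⊆ U →
  ∃ c, (∀ z ∈ ball y s, l z ≤ c + C) ∧ ∀ K > (0 : ℝ),
    μ.real (ball y s ∩ {z | l z < c - K}) * K ^ 2 ≤ C * μ.real (ball y s)

/-- **INK**: decay of the distribution function -/
def INK : Prop := ∃ K ≥ (1 : ℝ), ∀ l G U, Lg μ l G U → ∀ x R, 0 < R → closedBall x (30 * R) ⊆ U →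
  ∀ y ∈ ball x R, ∀ k : ℕ,
    μ.real (ball x R ∩ {z | l z < l y - (k + 1) * K}) * 2 ^ k ≤ μ.real (ball x R)

/-- **WH1**: the weak Harnack inequality -/
def WH1 : Prop := ∃ C ≥ (1 : ℝ), ∀ l G U, Lg μ l G U → ∀ x R, 0 < R → closedBall x (C * R) ⊆ U →
  ∀ y ∈ ball x R, ∫ z in ball x R, Real.exp (-l z) ∂μ ≤ C * Real.exp (-l y) * μ.real (ball x R)

end abs

/-! ### the manifold -/

variable {n : ℕ} {M : Type} [MetricSpace M] [ChartedSpace (Cm n) M]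

/-- the matrix `∂_j f ∂_k̄ h` in a chart -/
def dd (f h : M → ℝ) (e : Chart n M) (z : Cm n) : Mx n :=
  gm (fun y => f (e.symm y)) (fun y => h (e.symm y)) z

variable (n) in
/-- smooth on `I × D` -/
def SmD (I : Set ℝ) (D : Set M) (f : ℝ → M → ℝ) : Prop :=
  ∀ e : Chart n M, Hc e → ContDiffOn ℝ ∞ (ch e f) (I ×ˢ (e.target ∩ e.symm ⁻¹' D))

variable (n) in
/-- of class `C²` at the point `x` -/
def C2 (f : M → ℝ) (x : M) : Prop := ContDiffAt ℝ 2 (fun y => f ((pc n x).symm y)) (pc n x x)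

variable [RiemannianBundle (fun x : M => TangentSpace 𝓘(ℝ, Cm n) x)]

variable (n) in
/-- `i∂∂̄u ≥ - c ω₀` at `x` -/
def Lo (u : M → ℝ) (c : ℝ) (x : M) : Prop :=
  (hs u (pc n x) (pc n x x) + (c : ℂ) • hm (pc n x) (pc n x x)).PosSemidef

variable (n) in
/-- `i∂∂̄u ≤ c ω₀` at `x` -/
def Up (u : M → ℝ) (c : ℝ) (x : M) : Prop :=
  ((c : ℂ) • hm (pc n x) (pc n x x) - hs u (pc n x) (pc n x x)).PosSemidef

variable (n) in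
/-- `i∂u ∧ ∂̄u ≤ c ω₀` at `x` -/
def Gr (u : M → ℝ) (c : ℝ) (x : M) : Prop :=
  ((c : ℂ) • hm (pc n x) (pc n x x) - dd u u (pc n x) (pc n x x)).PosSemidef

variable (n) in
/-- **RP**: a smooth function like `r²` with an upper bound for the Levi form -/
def RP (o : M) : Prop := ∃ (p : M → ℝ) (C : ℝ), 1 ≤ C ∧ Sm n p ∧ ∀ x,
  (1 + dist x o) ^ 2 ≤ C * p x ∧ p x ≤ C * (1 + dist x o) ^ 2 ∧ Up n p 2 x ∧
    Gr n p (C * (1 + dist x o) ^ 2) x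

variable (n) in
/-- **RM**: a smooth function like `r²` with a lower bound for the Levi form -/
def RM (o : M) : Prop := ∃ (q : M → ℝ) (C : ℝ), 1 ≤ C ∧ Sm n q ∧ ∀ x,
  (1 + dist x o) ^ 2 ≤ C * q x ∧ q x ≤ C * (1 + dist x o) ^ 2 ∧ Lo n q C x ∧
    Gr n q (C * (1 + dist x o) ^ 2) x

variable (n M) in
/-- **WLD**: the Levi form of the square of the distance -/
def WLD : Prop := ∀ q : M, WeakLevi (Cm n) (fun x => -dist x q ^ 2) (fun _ => -1) univ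

section meas

variable [MeasurableSpace M] (μ : Measure M)

variable (n) in
/-- **BRS**: smooth subsolutions -/
def BRS : Prop := ∀ u : M → ℝ, Sm n u → ∃ G, Ug u G ∧ ∀ (N : ℝ) (U : Set M), 0 ≤ N →
  (∀ x ∈ U, Lo n u N x) → Cac μ u G (4 * n * N) U

variable (n) in
/-- **BRL**: logarithms of smooth positive plurisuperharmonic functions -/
def BRL : Prop := ∀ (g : M → ℝ) (x : M) (R : ℝ), Sm n g → (∀ y ∈ closedBall x R, 0 < g y) →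
  (∀ y ∈ closedBall x R, Up n g 0 y) →
  ∃ l G, (∀ y ∈ closedBall x R, l y = -Real.log (g y)) ∧ Lg μ l G (closedBall x R)

variable (n) in
/-- **WHM**: the weak Harnack inequality -/
def WHM : Prop := ∃ C ≥ (1 : ℝ), ∀ (g : M → ℝ) (x : M) (R : ℝ), Sm n g → 0 < R →
  (∀ y ∈ closedBall x (C * R), 0 < g y ∧ Up n g 0 y) →
  ∀ y ∈ ball x R, ∫ z in ball x R, g z ∂μ ≤ C * g y * μ.real (ball x R)

variable (n) in
/-- **MVM**: the mean value inequality -/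
def MVM : Prop := ∃ C ≥ (1 : ℝ), ∀ (u : M → ℝ) (x : M) (R N a : ℝ), Sm n u → 0 < R → 0 ≤ N →
  0 ≤ a → (∀ y ∈ closedBall x R, Lo n u N y) →
  ∫ y in ball x R, max (u y) 0 ∂μ ≤ a * μ.real (ball x R) → u x ≤ C * (a + N * R ^ 2)

end meas

/-! ### the flow -/

variable (F : Flow n M)

/-- the inner product of the gradients at time `t` -/
def gr (t : ℝ) (f h : M → ℝ) (x : M) : ℝ := trg (F.gx t x) (dd f h (pc n x) (pc n x x))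

/-- the density `ω_t^n / ω₀^n` -/
def vol (t : ℝ) (x : M) : ℝ := Real.exp (F.u 0 x - F.u t x)

/-- the majorant -/
def maj (x : M) : ℝ := (1 + F.r x) ^ 2 + |F.u 0 x|

/-- **CAL**: rules of calculus -/
structure Cal : Prop where
  c2 : ∀ f : M → ℝ, Sm n f → ∀ x, C2 n f x
  congr : ∀ t (f h : M → ℝ) x, f =ᶠ[𝓝 x] h → F.lap t f x = F.lap t h x
  const : ∀ t c x, F.lap t (fun _ => c) x = 0
  lin : ∀ t (a b : ℝ) (f h : M → ℝ) x, C2 n f x → C2 n h x →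
    F.lap t (fun y => a * f y + b * h y) x = a * F.lap t f x + b * F.lap t h x
  mul : ∀ t, 0 ≤ t → ∀ (f h : M → ℝ) x, C2 n f x → C2 n h x → F.lap t (fun y => f y * h y) x =
    f x * F.lap t h x + h x * F.lap t f x + 2 * gr F t f h x
  comp : ∀ t (φ : ℝ → ℝ) (f : M → ℝ) x, ContDiffAt ℝ 2 φ (f x) → C2 n f x →
    F.lap t (fun y => φ (f y)) x =
      deriv φ (f x) * F.lap t f x + deriv (deriv φ) (f x) * gr F t f f x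
  gr_comp : ∀ t (φ χ : ℝ → ℝ) (f h : M → ℝ) x, DifferentiableAt ℝ φ (f x) →
    DifferentiableAt ℝ χ (h x) → C2 n f x → C2 n h x →
    gr F t (fun y => φ (f y)) (fun y => χ (h y)) x = deriv φ (f x) * deriv χ (h x) * gr F t f h x
  gr_nonneg : ∀ t, 0 ≤ t → ∀ (f : M → ℝ) x, 0 ≤ gr F t f f x
  gr_cs : ∀ t, 0 ≤ t → ∀ (f h : M → ℝ) x (a : ℝ), C2 n f x → C2 n h x →
    2 * a * gr F t f h x ≤ a ^ 2 * gr F t f f x + gr F t h h x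
  lo : ∀ t, 0 ≤ t → ∀ (f : M → ℝ) c x, Lo n f c x → -(c * F.y t x) ≤ F.lap t f x
  up : ∀ t, 0 ≤ t → ∀ (f : M → ℝ) c x, Up n f c x → F.lap t f x ≤ c * F.y t x
  gr_le : ∀ t, 0 ≤ t → ∀ (f : M → ℝ) c x, Gr n f c x → gr F t f f x ≤ c * F.y t x
  min : ∀ t, 0 ≤ t → ∀ (f : M → ℝ) x, C2 n f x → IsLocalMin f x → 0 ≤ F.lap t f x
  psi : ∀ t, 0 ≤ t → ∀ x, Lo n (F.ψ t) 0 x ∧ Up n (F.ψ t) 1 x
  u0 : ∀ x, Lo n (F.u 0) 0 x
  y_vol : ∀ t, 0 ≤ t → ∀ x, F.y t x * vol F t x ≤ n ∧ vol F t x ≤ 1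
  cut : ∀ a b : ℝ, a < b → ∃ ζ : M → ℝ, Sm n ζ ∧ ∀ x, 0 ≤ ζ x ∧ ζ x ≤ 1 ∧
    (F.r x ≤ a → ζ x = 1) ∧ (b ≤ F.r x → ζ x = 0)
  /-- smoothness is local -/
  loc : ∀ (I : Set ℝ) (f : ℝ → M → ℝ), (∀ t ∈ I, ∀ x, ∃ e : Chart n M, Hc e ∧ x ∈ e.source ∧
    ContDiffWithinAt ℝ ∞ (ch e f) (I ×ˢ univ) (t, e x)) → SmT n I f
  slice : ∀ (I : Set ℝ) (D : Set M) (f : ℝ → M → ℝ), IsOpen D → SmD n I D f → ∀ t ∈ I, ∀ x ∈ D,
    C2 n (f t) x ∧ ContDiffWithinAt ℝ ∞ (fun s => f s x) I t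
  sm : ∀ (I : Set ℝ) (f : ℝ → M → ℝ), SmT n I f → ∀ t ∈ I, Sm n (f t)
  cont : ∀ (I : Set ℝ) (D : Set M) (f : ℝ → M → ℝ), SmD n I D f →
    ContinuousOn (Function.uncurry f) (I ×ˢ D)
  /-- the time derivative and the Laplacian extend continuously to the initial time -/
  cont_dt : ∀ (T : ℝ) (f : ℝ → M → ℝ), SmT n (Ico 0 T) f → ∃ f' : ℝ → M → ℝ,
    ContinuousOn (Function.uncurry f') (Ico 0 T ×ˢ univ) ∧
    ∀ t ∈ Ioo 0 T, ∀ x, HasDerivAt (fun s => f s x) (f' t x) t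
  cont_lap : ∀ (T : ℝ) (f : ℝ → M → ℝ), SmT n (Ico 0 T) f →
    ContinuousOn (fun q : ℝ × M => F.lap q.1 (f q.1) q.2) (Ico 0 T ×ˢ univ) ∧
    ContinuousOn (fun q : ℝ × M => gr F q.1 (f q.1) (f q.1) q.2) (Ico 0 T ×ˢ univ)

/-- **STA**: static weights; `s = 1` or `s = -1` -/
def STA (s : ℝ) : Prop := ∀ K : ℕ, ∃ C ≥ (1 : ℝ), ∀ ρ : ℝ, ∃ (ρ' : ℝ) (σ : M → ℝ), Sm n σ ∧ ∀ x,
  0 ≤ σ x ∧ σ x ≤ C / (1 + F.r x) ^ (2 * K) ∧ (ρ' ≤ F.r x → σ x = 0) ∧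
  (F.r x ≤ ρ → 1 / (1 + F.r x) ^ (2 * K) ≤ C * σ x) ∧ ∀ t, 0 ≤ t →
    s * F.lap t σ x ≤ C * F.y t x / (1 + F.r x) ^ (2 * K + 2) ∧
    gr F t σ σ x ≤ C * F.y t x / (1 + F.r x) ^ (4 * K + 2)

/-- **UPB**: the upper bound for `u_t` -/
def UPB : Prop := ∀ S : ℝ, ∃ A ≥ (1 : ℝ), ∀ t ∈ Icc 0 S, ∀ x, F.u t x ≤ A * (1 + F.r x) ^ 2

/-- **BAR**: the barriers for the adjoint equation -/
def BAR : Prop := ∀ S > (0 : ℝ), ∀ N : ℕ, ∃ C ≥ (1 : ℝ), ∀ ρ₀ : ℝ, ∃ c > (0 : ℝ), ∀ ρ : ℝ,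
  ∃ (ρ' : ℝ) (χ : ℝ → M → ℝ), SmT n (Ioo 0 S) χ ∧ ∀ t ∈ Ioo 0 S, ∀ x,
    0 ≤ χ t x ∧ χ t x ≤ C / (1 + F.r x) ^ (2 * N) ∧ (ρ' ≤ F.r x → χ t x = 0) ∧
    (F.r x ≤ ρ₀ → c ≤ χ t x) ∧ dt χ t x ≤ χ t x / (2 * t) ∧ F.lap t (χ t) x ≤ C * χ t x +
      if ρ ≤ F.r x then C * F.y t x / (1 + F.r x) ^ (2 * N) else 0

/-- **LINF**: the linear equation -/
def LINF : Prop := ∀ (T : ℝ) (σ w₀ : M → ℝ) (c f : ℝ → M → ℝ), 0 < T → Sm n σ → (∀ x, 0 ≤ σ x) →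
  HasCompactSupport σ → Sm n w₀ → SmT n (Icc 0 T) c → SmT n (Icc 0 T) f →
  ∃ (w : ℝ → M → ℝ) (B : ℝ), SmD n (Icc 0 T) {x | 0 < σ x} w ∧ ∀ x, 0 < σ x → w 0 x = w₀ x ∧
    (∀ t ∈ Icc 0 T, |w t x| ≤ B) ∧ ∀ t ∈ Ioo 0 T,
      dt w t x = σ x ^ 2 * F.lap t (w t) x - c t x * w t x + f t x

/-- **INTF**: equicontinuity of bounded solutions of the heat equation -/
def INTF : Prop := ∀ S > (0 : ℝ), ∀ ρ₀ : ℝ, ∀ ε > (0 : ℝ), ∃ δ > (0 : ℝ), ∀ w : ℝ → M → ℝ,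
  SmT n (Icc 0 S) w → (∀ x, F.r x ≤ ρ₀ + 1 → w 0 x = 0 ∧ (∀ t ∈ Icc 0 S, |w t x| ≤ 1) ∧
    ∀ t ∈ Ioo 0 S, dt w t x = F.lap t (w t) x) →
  ∀ t ∈ Icc 0 S, ∀ t' ∈ Icc 0 S, ∀ x x', F.r x ≤ ρ₀ → |t - t'| ≤ δ → dist x x' ≤ δ →
    |w t x - w t' x'| ≤ ε

/-- **MP**: the maximum principle on `{σ > 0}` -/
def MP : Prop := ∀ (S T B : ℝ) (σ : M → ℝ) (c v : ℝ → M → ℝ), S < T → Sm n σ → (∀ x, 0 ≤ σ x) →
  HasCompactSupport σ → SmD n (Icc 0 T) {x | 0 < σ x} v → (∀ x, 0 < σ x → 0 ≤ v 0 x ∧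
    (∀ t ∈ Icc 0 S, -B ≤ v t x) ∧ ∀ t ∈ Ioc 0 S, 0 ≤ c t x ∧
      σ x ^ 2 * F.lap t (v t) x - c t x * v t x ≤ dt v t x) →
  ∀ t ∈ Icc 0 S, ∀ x, 0 < σ x → 0 ≤ v t x

/-- **U1**: uniqueness below the majorant, in quantitative form -/
def U1 : Prop := ∀ S > (0 : ℝ), ∀ ρ₀ A : ℝ, ∀ ε > (0 : ℝ), ∃ ρ : ℝ, ∀ X : ℝ → M → ℝ,
  SmT n (Ico 0 (S + 1)) X → (∀ x, F.r x ≤ ρ → X 0 x = 0 ∧
    (∀ t ∈ Icc 0 S, 0 ≤ X t x ∧ X t x ≤ A * maj F x) ∧ ∀ t ∈ Ioo 0 S, dt X t x = F.lap t (X t) x) →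
  ∀ t ∈ Icc 0 S, ∀ x, F.r x ≤ ρ₀ → X t x ≤ ε

/-- **RED**: the reduced functions -/
def RED : Prop := ∀ S > (0 : ℝ), ∀ (Z : ℝ → M → ℝ) (A : ℝ), SmT n (Ici 0) Z →
  (∀ t ∈ Icc 0 S, ∀ x, 1 ≤ Z t x ∧ Z t x ≤ A * maj F x) →
  (∀ t ∈ Ioc 0 S, ∀ x, F.lap t (Z t) x ≤ dt Z t x) → ∀ ρ₀ : ℝ, ∀ ε > (0 : ℝ), ∃ ρ ≥ ρ₀,
  ∃ X : ℝ → M → ℝ, SmT n (Ico 0 (S + 1)) X ∧ (∀ t ∈ Icc 0 S, ∀ x, 0 ≤ X t x ∧
    (F.r x ≤ ρ₀ → X t x ≤ ε) ∧ (ρ ≤ F.r x → F.r x ≤ 3 * ρ → Z t x ≤ 2 * X t x)) ∧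
    ∀ t ∈ Ioc 0 S, ∀ x, F.r x ≤ 3 * ρ → F.lap t (X t) x ≤ dt X t x

variable [MeasurableSpace M] (μ : Measure M)

/-- **GRN**: the formula of Green -/
def GRN : Prop := ∀ t, 0 ≤ t → ∀ a b : M → ℝ, Sm n a → Sm n b → HasCompactSupport a →
  ∫ x, a x * F.lap t b x * vol F t x ∂μ = ∫ x, b x * F.lap t a x * vol F t x ∂μ

/-- **TFT**: the derivative of an integral -/
def TFT : Prop := ∀ (T ρ : ℝ) (a : ℝ → M → ℝ), SmT n (Ico 0 T) a →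
  (∀ t ∈ Ico 0 T, ∀ x, ρ ≤ F.r x → a t x = 0) → ∀ s t, 0 ≤ s → s ≤ t → t < T →
  IntervalIntegrable (fun τ => ∫ x, (dt a τ x - F.R τ x * a τ x) * vol F τ x ∂μ) volume s t ∧
  ∫ x, a t x * vol F t x ∂μ - ∫ x, a s x * vol F s x ∂μ =
    ∫ τ in s..t, ∫ x, (dt a τ x - F.R τ x * a τ x) * vol F τ x ∂μ

/-- the majorant is integrable with the weight of order `N` -/
def Wt (N : ℕ) : Prop := Integrable (fun x => maj F x / (1 + F.r x) ^ (2 * N)) μ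

/-- **WTE**: some weight works -/
def WTE : Prop := ∃ N : ℕ, Wt F μ N

/-- **CLN**: the loss of volume -/
def CLN : Prop := ∀ N : ℕ, Wt F μ N → ∀ S : ℝ, ∃ A : ℝ, ∀ ρ : ℝ, ∀ t ∈ Icc 0 S,
  ∫ x in closedBall F.o ρ, (1 - vol F t x) / (1 + F.r x) ^ (2 * N) ∂μ ≤ A * t

/-- **QL**: the `L¹` estimate -/
def QL : Prop := ∀ N : ℕ, Wt F μ N → ∀ S > (0 : ℝ), ∀ ρ₀ A : ℝ, ∀ ε > (0 : ℝ), ∃ ρ : ℝ,
  ∀ (D v : ℝ → M → ℝ) (B : ℝ), Measurable (Function.uncurry D) → Measurable (Function.uncurry v) →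
  (∀ t ∈ Ioo 0 S, ∀ x, F.r x ≤ ρ → 0 ≤ v t x ∧ v t x ≤ D t x ∧ v t x ≤ A * maj F x ∧ D t x ≤ B) →
  (∀ t ∈ Ioo 0 S, ∫ x in closedBall F.o ρ, D t x * vol F t x / (1 + F.r x) ^ (2 * N) ∂μ ≤ A * t) →
  (∀ (χ : ℝ → M → ℝ) (a b : ℝ), SmT n univ χ → (∀ t x, 0 ≤ χ t x) → 0 < a → b < S →
    (∀ t x, χ t x ≠ 0 → t ∈ Icc a b ∧ F.r x ≤ ρ) →
    0 ≤ ∫ q : ℝ × M, (dt χ q.1 q.2 * D q.1 q.2 + v q.1 q.2 * F.lap q.1 (χ q.1) q.2) *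
      vol F q.1 q.2 ∂(volume.prod μ)) →
  ∫ q in Ioo 0 S ×ˢ closedBall F.o ρ₀, D q.1 q.2 * vol F q.1 q.2 ∂(volume.prod μ) ≤ ε

end Vale.Agent.P253W.HK
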