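import Vale.Agent.P253W.HK.Ug

/-!
# P253W, block HK, row DG: the lemma of De Giorgi
-/

open scoped ENNReal Topology
open MeasureTheory Set Metric Filter

set_option linter.unusedSectionVars false

noncomputable section

namespace Vale.Agent.P253W.HK

variable {X : Type} [MetricSpace X] [ProperSpace X] [MeasurableSpace X] [BorelSpace X]
  {μ : Measure X} {m : ℕ}

namespace Dg

theorem pos_le {t k d : ℝ} (hd : 0 < d) : max (t - (k + d / 2)) 0 ≤ 2 / d * max (t - k) 0 ^ 2 := by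
  rcases le_total t (k + d / 2) with h | h
  · rw [max_eq_right (by linarith)]; positivity
  · rw [max_eq_left (by linarith), max_eq_left (by linarith), div_mul_eq_mul_div, le_div_iff₀ hd]
    nlinarith

theorem sq_mono {t k k' : ℝ} (h : k ≤ k') : max (t - k') 0 ^ 2 ≤ max (t - k) 0 ^ 2 :=
  pow_le_pow_left₀ (le_max_right _ _) (max_le_max (by linarith) le_rfl) 2

/-- one step of the iteration -/
theorem step (h : Sp μ m) {C : ℝ} (hC : 1 ≤ C) (hf : ∀ v G, Ug v G → ∀ x R σ, 0 < R → 0 < σ →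
      C * σ ≤ 1 → (∀ y ∉ ball x R, v y = 0 ∧ G y = 0) →
      μ.real {y | v y ≠ 0} ≤ σ ^ m * μ.real (ball x R) →
      ∫ y, v y ^ 2 ∂μ ≤ C * (σ * R) ^ 2 * ∫ y, G y ^ 2 ∂μ)
    {u G : X → ℝ} {N : ℝ} {U : Set X} (hN : 0 ≤ N) (hu : Ug u G) (hc : Cac μ u G N U) (x : X)
    {r δ R k d σ : ℝ} (hr : 0 < r) (hδ : 0 < δ) (hR : r + δ ≤ R) (hU : closedBall x R ⊆ U)
    (hd : 0 < d) (hσ : 0 < σ) (hσ' : C * σ ≤ 1)
    (hY : ∫ y in ball x (r + δ), max (u y - k) 0 ^ 2 ∂μ ≤ d ^ 2 * (σ ^ m * μ.real (ball x R))) :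
    ∫ y in ball x r, max (u y - (k + d)) 0 ^ 2 ∂μ ≤ C * (σ * R) ^ 2 * ((40 / δ ^ 2 + 8 * N / d) *
      ∫ y in ball x (r + δ), max (u y - k) 0 ^ 2 ∂μ) := by
  have c1 := hu.1
  obtain ⟨w, W, h1, h2, h3, h4, h5⟩ := h.trunc hu x (k := k + d / 2) (k' := k + d) (r := r)
    (r' := r + δ / 2) (r'' := r + δ) (by linarith) (by linarith) (by linarith)
  set Y := ∫ y in ball x (r + δ), max (u y - k) 0 ^ 2 ∂μ with hYd
  have i0 : IntegrableOn (fun y => max (u y - k) 0 ^ 2) (ball x (r + δ)) μ :=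
    h.intOn (by fun_prop) Subset.rfl
  have b1 : ∀ k', k ≤ k' → ∫ y in ball x (r + δ), max (u y - k') 0 ^ 2 ∂μ ≤ Y := fun k' hk =>
    integral_mono (h.intOn (by fun_prop) Subset.rfl) i0 fun y => sq_mono hk
  have b2 : ∫ y in ball x (r + δ), max (u y - (k + d / 2)) 0 ∂μ ≤ 2 / d * Y := by
    rw [hYd, ← integral_const_mul]
    exact integral_mono (h.intOn (by fun_prop) Subset.rfl) (i0.const_mul _) fun y => pos_le hd
  have b3 := hc x (r + δ / 2) (r + δ) (k + d / 2) (by linarith) (by linarith)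
    ((closedBall_subset_closedBall hR).trans hU)
  have b4 : ∫ y, W y ^ 2 ∂μ ≤ (40 / δ ^ 2 + 8 * N / d) * Y := by
    have e1 : r + δ - (r + δ / 2) = δ / 2 := by ring
    have e2 : r + δ / 2 - r = δ / 2 := by ring
    rw [e1] at b3
    rw [e2] at h5
    have a1 := mul_le_mul_of_nonneg_left (b1 (k + d / 2) (by linarith))
      (show 0 ≤ 4 / (δ / 2) ^ 2 by positivity)
    have a2 := mul_le_mul_of_nonneg_left b2 (show 0 ≤ 2 * N by positivity)
    have a3 := mul_le_mul_of_nonneg_left (b1 (k + d) (by linarith))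
      (show 0 ≤ 2 / (δ / 2) ^ 2 by positivity)
    have e3 : (40 / δ ^ 2 + 8 * N / d) * Y =
        2 * (4 / (δ / 2) ^ 2 * Y + 2 * N * (2 / d * Y)) + 2 / (δ / 2) ^ 2 * Y := by
      field_simp; ring
    rw [e3]
    linarith
  have b5 : μ.real {y | w y ≠ 0} ≤ σ ^ m * μ.real (ball x R) := by
    have hs : {y | w y ≠ 0} ⊆ ball x (r + δ) :=
      fun y hy => ball_subset_ball (by linarith) (h3 hy).1
    have a1 := h.cheb (f := fun y => max (u y - k) 0 ^ 2) (by fun_prop) (fun y => sq_nonneg _)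
      (a := d ^ 2) (isOpen_ne_fun h1.1 continuous_const).measurableSet hs fun y hy =>
        pow_le_pow_left₀ hd.le (le_max_of_le_left (by linarith [show k + d < u y from (h3 hy).2])) 2
    exact le_of_mul_le_mul_left (a1.trans hY) (by positivity)
  have b6 := hf w W h1 x R σ (by linarith) hσ hσ'
    (fun y hy => h2 y fun hy' => hy (ball_subset_ball hR hy')) b5
  refine h4.trans (b6.trans ?_)
  gcongr

end Dg

/-- **DG**: the lemma of De Giorgi -/
theorem dg (h : Sp μ m) (hf : FK μ m) : DG μ := by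
  obtain ⟨C, hC, hf⟩ := hf
  obtain ⟨τ, hτ, hτ1, hτC, hτq⟩ : ∃ τ : ℝ, 0 < τ ∧ τ ≤ 1 ∧ C * τ ≤ 1 ∧
      704 * C * τ ^ 2 ≤ (1 / 2) ^ (m + 2) := by
    have hq : (1 / 2 : ℝ) ^ (m + 2) ≤ 1 := pow_le_one₀ (by norm_num) (by norm_num)
    have hq0 : 0 < (1 / 2 : ℝ) ^ (m + 2) := by positivity
    have e : 704 * C * ((1 / 2) ^ (m + 2) / (704 * C)) = (1 / 2) ^ (m + 2) := by field_simp
    have h1 : (1 / 2 : ℝ) ^ (m + 2) / (704 * C) ≤ 1 := (div_le_one (by positivity)).2 (by linarith)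
    refine ⟨(1 / 2) ^ (m + 2) / (704 * C), by positivity, h1, by linarith, ?_⟩
    rw [sq, ← mul_assoc, e]
    exact mul_le_of_le_one_right hq0.le h1
  have hτm : τ ^ m ≤ 1 := pow_le_one₀ hτ.le hτ1
  have hτm0 : 0 < τ ^ m := by positivity
  have hD : 1 ≤ 2 / τ ^ m := (one_le_div hτm0).2 (by linarith)
  refine ⟨2 / τ ^ m, hD, fun u G N U hN hu hc x s a hs ha hU hY => not_lt.1 fun hx => ?_⟩
  have c1 := hu.1
  obtain ⟨k, hk1, hk2⟩ := exists_between hx
  have hNs : 0 ≤ N * s ^ 2 := by positivity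
  have hk : 0 < k := lt_of_le_of_lt (by positivity) hk1
  have hkN : N * s ^ 2 ≤ k := by nlinarith
  have hka : 4 * a ^ 2 ≤ k ^ 2 * τ ^ m := by
    have a1 : 2 * a ≤ k * τ ^ m := by
      have a2 : 2 / τ ^ m * a ≤ k := by nlinarith
      rwa [div_mul_eq_mul_div, div_le_iff₀ hτm0] at a2
    have a3 : (2 * a) ^ 2 ≤ (k * τ ^ m) ^ 2 := pow_le_pow_left₀ (by positivity) a1 2
    have a4 : (k * τ ^ m) ^ 2 ≤ k ^ 2 * τ ^ m := by
      rw [mul_pow, sq (τ ^ m)]
      exact mul_le_mul_of_nonneg_left (mul_le_of_le_one_right hτm0.le hτm) (sq_nonneg _)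
    linarith
  set V := μ.real (ball x (2 * s)) with hV
  have hV0 : 0 ≤ V := measureReal_nonneg
  have key : ∀ t : ℝ, 0 < t → t ≤ 1 →
      ∫ y in ball x (s * (1 + t)), max (u y - k * (1 - t)) 0 ^ 2 ∂μ ≤ a ^ 2 * V * t ^ (m + 2) →
      ∫ y in ball x (s * (1 + t / 2)), max (u y - k * (1 - t / 2)) 0 ^ 2 ∂μ ≤
        a ^ 2 * V * (t / 2) ^ (m + 2) := by
    intro t ht ht1 hy
    have e1 : s * (1 + t / 2) + s * t / 2 = s * (1 + t) := by ring
    have e2 : k * (1 - t) + k * t / 2 = k * (1 - t / 2) := by ring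
    have a1 := Dg.step h hC hf hN hu hc x (r := s * (1 + t / 2)) (δ := s * t / 2) (R := 2 * s)
      (k := k * (1 - t)) (d := k * t / 2) (σ := τ * t) (by positivity) (by positivity)
      (by nlinarith) hU (by positivity) (by positivity) (by nlinarith) (by
        rw [e1]
        refine hy.trans ?_
        have e3 : (k * t / 2) ^ 2 * ((τ * t) ^ m * V) = k ^ 2 * τ ^ m / 4 * V * t ^ (m + 2) := by
          ring
        rw [e3]
        gcongr
        linarith)
    rw [e1, e2] at a1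
    refine a1.trans ?_
    have a2 : 40 / (s * t / 2) ^ 2 + 8 * N / (k * t / 2) ≤ 176 / (s * t) ^ 2 := by
      have a3 : 8 * N / (k * t / 2) ≤ 16 / (s * t) ^ 2 := by
        rw [div_le_div_iff₀ (by positivity) (by positivity)]
        have a4 : N * s ^ 2 * t ≤ k := (mul_le_of_le_one_right hNs ht1).trans hkN
        nlinarith [mul_le_mul_of_nonneg_right a4 ht.le]
      have e4 : 40 / (s * t / 2) ^ 2 = 160 / (s * t) ^ 2 := by field_simp; ring
      have e5 : 176 / (s * t) ^ 2 = 160 / (s * t) ^ 2 + 16 / (s * t) ^ 2 := by ring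
      linarith
    have a5 : 0 ≤ ∫ y in ball x (s * (1 + t)), max (u y - k * (1 - t)) 0 ^ 2 ∂μ :=
      integral_nonneg fun y => sq_nonneg _
    calc _ ≤ C * (τ * t * (2 * s)) ^ 2 * (176 / (s * t) ^ 2 * (a ^ 2 * V * t ^ (m + 2))) := by
          gcongr
      _ = 704 * C * τ ^ 2 * (a ^ 2 * V * t ^ (m + 2)) := by field_simp; ring
      _ ≤ (1 / 2) ^ (m + 2) * (a ^ 2 * V * t ^ (m + 2)) := by gcongr
      _ = _ := by rw [div_pow t, one_div_pow]; ring
  have ind : ∀ j : ℕ, ∫ y in ball x (s * (1 + (1 / 2) ^ j)),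
      max (u y - k * (1 - (1 / 2) ^ j)) 0 ^ 2 ∂μ ≤ a ^ 2 * V * ((1 / 2) ^ j) ^ (m + 2) := by
    intro j
    induction j with
    | zero =>
      have e : s * (1 + 1) = 2 * s := by ring
      simpa [e] using hY
    | succ j ih =>
      have e : (1 / 2 : ℝ) ^ (j + 1) = (1 / 2) ^ j / 2 := by rw [pow_succ]; ring
      rw [e]
      exact key _ (by positivity) (pow_le_one₀ (by norm_num) (by norm_num)) ih
  obtain ⟨k', hk3, hk4⟩ := exists_between hk2
  obtain ⟨ρ, hρ, hb⟩ := Metric.isOpen_iff.1 (isOpen_lt continuous_const c1 (f := fun _ => k')) x hk4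
  have low : ∀ j : ℕ, (k' - k) ^ 2 * μ.real (ball x (min ρ s)) ≤
      a ^ 2 * V * ((1 / 2) ^ j) ^ (m + 2) := fun j => by
    have p0 : 0 < (1 / 2 : ℝ) ^ j := by positivity
    refine (h.cheb (f := fun y => max (u y - k * (1 - (1 / 2) ^ j)) 0 ^ 2) (by fun_prop)
      (fun y => sq_nonneg _) measurableSet_ball
      (ball_subset_ball ((min_le_right _ _).trans (by nlinarith))) fun y hy => ?_).trans (ind j)
    have a1 : k' < u y := hb (ball_subset_ball (min_le_left _ _) hy)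
    exact pow_le_pow_left₀ (by linarith) (le_max_of_le_left (by nlinarith)) 2
  have lim : Tendsto (fun j : ℕ => a ^ 2 * V * ((1 / 2 : ℝ) ^ j) ^ (m + 2)) atTop
      (𝓝 (a ^ 2 * V * 0 ^ (m + 2))) :=
    ((tendsto_pow_atTop_nhds_zero_of_lt_one (by norm_num) (by norm_num)).pow _).const_mul _
  have a1 := ge_of_tendsto' lim low
  have a2 := h.pos x (min ρ s) (lt_min hρ hs)
  have a3 : 0 < (k' - k) ^ 2 * μ.real (ball x (min ρ s)) := by
    have := sub_pos.2 hk3
    positivity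
  rw [zero_pow (by omega), mul_zero] at a1
  linarith

end Vale.Agent.P253W.HK
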