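import Vale.Agent.P253W.HK.Defs

/-!
# P253W, block HK, row FK: the inequality of Faber and Krahn
-/

open scoped ENNReal Topology
open MeasureTheory Set Metric Filter

noncomputable section

namespace Vale.Agent.P253W.HK

variable {X : Type} [MetricSpace X] [ProperSpace X] [MeasurableSpace X] [BorelSpace X]
  {μ : Measure X} {m : ℕ}

namespace Fk

lemma io [IsLocallyFiniteMeasure μ] {f : X → ℝ} (hf : Continuous f) (w : X) (s : ℝ) :
    IntegrableOn f (ball w s) μ :=
  (hf.continuousOn.integrableOn_compact (isCompact_closedBall w s)).mono_set ball_subset_closedBall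

lemma loc [IsLocallyFiniteMeasure μ] {v : X → ℝ} (hv : Continuous v) (w : X) (s : ℝ)
    (h0 : μ {y | v y ≠ 0} ≠ ⊤) (h : μ.real {y | v y ≠ 0} ≤ μ.real (ball w s) / 2) :
    μ.real (ball w s) / 2 * ∫ y in ball w s, v y ^ 2 ∂μ ≤
      ∫ y in ball w s, (∫ z in ball w s, (v y - v z) ^ 2 ∂μ) ∂μ := by
  have hb : μ (ball w s) ≠ ⊤ := measure_ball_lt_top.ne
  have e : (fun y => ∫ z in ball w s, (v y - v z) ^ 2 ∂μ) = fun y => μ.real (ball w s) * v y ^ 2 -
      2 * v y * ∫ z in ball w s, v z ∂μ + ∫ z in ball w s, v z ^ 2 ∂μ := funext fun y => by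
    simp only [sub_sq]
    rw [integral_add (io (by fun_prop) w s) (io (by fun_prop) w s),
      integral_sub (io (by fun_prop) w s) (io (by fun_prop) w s), setIntegral_const,
      integral_const_mul, smul_eq_mul]
  rw [← integral_const_mul]
  refine setIntegral_mono (io (by fun_prop) w s) (io (by rw [e]; fun_prop) w s) fun y => ?_
  have hZ : MeasurableSet (ball w s ∩ {z | v z = 0}) :=
    measurableSet_ball.inter (isClosed_eq hv continuous_const).measurableSet
  have h1 : μ.real (ball w s) ≤ μ.real (ball w s ∩ {z | v z = 0}) + μ.real {y | v y ≠ 0} :=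
    (measureReal_mono (fun z hz => (em (v z = 0)).imp (fun h => ⟨hz, h⟩) id)
      (measure_union_lt_top ((measure_mono inter_subset_left).trans_lt hb.lt_top)
        h0.lt_top).ne).trans (measureReal_union_le _ _)
  calc _ ≤ μ.real (ball w s ∩ {z | v z = 0}) * v y ^ 2 :=
        mul_le_mul_of_nonneg_right (by linarith) (sq_nonneg _)
    _ = ∫ z in ball w s ∩ {z | v z = 0}, (v y - v z) ^ 2 ∂μ := by
        rw [setIntegral_congr_fun (g := fun _ => v y ^ 2) hZ fun z hz => by
          simp only [show v z = 0 from hz.2, sub_zero], setIntegral_const, smul_eq_mul]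
    _ ≤ _ := setIntegral_mono_set (io (by fun_prop) w s) (ae_of_all _ fun _ => sq_nonneg _)
        inter_subset_left.eventuallyLE

lemma swap [SFinite μ] {f ρ : X → ℝ≥0∞} (hf : Measurable f) (hρ : Measurable ρ) (r : ℝ) :
    ∫⁻ w, ρ w * ∫⁻ y in ball w r, f y ∂μ ∂μ = ∫⁻ y, f y * ∫⁻ w in ball y r, ρ w ∂μ ∂μ := by
  have e : ∀ {f : X → ℝ≥0∞} (c : ℝ≥0∞) w, Measurable f → c * ∫⁻ y in ball w r, f y ∂μ =
      ∫⁻ y, if dist y w < r then c * f y else 0 ∂μ := fun c w hf => by
    rw [← lintegral_const_mul c hf, ← lintegral_indicator measurableSet_ball]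
    exact lintegral_congr fun y => by simp [indicator]
  simp only [e _ _ hf, e _ _ hρ]
  rw [lintegral_lintegral_swap]
  · simp only [dist_comm, mul_comm]
  · exact (Measurable.ite (measurableSet_lt (by fun_prop) measurable_const)
      ((hρ.comp measurable_fst).mul (hf.comp measurable_snd)) measurable_const).aemeasurable

lemma avg (h : Sp μ m) {C : ℝ} (hC : ∀ x s t, 0 < s → s ≤ t →
      μ.real (ball x t) ≤ C * (t / s) ^ m * μ.real (ball x s)) {s : ℝ} (hs : 0 < s)
    {f g : X → ℝ≥0∞} (hf : Measurable f) (hg : Measurable g) {K : ℝ≥0∞}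
    (H : ∀ w, ∫⁻ y in ball w s, f y ∂μ ≤ K * ∫⁻ y in ball w (3 * s), g y ∂μ) :
    ∫⁻ y, f y ∂μ ≤ ENNReal.ofReal (C * 2 ^ m) * (K * (ENNReal.ofReal (C * 6 ^ m) *
      ∫⁻ y, g y ∂μ)) := by
  have : IsLocallyFiniteMeasure μ := ⟨fun x => ⟨_, closedBall_mem_nhds x one_pos, h.fin x 1⟩⟩
  have bg : ∀ x (a : ℝ), 1 ≤ a →
      μ (ball x (a * s)) ≤ ENNReal.ofReal (C * a ^ m) * μ (ball x s) := fun x a ha => by
    have := ENNReal.ofReal_le_ofReal (hC x s (a * s) hs (le_mul_of_one_le_left hs.le ha))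
    rwa [mul_div_cancel_right₀ _ hs.ne', ENNReal.ofReal_mul' measureReal_nonneg,
      ofReal_measureReal measure_ball_lt_top.ne, ofReal_measureReal measure_ball_lt_top.ne] at this
  have p0 : ∀ x r, 0 < r → μ (ball x r) ≠ 0 := fun x r hr e => by
    simpa [measureReal_def, e] using h.pos x r hr
  have hρ : Measurable fun w => (μ (ball w s))⁻¹ :=
    (measurable_measure_prodMk_left (s := {q : X × X | dist q.2 q.1 < s})
      (measurableSet_lt (by fun_prop) measurable_const)).inv
  have key : ∀ {a b c : ℝ≥0∞}, a ≠ 0 → a ≠ ⊤ → b ≠ 0 → b ≠ ⊤ → a ≤ c * b → b⁻¹ ≤ c * a⁻¹ :=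
    fun {a b c} a0 a1 b0 b1 h => by
      calc b⁻¹ = a * a⁻¹ * b⁻¹ := by rw [ENNReal.mul_inv_cancel a0 a1, one_mul]
        _ ≤ c * b * a⁻¹ * b⁻¹ := by gcongr
        _ = c * a⁻¹ * (b * b⁻¹) := by ring
        _ = _ := by rw [ENNReal.mul_inv_cancel b0 b1, mul_one]
  have low : ∀ y, 1 ≤ ENNReal.ofReal (C * 2 ^ m) * ∫⁻ w in ball y s, (μ (ball w s))⁻¹ ∂μ :=
    fun y => by
    rw [← lintegral_const_mul _ hρ, ← ENNReal.inv_mul_cancel (p0 y s hs) measure_ball_lt_top.ne,
      ← setLIntegral_const]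
    exact setLIntegral_mono' measurableSet_ball fun w hw => key (p0 w s hs) measure_ball_lt_top.ne
      (p0 y s hs) measure_ball_lt_top.ne ((measure_mono (ball_subset_ball' (by
        linarith [mem_ball.1 hw]))).trans (bg y 2 one_le_two))
  have up : ∀ y, ∫⁻ w in ball y (3 * s), (μ (ball w s))⁻¹ ∂μ ≤ ENNReal.ofReal (C * 6 ^ m) :=
    fun y => by
    have h3 : 0 < 3 * s := by positivity
    rw [← mul_one (ENNReal.ofReal _), ← ENNReal.inv_mul_cancel (p0 y _ h3) measure_ball_lt_top.ne,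
      ← mul_assoc, ← setLIntegral_const]
    exact setLIntegral_mono' measurableSet_ball fun w hw => key (p0 y _ h3) measure_ball_lt_top.ne
      (p0 w s hs) measure_ball_lt_top.ne ((measure_mono (ball_subset_ball' (by
        linarith [mem_ball'.1 hw]))).trans (bg w 6 (by norm_num)))
  calc _ ≤ ∫⁻ y, ENNReal.ofReal (C * 2 ^ m) *
        (f y * ∫⁻ w in ball y s, (μ (ball w s))⁻¹ ∂μ) ∂μ := lintegral_mono fun y => by
        rw [mul_left_comm]
        exact le_mul_of_one_le_right' (low y)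
    _ = ENNReal.ofReal (C * 2 ^ m) * ∫⁻ w, (μ (ball w s))⁻¹ * ∫⁻ y in ball w s, f y ∂μ ∂μ := by
        rw [lintegral_const_mul' _ _ ENNReal.ofReal_ne_top, swap hf hρ]
    _ ≤ ENNReal.ofReal (C * 2 ^ m) *
        ∫⁻ w, (μ (ball w s))⁻¹ * ∫⁻ y in ball w (3 * s), K * g y ∂μ ∂μ := by
        simp only [lintegral_const_mul K hg]
        gcongr with w
        exact H w
    _ ≤ _ := by
        rw [swap (hg.const_mul K) hρ, ← lintegral_const_mul _ hg,
          ← lintegral_const_mul _ (hg.const_mul _)]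
        refine mul_le_mul_right (lintegral_mono fun y => ?_) _
        rw [mul_assoc, mul_comm _ (g y)]
        gcongr
        exact up y

end Fk

open Fk

theorem fk (h : Sp μ m) : FK μ m := by
  have : IsLocallyFiniteMeasure μ := ⟨fun x => ⟨_, closedBall_mem_nhds x one_pos, h.fin x 1⟩⟩
  obtain ⟨B, hB, bg⟩ := h.bg
  obtain ⟨P, hP, poi⟩ := h.poi
  have c0 : 0 ≤ B * 2 ^ m * (2 * P * (8 * B) ^ 2 * (B * 6 ^ m)) := by positivity
  refine ⟨4 * B + B * 2 ^ m * (2 * P * (8 * B) ^ 2 * (B * 6 ^ m)), by linarith,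
    fun v G hu x R σ hR hσ hC h0 hv => ?_⟩
  have h4 : 4 * B * σ ≤ 1 := (mul_le_mul_of_nonneg_right (by linarith) hσ.le).trans hC
  obtain ⟨s, e⟩ : ∃ s, s = 8 * B * (σ * R) := ⟨_, rfl⟩
  have hs : 0 < s := by rw [e]; positivity
  have cv := hu.1
  have cG := hu.2.1
  have H : ∀ w, ∫ y in ball w s, v y ^ 2 ∂μ ≤ 2 * P * s ^ 2 * ∫ y in ball w (3 * s), G y ^ 2 ∂μ :=
    fun w => by
    by_cases hw : ∃ p ∈ ball w s, p ∈ ball x R
    · obtain ⟨p, p1, p2⟩ := hw
      have h1 : μ.real (ball x R) ≤ μ.real (ball w (2 * R + s)) :=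
        measureReal_mono (ball_subset_ball' (by
          linarith [mem_ball.1 p1, mem_ball'.1 p2, dist_triangle x p w])) measure_ball_lt_top.ne
      have h2 : σ * ((2 * R + s) / s) ≤ 1 / (2 * B) := by
        rw [mul_div_assoc', div_le_div_iff₀ hs (by positivity), e]
        nlinarith [mul_le_mul_of_nonneg_right h4 (show 0 ≤ B * (σ * R) by positivity)]
      have h3 : (σ * ((2 * R + s) / s)) ^ m ≤ 1 / (2 * B) :=
        (pow_le_of_le_one (by positivity) (h2.trans (by
          rw [div_le_one (by positivity)]; linarith)) (by have := h.mpos; omega)).trans h2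
      have h5 := h.pos w s hs
      have h6 : μ.real {y | v y ≠ 0} ≤ μ.real (ball w s) / 2 := by
        calc _ ≤ σ ^ m * (B * ((2 * R + s) / s) ^ m * μ.real (ball w s)) :=
              hv.trans (mul_le_mul_of_nonneg_left (h1.trans (bg w s _ hs (by linarith)))
                (by positivity))
          _ = (σ * ((2 * R + s) / s)) ^ m * (B * μ.real (ball w s)) := by rw [mul_pow]; ring
          _ ≤ 1 / (2 * B) * (B * μ.real (ball w s)) :=
              mul_le_mul_of_nonneg_right h3 (by positivity)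
          _ = _ := by field_simp
      have h7 := (loc cv w s ((measure_mono fun y (hy : v y ≠ 0) => by_contra fun h =>
        hy (h0 y h).1).trans_lt measure_ball_lt_top).ne h6).trans (poi v G hu w s hs)
      refine le_of_mul_le_mul_left (h7.trans_eq ?_) (half_pos h5)
      ring
    · rw [setIntegral_eq_zero_of_forall_eq_zero fun y hy => by
        rw [(h0 y fun h => hw ⟨y, hy, h⟩).1, zero_pow two_ne_zero]]
      exact mul_nonneg (by positivity) (integral_nonneg fun _ => sq_nonneg _)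
  have ii : ∀ {f : X → ℝ}, Continuous f → (∀ y ∉ ball x R, f y = 0) →
      Integrable (fun y => f y ^ 2) μ := fun hf h => (integrableOn_iff_integrable_of_support_subset
    fun y hy => by_contra fun h' => hy (by simp [h y h'])).1 (io (hf.pow 2) x R)
  have i1 := ii cv fun y hy => (h0 y hy).1
  have i2 := ii cG fun y hy => (h0 y hy).2
  have k := avg h bg hs (f := fun y => ENNReal.ofReal (v y ^ 2))
    (g := fun y => ENNReal.ofReal (G y ^ 2)) (by fun_prop) (by fun_prop)
    (K := ENNReal.ofReal (2 * P * s ^ 2)) fun w => by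
      rw [← ofReal_integral_eq_lintegral_ofReal i1.integrableOn (ae_of_all _ fun _ => sq_nonneg _),
        ← ofReal_integral_eq_lintegral_ofReal i2.integrableOn (ae_of_all _ fun _ => sq_nonneg _),
        ← ENNReal.ofReal_mul (by positivity)]
      exact ENNReal.ofReal_le_ofReal (H w)
  have g0 : 0 ≤ ∫ y, G y ^ 2 ∂μ := integral_nonneg fun _ => sq_nonneg _
  rw [← ofReal_integral_eq_lintegral_ofReal i1 (ae_of_all _ fun _ => sq_nonneg _),
    ← ofReal_integral_eq_lintegral_ofReal i2 (ae_of_all _ fun _ => sq_nonneg _),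
    ← ENNReal.ofReal_mul (by positivity), ← ENNReal.ofReal_mul (by positivity),
    ← ENNReal.ofReal_mul (by positivity), ENNReal.ofReal_le_ofReal_iff (by positivity), e] at k
  refine k.trans ?_
  nlinarith [show 0 ≤ B * ((σ * R) ^ 2 * ∫ y, G y ^ 2 ∂μ) by positivity]

end Vale.Agent.P253W.HK
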