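import Vale.Agent.P253W.HK.Defs
import Vale.Agent.P272.K.AMP.GreenLocal

/-!
# P253W, block HK, row GRN: the formula of Green
-/

open scoped Manifold ContDiff Bundle ENNReal Topology ComplexOrder
open Bundle MeasureTheory Set Metric Filter Vale.Agent.P253Z
open Vale.Agent.P272.K (Cm Chart)

set_option linter.unusedSectionVars false

noncomputable section

namespace Vale.Agent.P253W.HK

variable {n : ℕ} {M : Type} [MetricSpace M] [ChartedSpace (Cm n) M]
  [RiemannianBundle (fun x : M => TangentSpace 𝓘(ℝ, Cm n) x)]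
  [MeasurableSpace M] [BorelSpace M] {μ : Measure M} {F : Flow n M} {e : Chart n M} {t : ℝ}

namespace Grn

/-- integrals in a chart -/
theorem int_chart (b : B1b n M) (v : B3 n μ) (he : Hc e) {f : M → ℝ} (hf : Continuous f)
    (h0 : ∀ x ∉ e.source, f x = 0) :
    ∫ x, f x ∂μ = ∫ z in e.target, vd e z * f (e.symm z) := by
  have mt := e.open_target.measurableSet
  have m1 : AEMeasurable e.symm (volume.restrict e.target) := e.continuousOn_symm.aemeasurable mt
  have m2 : AEMeasurable (fun z => ENNReal.ofReal (vd e z)) (volume.restrict e.target) :=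
    (ContinuousOn.aemeasurable (fun z hz => (b.vd_sm e he z hz).continuousAt.continuousWithinAt)
      mt).ennreal_ofReal
  have m3 := m1.mono' (withDensity_absolutelyContinuous _ fun z => ENNReal.ofReal (vd e z))
  have q : μ.restrict e.source = ((volume.restrict e.target).withDensity fun z =>
      ENNReal.ofReal (vd e z)).map e.symm := Measure.ext_of_lintegral _ fun g hg => by
    rw [lintegral_map' hg.aemeasurable m3, lintegral_withDensity_eq_lintegral_mul₀ m2
      (g := fun z => g (e.symm z)) (hg.comp_aemeasurable m1), ← e.symm_image_target_eq_source,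
      v.loc e he _ mt subset_rfl g hg]
    exact lintegral_congr fun z => mul_comm _ _
  rw [← setIntegral_eq_integral_of_forall_compl_eq_zero h0, q,
    integral_map m3 hf.aestronglyMeasurable, integral_withDensity_eq_integral_toReal_smul₀ m2
      (Eventually.of_forall fun _ => ENNReal.ofReal_lt_top)]
  exact setIntegral_congr_fun mt fun z hz => by
    simp [ENNReal.toReal_ofReal (b.vd_pos e he z hz).le]

theorem vol_eq (h : F.Is) (p : F.Bas1) (a : B1a n M) (b : B1b n M) (ht : 0 ≤ t) (he : Hc e)
    {z : Cm n} (hz : z ∈ e.target) : vd e z * vol F t (e.symm z) = (F.g t e z).det.re := by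
  have c : 0 < ‖co 1 F.Ω e z‖ ^ 2 := pow_pos (norm_pos_iff.2 (mul_ne_zero (zpow_ne_zero _
    (a.jac_ne e _ he (a.chart _) _ (e.map_target hz) (mem_chart_source _ _))) (h.ne _))) 2
  have d : 0 < (F.g t e z).det.re := (Complex.pos_iff.1 (h.pos t ht e he z hz).det_pos).1
  have d0 := b.vd_pos e he z hz
  unfold vd at *
  rw [vol, p.u_eq 0 le_rfl e he z hz, p.u_eq t ht e he z hz, p.g_zero, Real.exp_sub,
    Real.exp_log (div_pos c d), Real.exp_log (div_pos c d0)]
  generalize ‖co 1 F.Ω e z‖ ^ 2 = x at c ⊢
  field_simp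

theorem cont_vol (p : F.Bas1) (a : B1a n M) (ht : 0 ≤ t) : Continuous (vol F t) :=
  ((a.sm_cont _ (p.sm_at _ p.u_sm 0 le_rfl)).sub (a.sm_cont _ (p.sm_at _ p.u_sm t ht))).rexp

theorem cont_lap (c : Cal F) (ht : 0 ≤ t) {f : M → ℝ} (hf : Sm n f) : Continuous (F.lap t f) := by
  have h1 : SmT n (Ico 0 (t + 1)) fun _ => f := fun e he q hq =>
    (ContDiffAt.comp (f := Prod.snd) q (hf e he _ hq.2) contDiffAt_snd).contDiffWithinAt
  exact (c.cont_lap _ _ h1).1.comp_continuous (f := fun x : M => (t, x)) (by fun_prop)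
    fun _ => ⟨⟨ht, lt_add_one t⟩, trivial⟩

theorem lap_zero (c : Cal F) {f : M → ℝ} {x : M} (hx : x ∉ tsupport f) : F.lap t f x = 0 :=
  (c.congr t f _ x (notMem_tsupport_iff_eventuallyEq.1 hx)).trans (c.const t 0 x)

theorem one (h : F.Is) (p : F.Bas1) (a : B1a n M) (b : B1b n M) (v : B3 n μ) (c : Cal F)
    (ht : 0 ≤ t) (he : Hc e) {f g : M → ℝ} (hf : Sm n f) (hg : Sm n g) (k : HasCompactSupport f)
    (s : tsupport f ⊆ e.source) :
    ∫ x, f x * F.lap t g x * vol F t x ∂μ = ∫ x, g x * F.lap t f x * vol F t x ∂μ := by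
  classical
  have kc : IsCompact (e '' tsupport f) := k.isCompact.image_of_continuousOn (e.continuousOn.mono s)
  have kt : e '' tsupport f ⊆ e.target := by rintro _ ⟨x, hx, rfl⟩; exact e.map_source (s hx)
  set ψ := e.target.indicator fun z => f (e.symm z) with hψ
  have ev : ∀ z ∈ e.target, ψ =ᶠ[𝓝 z] fun z => f (e.symm z) := fun z hz =>
    mem_of_superset (e.open_target.mem_nhds hz) fun y hy => indicator_of_mem hy _
  have ts : tsupport ψ ⊆ e '' tsupport f := closure_minimal (fun z hz => by
    obtain ⟨h1, h2⟩ := indicator_apply_ne_zero.1 hz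
    exact ⟨_, subset_tsupport _ h2, e.right_inv h1⟩) kc.isClosed
  have := P272.K.AMP.local_green (O := ⟨e.target, e.open_target⟩) (g := F.g t e) (ψ := ψ)
    (F := fun z => g (e.symm z)) ⟨fun z hz => p.g_at t ht e he z hz, h.pos t ht e he⟩
    (fun z hz => p.g_cl t ht e he z hz) (contMDiff_of_tsupport fun z hz =>
      ((hf e he z (kt (ts hz))).congr_of_eventuallyEq (ev z (kt (ts hz)))).contMDiffAt).contDiff
    (kc.of_isClosed_subset (isClosed_tsupport _) ts) (ts.trans kt) (hg e he)
  rw [int_chart b v he (((a.sm_cont _ hf).fun_mul (cont_lap c ht hg)).fun_mul (cont_vol p a ht))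
      fun x hx => by simp [image_eq_zero_of_notMem_tsupport fun q => hx (s q)],
    int_chart b v he (((a.sm_cont _ hg).fun_mul (cont_lap c ht hf)).fun_mul (cont_vol p a ht))
      fun x hx => by simp [lap_zero c fun q => hx (s q)]]
  refine (setIntegral_congr_fun e.open_target.measurableSet fun z hz => ?_).trans (this.trans
    (setIntegral_congr_fun e.open_target.measurableSet fun z hz => ?_))
  · rw [(ev z hz).eq_of_nhds, ← vol_eq h p a b ht he hz,
      p.lap_eq t ht g e he z hz ((hg e he z hz).of_le (by norm_cast))]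
    unfold trg hs
    ring
  · rw [P272.K.C2.cHess_congr (ev z hz), ← vol_eq h p a b ht he hz,
      p.lap_eq t ht f e he z hz ((hf e he z hz).of_le (by norm_cast))]
    unfold trg hs
    ring

/-- a cutoff function in a chart -/
theorem ex_cut [IsManifold 𝓘(ℝ, Cm n) ∞ M] (a : B1a n M) (x : M) : ∃ χ : M → ℝ, Sm n χ ∧
    tsupport χ ⊆ (pc n x).source ∧ χ =ᶠ[𝓝 x] 1 :=
  let ⟨χ⟩ : Nonempty (SmoothBumpFunction 𝓘(ℝ, Cm n) x) := inferInstance
  ⟨χ, a.sm_loc _ fun y => ⟨_, a.chart y, mem_chart_source _ _, by
    simpa [contMDiffWithinAt_univ, contMDiffAt_iff_contDiffAt, Function.comp_def] using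
      contMDiffAt_iff_source.1 (χ.contMDiffAt (x := y))⟩, χ.tsupport_subset_chartAt_source,
    χ.eventuallyEq_one⟩

/-- induction over smooth functions with compact support -/
theorem ind [IsManifold 𝓘(ℝ, Cm n) ∞ M] (a : B1a n M) {P : (M → ℝ) → Prop}
    (h1 : ∀ x f, Sm n f → HasCompactSupport f → tsupport f ⊆ (pc n x).source → P f)
    (h0 : P fun _ => 0) (h2 : ∀ f g, Sm n f → Sm n g → HasCompactSupport f →
      HasCompactSupport g → P f → P g → P fun x => f x + g x)
    {f : M → ℝ} (hf : Sm n f) (k : HasCompactSupport f) : P f := by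
  classical
  choose χ c1 c2 c3 using ex_cut a
  obtain ⟨s, -, hs⟩ := k.isCompact.elim_nhds_subcover (fun x => interior {y | χ x y = 1})
    fun x _ => interior_mem_nhds.2 (c3 x)
  induction s using Finset.induction_on generalizing f with
  | empty =>
    rw [show f = fun _ => 0 from funext fun x => image_eq_zero_of_notMem_tsupport fun q => by
      simpa using hs q]
    exact h0
  | insert x s _ ih =>
    have s1 : Sm n fun y => χ x y * f y := fun e he z hz => (c1 x e he z hz).mul (hf e he z hz)
    have s2 : Sm n fun y => (1 - χ x y) * f y := fun e he z hz =>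
      (contDiffAt_const.sub (c1 x e he z hz)).mul (hf e he z hz)
    have := h2 _ _ s1 s2 k.mul_left k.mul_left
      (h1 x _ s1 k.mul_left (tsupport_mul_subset_left.trans (c2 x))) (ih s2 k.mul_left fun y hy => by
        have q := hs (tsupport_mul_subset_right hy)
        rw [Finset.set_biUnion_insert] at q
        refine q.resolve_left fun r => notMem_tsupport_iff_eventuallyEq.2 ?_ hy
        exact mem_of_superset (mem_interior_iff_mem_nhds.1 r) fun w (hw : χ x w = 1) => by
          simp [hw])
    simpa [← add_mul] using this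

end Grn

open Grn

theorem grn [IsManifold 𝓘(ℝ, Cm n) ∞ M] (h : F.Is) (p : F.Bas1) (a : B1a n M) (b : B1b n M)
    (v : B3 n μ) (c : Cal F) : GRN F μ := by
  intro t ht f g hf hg k
  have : IsFiniteMeasureOnCompacts μ := ⟨fun K => v.fin K⟩
  refine ind a (P := fun f => ∫ x, f x * F.lap t g x * vol F t x ∂μ =
    ∫ x, g x * F.lap t f x * vol F t x ∂μ)
    (fun x f hf k s => one h p a b v c ht (a.chart x) hf hg k s) (by simp [c.const])
    (fun f f' hf hf' k k' e e' => ?_) hf k
  have i1 : ∀ f, Sm n f → HasCompactSupport f →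
      Integrable (fun x => f x * F.lap t g x * vol F t x) μ := fun f hf k =>
    (((a.sm_cont _ hf).mul (cont_lap c ht hg)).mul
      (cont_vol p a ht)).integrable_of_hasCompactSupport k.mul_right.mul_right
  have i2 : ∀ f, Sm n f → HasCompactSupport f →
      Integrable (fun x => g x * F.lap t f x * vol F t x) μ := fun f hf k =>
    (((a.sm_cont _ hg).mul (cont_lap c ht hf)).mul
      (cont_vol p a ht)).integrable_of_hasCompactSupport
        (HasCompactSupport.intro k fun x => lap_zero c).mul_left.mul_right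
  have l : ∀ x, F.lap t (fun x => f x + f' x) x = F.lap t f x + F.lap t f' x := fun x => by
    simpa using c.lin t 1 1 f f' x (c.c2 f hf x) (c.c2 f' hf' x)
  simp only [l, add_mul, mul_add]
  rw [integral_add (i1 f hf k) (i1 f' hf' k'), integral_add (i2 f hf k) (i2 f' hf' k'), e, e']

end Vale.Agent.P253W.HK
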