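import Vale.Agent.P253W.HK.Defs

/-!
# P253W, block HK: the decay of the distribution function
-/

open scoped ENNReal Topology
open MeasureTheory Set Metric Filter

noncomputable section

namespace Vale.Agent.P253W.HK

namespace Ink

variable {X : Type} [MetricSpace X] [MeasurableSpace X] {μ : Measure X} {m : ℕ}

theorem ne_top (h : Sp μ m) {A : Set X} {x : X} {s : ℝ} (hA : A ⊆ ball x s) : μ A ≠ ⊤ :=
  ((measure_mono (hA.trans ball_subset_closedBall)).trans_lt (h.fin x s)).ne

/-- the covering argument -/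
theorem cover [ProperSpace X] [BorelSpace X] (h : Sp μ m) {A L B : Set X} {x : X} {R q T : ℝ}
    (hq : 0 ≤ q) (hB : B ⊆ ball x R) (hL : A ⊆ L)
    (H : ∀ z ∈ A, ∃ s, 0 < s ∧ s ≤ T ∧ ball z s ⊆ B ∧
      μ.real (ball z (5 * s) ∩ L) ≤ q * μ.real (ball z s)) : μ.real A ≤ q * μ.real B := by
  choose! s s0 sT sB sq using H
  obtain ⟨u, uA, ud, uc⟩ :=
    Vitali.exists_disjoint_subfamily_covering_enlargement_ball A id s T sT 5 (by norm_num)
  have cu : u.Countable := ud.countable_of_isOpen (fun _ _ => isOpen_ball)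
    fun z hz => nonempty_ball.2 (s0 z (uA hz))
  have h1 : μ A ≤ ENNReal.ofReal q * μ B :=
    calc μ A ≤ μ (⋃ z ∈ u, ball z (5 * s z) ∩ L) := measure_mono fun z hz => by
          obtain ⟨b, hb, hs⟩ := uc z hz
          exact mem_biUnion hb ⟨hs (mem_ball_self (s0 z hz)), hL hz⟩
      _ ≤ ∑' z : u, μ (ball z (5 * s z) ∩ L) := measure_biUnion_le μ cu _
      _ ≤ ∑' z : u, ENNReal.ofReal q * μ (ball z (s z)) := ENNReal.tsum_le_tsum fun z => by
          rw [← ofReal_measureReal (ne_top h inter_subset_left),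
            ← ofReal_measureReal (ne_top h Subset.rfl), ← ENNReal.ofReal_mul hq]
          exact ENNReal.ofReal_le_ofReal (sq z (uA z.2))
      _ = ENNReal.ofReal q * μ (⋃ z ∈ u, ball z (s z)) := by
          rw [ENNReal.tsum_mul_left]
          exact congrArg _ (measure_biUnion cu ud fun _ _ => measurableSet_ball).symm
      _ ≤ _ := by
          gcongr
          exact iUnion₂_subset fun z hz => sB z (uA hz)
  have h2 := ENNReal.toReal_mono (ENNReal.mul_ne_top ENNReal.ofReal_ne_top (ne_top h hB)) h1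
  rwa [ENNReal.toReal_mul, ENNReal.toReal_ofReal hq] at h2

/-- positive density of a sublevel set gives an upper bound on the ball -/
theorem dens (h : Sp μ m) (hk : KL μ) {θ : ℝ} (θ0 : 0 < θ) (θ1 : θ ≤ 1) : ∃ K ≥ (1 : ℝ),
    ∀ l G U, Lg μ l G U → ∀ z s t, 0 < s → closedBall z (10 * s) ⊆ U →
      θ * μ.real (ball z s) < μ.real (ball z s ∩ {w | l w < t}) → ∀ w ∈ ball z s, l w < t + K := by
  obtain ⟨C, C1, hC⟩ := hk
  have K1 : 1 ≤ C / θ := (one_le_div θ0).2 (θ1.trans C1)
  refine ⟨C / θ + C, by linarith, fun l G U hl z s t hs hU hd w hw => ?_⟩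
  obtain ⟨c, h1, h2⟩ := hC l G U hl z s hs hU
  have h3 : c - C / θ < t := not_le.1 fun h3 => by
    have h4 : μ.real (ball z s ∩ {w | l w < t}) ≤ μ.real (ball z s ∩ {w | l w < c - C / θ}) :=
      measureReal_mono (fun w hw => ⟨hw.1, lt_of_lt_of_le hw.2 h3⟩) (ne_top h inter_subset_left)
    have h5 := h2 (C / θ) (by linarith)
    have h6 := h.pos z s hs
    have h7 : C * μ.real (ball z s) ≤ θ * μ.real (ball z s) * (C / θ) ^ 2 :=
      calc _ = θ * μ.real (ball z s) * (C / θ) := by field_simp
        _ ≤ _ := by gcongr; nlinarith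
    have h8 := mul_lt_mul_of_pos_right (hd.trans_le h4) (show 0 < (C / θ) ^ 2 by positivity)
    linarith
  linarith [h1 w hw]

/-- the stopping radius -/
theorem stop (h : Sp μ m) {L : Set X} (hL : IsOpen L) {z : X} (hz : z ∈ L) {θ T : ℝ} (θ1 : θ < 1)
    (T0 : 0 < T) (hT : μ.real (ball z T ∩ L) ≤ θ * μ.real (ball z T)) :
    ∃ s, 0 < s ∧ 5 * s ≤ T ∧ θ * μ.real (ball z s) < μ.real (ball z s ∩ L) ∧
      μ.real (ball z (5 * s) ∩ L) ≤ θ * μ.real (ball z (5 * s)) := by
  classical
  have ex : ∃ j : ℕ, θ * μ.real (ball z (T / 5 ^ j)) < μ.real (ball z (T / 5 ^ j) ∩ L) := by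
    obtain ⟨r, r0, hr⟩ := Metric.isOpen_iff.1 hL z hz
    obtain ⟨j, hj⟩ := pow_unbounded_of_one_lt (T / r) (show (1 : ℝ) < 5 by norm_num)
    have h1 : T / 5 ^ j ≤ r := by
      rw [div_le_iff₀ (by positivity), mul_comm]
      exact ((div_lt_iff₀ r0).1 hj).le
    refine ⟨j, ?_⟩
    rw [inter_eq_left.2 ((ball_subset_ball h1).trans hr)]
    exact mul_lt_of_lt_one_left (h.pos _ _ (by positivity)) θ1
  have h0 : Nat.find ex ≠ 0 := fun h0 => by
    have := Nat.find_spec ex
    rw [h0, pow_zero, div_one] at this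
    exact this.not_ge hT
  obtain ⟨j, hj⟩ := Nat.exists_eq_succ_of_ne_zero h0
  have h1 := Nat.find_spec ex
  have h2 := Nat.find_min ex (show j < Nat.find ex by omega)
  rw [hj] at h1
  have e : 5 * (T / 5 ^ (j + 1)) = T / 5 ^ j := by field_simp; ring
  refine ⟨T / 5 ^ (j + 1), by positivity, ?_, h1, by rw [e]; exact not_lt.1 h2⟩
  rw [e]
  exact div_le_self T0.le (one_le_pow₀ (by norm_num))

end Ink

open Ink in
/-- **INK** -/
theorem ink {X : Type} [MetricSpace X] [ProperSpace X] [MeasurableSpace X] [BorelSpace X]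
    {μ : Measure X} {m : ℕ} (h : Sp μ m) (hk : KL μ) : INK μ := by
  obtain ⟨C, C1, hC⟩ := h.bg
  have m1 := h.mpos
  have p : ∀ a : ℝ, 1 < a → 1 < C * a ^ m := fun a ha =>
    one_lt_mul_of_le_of_lt C1 (one_lt_pow₀ ha (by omega))
  obtain ⟨θ, hθ⟩ : ∃ θ : ℝ, θ = 1 / (C * 10 ^ m) := ⟨_, rfl⟩
  have θ0 : 0 < θ := by rw [hθ]; positivity
  have θ1 : θ < 1 := by rw [hθ, div_lt_one (by positivity)]; exact p 10 (by norm_num)
  have θ2 : θ / (C * 8 ^ m) ≤ θ := div_le_self θ0.le (p 8 (by norm_num)).le
  obtain ⟨K, K1, hK⟩ := dens h hk (θ := θ / (C * 8 ^ m)) (by positivity) (θ2.trans θ1.le)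
  refine ⟨K, K1, fun l G U hl x R R0 hU y hy => ?_⟩
  have key : ∀ k : ℕ, μ.real (ball x (R + R / 2 ^ k) ∩ {z | l z < l y - (k + 1) * K}) ≤
      θ / (C * 8 ^ m) / (2 ^ k) ^ m * μ.real (ball x (2 * R)) := fun k => by
    induction k with
    | zero =>
      refine not_lt.1 fun h0 => ?_
      have := hK l G U hl x (2 * R) (l y - K) (by positivity)
        ((closedBall_subset_closedBall (by linarith)).trans hU)
        (by simpa [two_mul] using h0) y (ball_subset_ball (by linarith) hy)
      linarith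
    | succ k ih =>
      have T0 : 0 < R / 2 ^ (k + 1) := by positivity
      have T1 : R / 2 ^ (k + 1) ≤ R := div_le_self R0.le (one_le_pow₀ one_le_two)
      have T2 : R / 2 ^ k = 2 * (R / 2 ^ (k + 1)) := by field_simp; ring
      refine (cover h (q := 1 / 2 ^ m) (T := R)
        (B := ball x (R + R / 2 ^ k) ∩ {z | l z < l y - (k + 1) * K}) (by positivity)
        inter_subset_left inter_subset_right fun z hz => ?_).trans ?_
      · have hz1 := mem_ball.1 hz.1
        have sub : ball z (R / 2 ^ (k + 1)) ⊆ ball x (R + R / 2 ^ k) :=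
          ball_subset_ball' (by linarith)
        obtain ⟨s, s0, s1, s2, s3⟩ := stop h (isOpen_lt hl.1.1 continuous_const) hz.2 θ1 T0 (by
          refine (measureReal_mono (inter_subset_inter sub fun w hw => ?_)
            (ne_top h inter_subset_left)).trans (ih.trans ?_)
          · have : l w < _ := hw
            push_cast at this
            change l w < _
            linarith
          · have a1 : μ.real (ball x (2 * R)) ≤ μ.real (ball z (4 * R)) :=
              measureReal_mono (ball_subset_ball' (by rw [dist_comm]; linarith))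
                (ne_top h Subset.rfl)
            have a2 := hC z (R / 2 ^ (k + 1)) (4 * R) T0 (by linarith)
            rw [show 4 * R / (R / 2 ^ (k + 1)) = 8 * 2 ^ k by field_simp; ring, mul_pow] at a2
            calc _ ≤ θ / (C * 8 ^ m) / (2 ^ k) ^ m *
                  (C * (8 ^ m * (2 ^ k) ^ m) * μ.real (ball z (R / 2 ^ (k + 1)))) := by
                  gcongr; exact a1.trans a2
              _ = _ := by field_simp)
        refine ⟨s, s0, by linarith, fun w hw => ⟨sub (ball_subset_ball (by linarith) hw), ?_⟩,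
          s3.trans ?_⟩
        · have := hK l G U hl z s _ s0 ((closedBall_subset_closedBall' (by linarith)).trans hU)
            ((mul_le_mul_of_nonneg_right θ2 measureReal_nonneg).trans_lt s2) w hw
          push_cast at this
          change l w < _
          linarith
        · have a2 := hC z s (5 * s) s0 (by linarith)
          rw [mul_div_cancel_right₀ _ s0.ne'] at a2
          calc _ ≤ θ * (C * 5 ^ m * μ.real (ball z s)) := by gcongr
            _ = _ := by
              rw [hθ, show (10 : ℝ) = 2 * 5 by norm_num, mul_pow]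
              field_simp
      · refine (mul_le_mul_of_nonneg_left ih (by positivity)).trans (le_of_eq ?_)
        rw [pow_succ, mul_pow]
        field_simp
  intro k
  have a1 : μ.real (ball x R ∩ {z | l z < l y - (k + 1) * K}) ≤ _ :=
    (measureReal_mono (inter_subset_inter_left _ (ball_subset_ball
      (le_add_of_nonneg_right (by positivity)))) (ne_top h inter_subset_left)).trans (key k)
  have a2 := hC x R (2 * R) R0 (by linarith)
  rw [mul_div_cancel_right₀ _ R0.ne'] at a2
  have a3 : (2 : ℝ) ^ k ≤ (2 ^ k) ^ m := le_self_pow₀ (one_le_pow₀ one_le_two) (by omega)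
  have a4 : (2 : ℝ) ^ m ≤ 8 ^ m := by gcongr; norm_num
  calc _ ≤ θ / (C * 8 ^ m) / (2 ^ k) ^ m * (C * 8 ^ m * μ.real (ball x R)) * (2 ^ k) ^ m := by
        gcongr
        refine a1.trans ?_
        gcongr
        exact a2.trans (by gcongr)
    _ = θ * μ.real (ball x R) := by field_simp
    _ ≤ _ := mul_le_of_le_one_left measureReal_nonneg θ1.le

end Vale.Agent.P253W.HK
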