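import Vale.Agent.P253W.HK.Defs
import Vale.Agent.P253W.FP.MDefs
import Vale.Agent.P253W.FG.Calc

/-!
# P253W, block HK: the linear equation and equicontinuity, from block FP
-/

set_option maxSynthPendingDepth 3
set_option linter.unusedSectionVars false

open scoped Manifold ContDiff Bundle ENNReal Topology ComplexOrder
open Bundle MeasureTheory Set Metric Filter Vale.Agent.P253Z
open Vale.Agent.P272.K (Cm Chart cHess)
open Vale.Agent.P272.K.R (Hol Bil D2)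
open Vale.Agent.P272.K.LIN (Jet jet)
open Vale.Agent.P272.K.N (lev)
open Vale.Agent.P253W.FP (PB Cl Ell j2 ΦL Pm)

noncomputable section

namespace Vale.Agent.P253W.HK

variable {n : ℕ}

namespace Intf

variable {W : Type} [NormedAddCommGroup W] [NormedSpace ℝ W] {I : Set ℝ} {U : Set (Cm n)}

theorem fd {Φ : ℝ × Cm n → W} (hI : UniqueDiffOn ℝ I) (hU : IsOpen U)
    (h : ContDiffOn ℝ ∞ Φ (I ×ˢ U)) :
    ContDiffOn ℝ ∞ (fun q : ℝ × Cm n => fderiv ℝ (fun y => Φ (q.1, y)) q.2) (I ×ˢ U) :=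
  contDiffOn_clm_apply.2 fun v => FG.Calc.dir hI hU h v

theorem pb_of {Φ : ℝ × Cm n → W} {S r : ℝ} {z : Cm n} (hr : r ≤ 1 / 2)
    (h : ContDiffOn ℝ ∞ Φ (Icc 0 S ×ˢ closedBall z r)) :
    ∃ K, PB (1 / 2) (Icc 0 S) (ball z r) (fun t y => Φ (t, y)) K K := by
  have hc : IsCompact (Icc (0 : ℝ) S ×ˢ closedBall z r) :=
    isCompact_Icc.prod (isCompact_closedBall z r)
  obtain ⟨L, hL⟩ := h.exists_lipschitzOnWith (by simp)
    ((convex_Icc 0 S).prod (convex_closedBall z r)) hc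
  obtain ⟨B, hB⟩ := hc.exists_bound_of_continuousOn h.continuousOn
  refine ⟨max B L, h.continuousOn.mono (prod_mono Subset.rfl ball_subset_closedBall),
    fun t ht y hy => (hB (t, y) ⟨ht, ball_subset_closedBall hy⟩).trans (le_max_left _ _),
    fun t ht x hx y hy => ?_⟩
  have h1 := hL.dist_le_mul (t, x) ⟨ht, ball_subset_closedBall hx⟩ (t, y)
    ⟨ht, ball_subset_closedBall hy⟩
  rw [Prod.dist_eq, dist_self, max_eq_right dist_nonneg, dist_eq_norm, dist_eq_norm] at h1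
  have h2 : ‖x - y‖ ≤ 1 := by
    rw [← dist_eq_norm]
    linarith [dist_triangle_right x y z, mem_ball.1 hx, mem_ball.1 hy]
  have h3 : ‖x - y‖ ≤ ‖x - y‖ ^ (1 / 2 : ℝ) := by
    conv_lhs => rw [← Real.rpow_one ‖x - y‖]
    exact Real.rpow_le_rpow_of_exponent_ge' (norm_nonneg _) h2 (by norm_num) (by norm_num)
  exact h1.trans (mul_le_mul (le_max_right _ _) h3 (norm_nonneg _)
    (le_max_of_le_right L.coe_nonneg))

/-- the operator on jets -/
def op (a : Pm n) : Jet (Cm n) →L[ℝ] ℝ := (fderiv ℝ ΦL (a, (0 : Bil (Cm n)))).comp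
  ((ContinuousLinearMap.inr ℝ (Pm n) (Bil (Cm n))).comp
    ((ContinuousLinearMap.snd ℝ _ _).comp (ContinuousLinearMap.snd ℝ _ _)))

theorem op_apply (hq : FP.MAQ n) {a : Pm n} (ha : (Matrix.of a).det ≠ 0) (j : Jet (Cm n)) :
    op a j = trg (Matrix.of a) (lev j.2.2) := by
  have h1 : DifferentiableAt ℝ (ΦL (n := n)) (a, (0 : ℝ) • j.2.2) :=
    (hq.sL.contDiffAt (hq.oL.mem_nhds ha)).differentiableAt (by simp)
  have h2 : HasDerivAt (fun s : ℝ => (a, s • j.2.2)) ((0 : Pm n), j.2.2) 0 := by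
    simpa using (hasDerivAt_const (0 : ℝ) a).prodMk ((hasDerivAt_id (0 : ℝ)).smul_const j.2.2)
  have h3 := h1.hasFDerivAt.comp_hasDerivAt (0 : ℝ) h2
  have h4 : (ΦL ∘ fun s : ℝ => (a, s • j.2.2)) = fun s => s * trg (Matrix.of a) (lev j.2.2) := by
    funext s
    simp only [Function.comp, ΦL, trg, P272.K.N.lev_smul, Matrix.mul_smul, Matrix.trace_smul,
      smul_eq_mul, Complex.re_ofReal_mul]
  rw [h4, zero_smul] at h3
  have h5 := h3.unique ((hasDerivAt_id (0 : ℝ)).mul_const _)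
  rw [one_mul] at h5
  exact h5

theorem op_sm (hq : FP.MAQ n) {a : ℝ × Cm n → Pm n} {s : Set (ℝ × Cm n)}
    (ha : ContDiffOn ℝ ∞ a s) (hd : ∀ q ∈ s, (Matrix.of (a q)).det ≠ 0) :
    ContDiffOn ℝ ∞ (fun q => op (a q)) s :=
  ((hq.sL.fderiv_of_isOpen hq.oL (by simp)).comp (ha.prodMk contDiffOn_const) hd).clm_comp
    contDiffOn_const

/-- uniform ellipticity on a compact set -/
theorem ell {A : ℝ × Cm n → Bil (Cm n) →L[ℝ] ℝ} {s : Set (ℝ × Cm n)} (hs : IsCompact s)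
    (hA : ContinuousOn A s) (hp : ∀ q ∈ s, ∀ ξ : Cm n →L[ℝ] ℝ, ξ ≠ 0 → 0 < A q (ξ.smulRight ξ)) :
    ∃ l > 0, ∃ L, ∀ q ∈ s, Ell l L (A q) := by
  obtain ⟨L, hL⟩ := hs.exists_bound_of_continuousOn hA
  have hc : ContinuousOn (fun p : (ℝ × Cm n) × (Cm n →L[ℝ] ℝ) => A p.1 (p.2.smulRight p.2))
      (s ×ˢ sphere 0 1) := by
    refine (hA.comp continuousOn_fst fun p hp => hp.1).clm_apply (Continuous.continuousOn ?_)
    have h0 : Continuous fun ξ : Cm n →L[ℝ] ℝ => ξ.smulRight ξ :=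
      (ContinuousLinearMap.smulRightL ℝ (Cm n) (Cm n →L[ℝ] ℝ)).continuous.clm_apply continuous_id
    exact h0.comp continuous_snd
  obtain ⟨l, hl, hl'⟩ := (hs.prod (isCompact_sphere (0 : Cm n →L[ℝ] ℝ) 1)).exists_forall_le' hc
    (a := 0) fun p hp' => hp p.1 hp'.1 p.2 fun h0 => by simpa [h0] using hp'.2
  refine ⟨l, hl, L, fun q hq => ⟨hL q hq, fun ξ => ?_⟩⟩
  rcases eq_or_ne ξ 0 with rfl | h0
  · simp
  · have hn : 0 < ‖ξ‖ := norm_pos_iff.2 h0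
    have h1 := hl' (q, ‖ξ‖⁻¹ • ξ) ⟨hq, by simp [norm_smul, hn.ne']⟩
    have h2 : (‖ξ‖⁻¹ • ξ).smulRight (‖ξ‖⁻¹ • ξ) = (‖ξ‖⁻¹ * ‖ξ‖⁻¹) • ξ.smulRight ξ := by
      ext v w; simp; ring
    simp only [h2, map_smul, smul_eq_mul] at h1
    have h3 := mul_le_mul_of_nonneg_right h1 (sq_nonneg ‖ξ‖)
    refine h3.trans (le_of_eq ?_)
    field_simp

/-- the local estimate in a chart -/
theorem flat (hq : FP.MAQ n) (hi : FP.INT1 (Cm n)) {a : ℝ × Cm n → Pm n} {S r : ℝ} {z : Cm n}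
    (hS : 0 < S) (hr0 : 0 < r) (hr : r ≤ 1 / 2) (hU : IsOpen U) (hzU : closedBall z r ⊆ U)
    (ha : ContDiffOn ℝ ∞ a (Icc 0 S ×ˢ U)) (hp : ∀ q ∈ Icc 0 S ×ˢ U, (Matrix.of (a q)).PosDef) :
    ∃ C ≥ (0 : ℝ), ∀ w : ℝ × Cm n → ℝ, ContDiffOn ℝ ∞ w (Icc 0 S ×ˢ U) →
      (∀ y ∈ U, w (0, y) = 0 ∧ (∀ t ∈ Icc 0 S, |w (t, y)| ≤ 1) ∧ ∀ t ∈ Ioo 0 S,
        deriv (fun s => w (s, y)) t = trg (Matrix.of (a (t, y))) (cHess (fun x => w (t, x)) y)) →
      ∀ t ∈ Icc 0 S, ∀ t' ∈ Icc 0 S, ∀ y ∈ ball z (r / 2), ∀ y' ∈ ball z (r / 2),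
        |w (t, y) - w (t', y')| ≤ C * (|t - t'| + ‖y - y'‖ ^ (1 / 2 : ℝ)) := by
  have hI : UniqueDiffOn ℝ (Icc 0 S) := uniqueDiffOn_Icc hS
  have hsub : Icc (0 : ℝ) S ×ˢ closedBall z r ⊆ Icc 0 S ×ˢ U := prod_mono Subset.rfl hzU
  have hbU : ball z r ⊆ U := ball_subset_closedBall.trans hzU
  have hc : IsCompact (Icc (0 : ℝ) S ×ˢ closedBall z r) :=
    isCompact_Icc.prod (isCompact_closedBall z r)
  have hd : ∀ q ∈ Icc 0 S ×ˢ U, (Matrix.of (a q)).det ≠ 0 := fun q hq' =>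
    (hp q hq').det_pos.ne'
  have hA := op_sm hq ha hd
  obtain ⟨K, hK⟩ := pb_of hr (hA.mono hsub)
  have hA2 : ContinuousOn (fun q => (op (a q)).comp j2) (Icc 0 S ×ˢ closedBall z r) :=
    (hA.mono hsub).continuousOn.clm_comp continuousOn_const
  obtain ⟨l, hl, L, hE⟩ := ell hc hA2 fun q hq' ξ hξ =>
    hq.eL (a q, 0) (hp q (hsub hq')) ξ hξ
  obtain ⟨ε, hε, h1⟩ := hi (1 / 2) (by norm_num) (by norm_num) l L hl
  obtain ⟨τ, hτ, hτ'⟩ := Metric.uniformContinuousOn_iff_le.1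
    (hc.uniformContinuousOn_of_continuous hA2) ε hε
  obtain ⟨C, hC, h2⟩ := h1 τ r K hτ hr0
  have hK0 : 0 ≤ K := (norm_nonneg _).trans (hK.sup 0 ⟨le_rfl, hS.le⟩ z (mem_ball_self hr0))
  refine ⟨(K + 1) * C, by positivity, fun w hw he => ?_⟩
  have w1 := fd hI hU hw
  have w2 := fd hI hU w1
  have hj : ContDiffOn ℝ ∞ (fun q : ℝ × Cm n => jet (fun y => w (q.1, y)) q.2) (Icc 0 S ×ˢ U) :=
    hw.prodMk (w1.prodMk w2)
  have hcw : ContinuousOn (fun q : ℝ × Cm n => op (a q) (jet (fun y => w (q.1, y)) q.2))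
      (Icc 0 S ×ˢ U) := hA.continuousOn.clm_apply hj.continuousOn
  have hdt : ∀ t ∈ Icc 0 S, ∀ y ∈ U, HasDerivWithinAt (fun s => w (s, y))
      (op (a (t, y)) (jet (fun x => w (t, x)) y)) (Icc 0 S) t := fun t ht y hy => by
    have e1 : ContDiffOn ℝ ∞ (fun s => w (s, y)) (Icc 0 S) :=
      hw.comp (contDiff_id.prodMk contDiff_const).contDiffOn fun s hs => ⟨hs, hy⟩
    have e2 : EqOn (derivWithin (fun s => w (s, y)) (Icc 0 S))
        (fun t => op (a (t, y)) (jet (fun x => w (t, x)) y)) (Icc 0 S) := by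
      refine EqOn.of_subset_closure (s := Ioo 0 S) (fun s hs => ?_)
        (e1.continuousOn_derivWithin hI (by simp))
        (hcw.comp (continuous_id.prodMk continuous_const).continuousOn fun s hs => ⟨hs, hy⟩)
        Ioo_subset_Icc_self (by rw [closure_Ioo hS.ne])
      have hs' := Ioo_subset_Icc_self hs
      rw [derivWithin_of_mem_nhds (Icc_mem_nhds hs.1 hs.2), (he y hy).2.2 s hs,
        op_apply hq (hd _ ⟨hs', hy⟩), P272.K.N.cHess_eq_lev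
          ((FG.Calc.slice hU w1 hs' hy).differentiableAt (by simp))]
      rfl
    have e3 := (e1.differentiableOn (by simp) t ht).hasDerivWithinAt
    rwa [e2 ht] at e3
  obtain ⟨N, hN⟩ := pb_of hr (w2.mono hsub)
  have h3 := h2 S 1 z (fun t y => op (a (t, y))) (fun t y => w (t, y))
    (fun t y => op (a (t, y)) (jet (fun x => w (t, x)) y)) hS.le zero_le_one
    ⟨fun t ht y hy => ((FG.Calc.slice hU hw ht (hbU hy)).of_le FG.Calc.two_le).contDiffWithinAt,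
      hj.continuousOn.mono (prod_mono Subset.rfl hbU), fun t ht y hy => hdt t ht y (hbU hy)⟩
    (fun y hy => (he y (hbU hy)).1) hK (fun t ht y hy => hE (t, y) ⟨ht, ball_subset_closedBall hy⟩)
    (fun t ht s hs hts y hy => by
      rw [← dist_eq_norm]
      refine hτ' (t, y) ⟨ht, ball_subset_closedBall hy⟩ (s, y) ⟨hs, ball_subset_closedBall hy⟩ ?_
      rwa [Prod.dist_eq, dist_self, max_eq_left dist_nonneg])
    ⟨by simpa using continuousOn_const, fun t _ y _ => by simp, fun t _ x _ y _ => by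
      simpa using Real.rpow_nonneg (norm_nonneg _) _⟩
    (fun t ht y hy => (he y (hbU hy)).2.1 t ht) ⟨N, hN.hol⟩
  intro t ht t' ht' y hy y' hy'
  have hy1 : y ∈ ball z r := ball_subset_ball (by linarith) hy
  have b1 : |w (t, y) - w (t', y)| ≤ K * C * |t - t'| := by
    refine (convex_Icc 0 S).norm_image_sub_le_of_norm_hasDerivWithin_le
      (fun s hs => hdt s hs y (hbU hy1)) (fun s hs => ?_) ht' ht
    refine ((op _).le_opNorm _).trans (mul_le_mul (hK.sup s hs y hy1) ?_ (norm_nonneg _) hK0)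
    simpa using h3.sup s hs y hy
  have b2 : |w (t', y) - w (t', y')| ≤ C * ‖y - y'‖ ^ (1 / 2 : ℝ) := by
    have := (norm_fst_le _).trans (h3.hol t' ht' y hy y' hy')
    rwa [mul_one] at this
  have b3 := abs_sub_le (w (t, y)) (w (t', y)) (w (t', y'))
  have b4 : 0 ≤ ‖y - y'‖ ^ (1 / 2 : ℝ) := Real.rpow_nonneg (norm_nonneg _) _
  nlinarith [mul_nonneg hC (abs_nonneg (t - t')), mul_nonneg (mul_nonneg hK0 hC) b4]

end Intf

variable {M : Type} [MetricSpace M] [ChartedSpace (Cm n) M]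
  [RiemannianBundle (fun x : M => TangentSpace 𝓘(ℝ, Cm n) x)] {F : Flow n M}

theorem linf (hF : F.Is) (h1 : F.Bas1) (h : FP.LINX n M) : LINF F := by
  intro T σ w₀ c f hT hσ _ hc hw hc' hf
  obtain ⟨w, B, h2, h3⟩ := h σ w₀ T F.g c f hσ
    (hc.of_isClosed_subset isClosed_closure (closure_mono fun x (hx : 0 < σ x) => hx.ne')) hT
    ⟨fun e he j k => (h1.g_sm e he j k).mono (prod_mono Icc_subset_Ici_self Subset.rfl),
      fun t ht => hF.pos t ht.1, fun t ht => h1.g_ch t ht.1⟩ hc' hf hw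
  exact ⟨w, B, h2, fun x hx => ⟨(h3 x hx).1, fun t ht => ((h3 x hx).2 t ht).1, fun t ht =>
    (((h3 x hx).2 t (Ioo_subset_Icc_self ht)).2.hasDerivAt (Icc_mem_nhds ht.1 ht.2)).deriv⟩⟩

theorem intf [ProperSpace M] (a : B1a n M) (hF : F.Is) (h1 : F.Bas1) (hq : FP.MAQ n)
    (hi : FP.INT1 (Cm n)) : INTF F := by
  intro S hS ρ₀ ε hε
  have key : ∀ x₀ : closedBall F.o ρ₀, ∃ V : Set M, IsOpen V ∧ x₀.1 ∈ V ∧ ∃ δ > (0 : ℝ),
      ∀ w : ℝ → M → ℝ, SmT n (Icc 0 S) w → (∀ x, F.r x ≤ ρ₀ + 1 → w 0 x = 0 ∧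
        (∀ t ∈ Icc 0 S, |w t x| ≤ 1) ∧ ∀ t ∈ Ioo 0 S, dt w t x = F.lap t (w t) x) →
      ∀ t ∈ Icc 0 S, ∀ t' ∈ Icc 0 S, ∀ x ∈ V, ∀ x' ∈ V, |t - t'| ≤ δ → |w t x - w t' x'| ≤ ε := by
    rintro ⟨x₀, hx₀⟩
    obtain ⟨e, he'⟩ : ∃ e, e = pc n x₀ := ⟨_, rfl⟩
    have he : Hc e := he' ▸ a.chart x₀
    have hx : x₀ ∈ e.source := he' ▸ mem_chart_source _ x₀
    have hU : IsOpen (e.target ∩ e.symm ⁻¹' ball F.o (ρ₀ + 1)) :=
      e.isOpen_inter_preimage_symm isOpen_ball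
    have hz : e x₀ ∈ e.target ∩ e.symm ⁻¹' ball F.o (ρ₀ + 1) :=
      ⟨e.map_source hx, by
        rw [mem_preimage, e.left_inv hx]; exact closedBall_subset_ball (by linarith) hx₀⟩
    obtain ⟨r₁, hr₁, hr₁'⟩ := nhds_basis_closedBall.mem_iff.1 (hU.mem_nhds hz)
    obtain ⟨C, hC, hw⟩ := Intf.flat hq hi (a := fun q j k => F.g q.1 e q.2 j k) hS
      (lt_min hr₁ one_half_pos) (min_le_right _ _) hU
      ((closedBall_subset_closedBall (min_le_left _ _)).trans hr₁')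
      (contDiffOn_pi.2 fun j => contDiffOn_pi.2 fun k => (h1.g_sm e he j k).mono
        (prod_mono Icc_subset_Ici_self inter_subset_left))
      fun q hq' => hF.pos q.1 hq'.1.1 e he q.2 hq'.2.1
    obtain ⟨δ, hδ, hδ'⟩ : ∃ δ > (0 : ℝ), C * (δ + δ) ≤ ε := ⟨ε / (2 * C + 2), by positivity, by
      rw [← two_mul, ← mul_assoc, ← mul_div_assoc, div_le_iff₀ (by positivity)]; nlinarith⟩
    refine ⟨e.source ∩ e ⁻¹' ball (e x₀) (min (min r₁ (1 / 2) / 2) (δ ^ 2 / 2)),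
      e.isOpen_inter_preimage isOpen_ball, ⟨hx, mem_ball_self (by positivity)⟩, δ, hδ,
      fun w hw1 hw2 t ht t' ht' x hx1 x' hx2 htt => ?_⟩
    have h2 := hw (ch e w) ((hw1 e he).mono (prod_mono Subset.rfl inter_subset_left))
      (fun y hy => ⟨(hw2 _ (le_of_lt hy.2)).1, (hw2 _ (le_of_lt hy.2)).2.1, fun s hs =>
        ((hw2 _ (le_of_lt hy.2)).2.2 s hs).trans (h1.lap_eq s hs.1.le (w s) e he y hy.1
          ((FG.Calc.slice e.open_target (hw1 e he) (Ioo_subset_Icc_self hs) hy.1).of_le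
            FG.Calc.two_le))⟩) t ht t' ht' (e x) (ball_subset_ball (min_le_left _ _) hx1.2) (e x')
      (ball_subset_ball (min_le_left _ _) hx2.2)
    simp only [ch, e.left_inv hx1.1, e.left_inv hx2.1] at h2
    have h3 : ‖e x - e x'‖ ^ (1 / 2 : ℝ) ≤ δ := by
      rw [← Real.sqrt_eq_rpow, Real.sqrt_le_left hδ.le, ← dist_eq_norm]
      linarith [dist_triangle_right (e x) (e x') (e x₀), mem_ball.1 (ball_subset_ball
        (min_le_right _ _) hx1.2), mem_ball.1 (ball_subset_ball (min_le_right _ _) hx2.2)]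
    exact h2.trans ((mul_le_mul_of_nonneg_left (add_le_add htt h3) hC).trans hδ')
  choose V hV hxV δ hδ hw using key
  obtain ⟨s, hs⟩ := (isCompact_closedBall F.o ρ₀).elim_finite_subcover V hV fun x hx =>
    mem_iUnion.2 ⟨⟨x, hx⟩, hxV _⟩
  obtain ⟨η, hη, hη'⟩ := lebesgue_number_lemma_of_metric (c := fun i : s => V i)
    (isCompact_closedBall F.o ρ₀) (fun i => hV i) fun x hx => by simpa using hs hx
  obtain ⟨δ₀, h0, hδ₀⟩ : ∃ δ₀ > (0 : ℝ), ∀ i ∈ s, δ₀ ≤ δ i := by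
    rcases s.eq_empty_or_nonempty with rfl | hne
    · exact ⟨1, one_pos, by simp⟩
    · obtain ⟨i, -, hi'⟩ := s.exists_min_image δ hne
      exact ⟨δ i, hδ i, hi'⟩
  refine ⟨min (η / 2) δ₀, by positivity, fun w hw1 hw2 t ht t' ht' x x' hx htt hxx => ?_⟩
  obtain ⟨i, hi'⟩ := hη' x hx
  refine hw i w hw1 hw2 t ht t' ht' x (hi' (mem_ball_self hη)) x' (hi' ?_)
    (htt.trans ((min_le_right _ _).trans (hδ₀ i i.2)))
  rw [mem_ball']
  linarith [min_le_left (η / 2) δ₀]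

end Vale.Agent.P253W.HK
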