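import Vale.Agent.P253W.HK.Ug

/-!
# P253W, block HK, row KL: the logarithm has bounded oscillation
-/

open scoped ENNReal Topology
open MeasureTheory Set Metric Filter

noncomputable section

namespace Vale.Agent.P253W.HK

variable {X : Type} [MetricSpace X] [ProperSpace X] [MeasurableSpace X] [BorelSpace X]
  {μ : Measure X} {m : ℕ}

/-- the Poincaré inequality with the mean value -/
theorem Sp.var (h : Sp μ m) : ∃ C ≥ (1 : ℝ), ∀ v G, Ug v G → ∀ x s, 0 < s → ∃ c,
    ∫ y in ball x s, (v y - c) ^ 2 ∂μ ≤ C * s ^ 2 * ∫ w in ball x (3 * s), G w ^ 2 ∂μ := by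
  obtain ⟨P, hP, poi⟩ := h.poi
  refine ⟨P, hP, fun v G hu x s hs => ?_⟩
  have hV := h.pos x s hs
  have cv := hu.1
  have io : ∀ {f : X → ℝ}, Continuous f → IntegrableOn f (ball x s) μ := fun hf =>
    h.intOn hf Subset.rfl
  have e : ∀ a, ∫ z in ball x s, (a - v z) ^ 2 ∂μ = μ.real (ball x s) * a ^ 2 -
      2 * a * ∫ z in ball x s, v z ∂μ + ∫ z in ball x s, v z ^ 2 ∂μ := fun a => by
    simp only [sub_sq]
    rw [integral_add (io (by fun_prop)) (io (by fun_prop)),
      integral_sub (io (by fun_prop)) (io (by fun_prop)), setIntegral_const,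
      integral_const_mul, smul_eq_mul]
  obtain ⟨c, hc⟩ : ∃ c, ∫ z in ball x s, v z ∂μ = μ.real (ball x s) * c :=
    ⟨_, (mul_div_cancel₀ _ hV.ne').symm⟩
  have h0 := e c
  have h1 : 0 ≤ ∫ z in ball x s, (c - v z) ^ 2 ∂μ := integral_nonneg fun _ => sq_nonneg _
  refine ⟨c, le_of_mul_le_mul_left (le_trans ?_ ((poi v G hu x s hs).trans_eq (by ring))) hV⟩
  rw [← integral_const_mul]
  refine setIntegral_mono (io (by fun_prop)) (io (by simp only [e]; fun_prop)) fun y => ?_
  simp only [e]
  rw [hc] at h0 ⊢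
  nlinarith

theorem kl (h : Sp μ m) (hd : DG μ) : KL μ := by
  obtain ⟨B, hB, bg⟩ := h.dbl
  obtain ⟨P, hP, var⟩ := h.var
  obtain ⟨D, hD, dg⟩ := hd
  obtain ⟨A, hA⟩ : ∃ A, A = 36 * P * (B * 10 ^ m) := ⟨_, rfl⟩
  have A0 : 0 ≤ A := by rw [hA]; positivity
  have A1 : 0 ≤ D * √A := by positivity
  refine ⟨1 + D * √A + A, by linarith, fun l G U ⟨hu, hc, hl⟩ y s hs hU => ?_⟩
  obtain ⟨c, h1⟩ := var l G hu y (3 * s) (by positivity)
  have cl := hu.1
  have h2 := hl y (3 * (3 * s)) (10 * s) 0 (by positivity) (by linarith) le_rfl one_pos hU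
  simp only [neg_zero, zero_mul, Real.exp_zero, one_mul, setIntegral_const, smul_eq_mul, mul_one,
    sub_zero, one_pow, show 10 * s - 3 * (3 * s) = s by ring] at h2
  have h3 : ∀ z r, s ≤ r → dist y z + 10 * s ≤ 10 * r →
      ∫ w in ball y (3 * s), (l w - c) ^ 2 ∂μ ≤ A * μ.real (ball z r) := fun z r hr hz => by
    have r0 := hs.trans_le hr
    have := bg y z r (10 * s) (10 * r) r0 (by linarith) hz
    rw [mul_div_cancel_right₀ _ r0.ne'] at this
    calc _ ≤ P * (3 * s) ^ 2 * (4 / s ^ 2 * (B * 10 ^ m * μ.real (ball z r))) :=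
          h1.trans (mul_le_mul_of_nonneg_left (h2.trans (mul_le_mul_of_nonneg_left this
            (by positivity))) (by positivity))
      _ = _ := by rw [hA]; field_simp; ring
  refine ⟨c, fun z hz => ?_, fun K hK => ?_⟩
  · have h4 : dist z y < s := hz
    have h5 : ball z (2 * s) ⊆ ball y (3 * s) := ball_subset_ball' (by linarith)
    have := dg _ G 0 U le_rfl (hu.sub_const c) (hc.sub_const c) z s √A hs (Real.sqrt_nonneg _)
      ((closedBall_subset_closedBall' (by linarith)).trans hU) (by
        rw [Real.sq_sqrt A0]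
        refine le_trans ?_ (h3 z _ (by linarith) (by linarith [dist_comm y z]))
        refine (setIntegral_mono (h.intOn (by fun_prop) h5) (h.intOn (by fun_prop) h5)
          fun w => ?_).trans (setIntegral_mono_set (h.intOn (by fun_prop) Subset.rfl)
            (ae_of_all _ fun _ => sq_nonneg _) h5.eventuallyLE)
        show max (l w - c) 0 ^ 2 ≤ (l w - c) ^ 2
        rcases le_total (l w - c) 0 with h6 | h6
        · rw [max_eq_right h6, zero_pow two_ne_zero]
          exact sq_nonneg _
        · rw [max_eq_left h6])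
    simp only [zero_mul, add_zero] at this
    linarith
  · have := (h.cheb (f := fun w => (l w - c) ^ 2) (A := ball y s ∩ {z | l z < c - K}) (by fun_prop)
      (fun _ => sq_nonneg _) (a := K ^ 2)
      (measurableSet_ball.inter (isOpen_lt cl continuous_const).measurableSet)
      (inter_subset_left.trans (ball_subset_ball (by linarith))) fun w hw => by
        have : l w < c - K := hw.2
        nlinarith).trans (h3 y s le_rfl (by rw [dist_self, zero_add]))
    nlinarith [h.pos y s hs]

end Vale.Agent.P253W.HK
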