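import Vale.Agent.P253W.HK.Defs

/-!
# P253W, block HK: the weight and the `L¹` argument
-/

open scoped Manifold ContDiff Bundle Topology ComplexOrder
open Bundle MeasureTheory Set Metric Filter Vale.Agent.P253Z
open Vale.Agent.P272.K (Cm Chart cHess dz dzb)

noncomputable section

namespace Vale.Agent.P253W.HK

theorem dyadic {X : Type} [MetricSpace X] [ProperSpace X] [MeasurableSpace X] [BorelSpace X]
    {μ : Measure X} [IsFiniteMeasureOnCompacts μ] (o : X) {f : X → ℝ} (hf : Continuous f)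
    (h0 : ∀ x, 0 ≤ f x) {C : ℝ} {k : ℕ} (h : ∀ R, 1 ≤ R → ∫ x in ball o R, f x ∂μ ≤ C * R ^ k) :
    Integrable (fun x => f x / (1 + dist x o) ^ (k + 2)) μ := by
  have hc : Continuous fun x => f x / (1 + dist x o) ^ (k + 2) :=
    hf.div (by fun_prop) fun x => by positivity
  have hi : ∀ {g : X → ℝ}, Continuous g → ∀ R, IntegrableOn g (ball o R) μ := fun hg R =>
    (hg.continuousOn.integrableOn_compact (isCompact_closedBall o R)).mono_set
      ball_subset_closedBall
  have hm : ∀ j : ℕ, MeasurableSet (ball o (2 ^ (j + 1)) ∩ {x | (2 : ℝ) ^ j ≤ 1 + dist x o}) :=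
    fun j => measurableSet_ball.inter (isClosed_le continuous_const (by fun_prop)).measurableSet
  rw [← integrableOn_univ, show (univ : Set X) =
    ⋃ j : ℕ, ball o (2 ^ (j + 1)) ∩ {x | (2 : ℝ) ^ j ≤ 1 + dist x o} from ?_]
  · refine integrableOn_iUnion_of_summable_integral_norm
      (fun j => (hi hc _).mono_set inter_subset_left) (Summable.of_nonneg_of_le
        (fun j => integral_nonneg fun _ => norm_nonneg _) (fun j => ?_)
        ((summable_geometric_of_lt_one (r := 1 / 4) (by norm_num) (by norm_num)).mul_left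
          (C * 2 ^ k)))
    calc _ ≤ ∫ x in ball o (2 ^ (j + 1)) ∩ {x | (2 : ℝ) ^ j ≤ 1 + dist x o},
          f x / (2 ^ j) ^ (k + 2) ∂μ := by
          refine setIntegral_mono_on ((hi hc.norm _).mono_set inter_subset_left)
            ((hi (hf.div_const _) _).mono_set inter_subset_left) (hm j) fun x hx => ?_
          have := h0 x
          rw [Real.norm_of_nonneg (by positivity)]
          gcongr
          exact hx.2
      _ ≤ ∫ x in ball o (2 ^ (j + 1)), f x / (2 ^ j) ^ (k + 2) ∂μ :=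
          setIntegral_mono_set (hi (hf.div_const _) _) (Eventually.of_forall fun x => by
            have := h0 x
            positivity) inter_subset_left.eventuallyLE
      _ ≤ C * (2 ^ (j + 1)) ^ k / (2 ^ j) ^ (k + 2) := by
          rw [integral_div]
          gcongr
          exact h _ (one_le_pow₀ one_le_two)
      _ = _ := by
          rw [show (1 / 4 : ℝ) = (2 ^ 2)⁻¹ by norm_num, inv_pow, pow_right_comm 2 2 j]
          field_simp
          ring
  · refine (eq_univ_of_forall fun x => ?_).symm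
    obtain ⟨j, a, b⟩ := exists_nat_pow_near (show 1 ≤ 1 + dist x o by simp) one_lt_two
    exact mem_iUnion.2 ⟨j, by rw [mem_ball]; linarith, a⟩

theorem cHess_csub {n : ℕ} (K : ℝ) (f : Cm n → ℝ) (z : Cm n) :
    cHess (fun y => K - f y) z = -cHess f z := by
  ext j k
  have e : (dzb k fun y => ((K - f y : ℝ) : ℂ)) = fun y => -dzb k (fun y => (f y : ℂ)) y := by
    funext y
    simp only [dzb, Complex.ofReal_sub, fderiv_const_sub, neg_apply]
    ring
  simp only [cHess, Matrix.of_apply, Matrix.neg_apply, e, dz, fderiv_fun_neg,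
    neg_apply]
  ring

variable {n : ℕ} {M : Type} [MetricSpace M] [ChartedSpace (Cm n) M]
  [RiemannianBundle (fun x : M => TangentSpace 𝓘(ℝ, Cm n) x)] [ProperSpace M]
  [MeasurableSpace M] [BorelSpace M] {μ : Measure M} {F : Flow n M}

theorem wte (hI : F.Is) (hB : F.Bas1) (hC : Cal F) (h3 : ∀ K, IsCompact K → μ K < ⊤)
    (hW : WHM n μ) (hG : BG n μ) : WTE F μ := by
  have : IsFiniteMeasureOnCompacts μ := ⟨fun K hK => h3 K hK⟩
  obtain ⟨C, c1, hW⟩ := hW
  obtain ⟨D, d1, hG⟩ := hG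
  obtain ⟨a, ha⟩ := hI.up
  have hu : Continuous (F.u 0) := by
    rw [← continuousOn_univ]
    exact (hB.sm_cont _ hB.u_sm).comp (f := fun x => ((0 : ℝ), x)) (by fun_prop)
      fun x _ => ⟨self_mem_Ici, trivial⟩
  have hs0 := hB.sm_at _ hB.u_sm 0 le_rfl
  have hc : Continuous (maj F) := by unfold maj Flow.r; fun_prop
  have a0 := abs_nonneg a
  have u0 := abs_nonneg (F.u 0 F.o)
  refine ⟨n + 2, ?_⟩
  have := dyadic (μ := μ) F.o hc (fun x => by unfold maj; positivity) (k := 2 * n + 2)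
    (C := (4 + (2 * |a| * C + 1) + C * (2 * |a| * C + 1 + |F.u 0 F.o|))
      * (D * μ.real (ball F.o 1))) fun R hR => ?_
  · exact this
  obtain ⟨K, hK⟩ : ∃ K, K = 2 * |a| * C * R + 1 := ⟨_, rfl⟩
  have hCR : 1 ≤ C * R := one_le_mul_of_one_le_of_one_le c1 hR
  have k0 : ∀ y ∈ closedBall F.o (C * R), 0 < K - F.u 0 y := fun y hy => by
    have h1 : F.r y ≤ C * R := hy
    have h2 : 0 ≤ F.r y := dist_nonneg
    have h3 : a * (1 + F.r y) ≤ |a| * (2 * (C * R)) := by gcongr; exacts [le_abs_self a, by linarith]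
    linarith [ha y]
  have k1 := hW (fun y => K - F.u 0 y) F.o R
    (fun e he z hz => contDiffAt_const.sub (hs0 e he z hz)) (by linarith)
    (fun y hy => ⟨k0 y hy, by simpa [Up, Lo, hs, cHess_csub] using hC.u0 y⟩) F.o
    (mem_ball_self (by linarith))
  have hi : ∀ {g : M → ℝ}, Continuous g → IntegrableOn g (ball F.o R) μ := fun hg =>
    (hg.continuousOn.integrableOn_compact (isCompact_closedBall _ R)).mono_set
      ball_subset_closedBall
  have k2 : ∫ x in ball F.o R, maj F x ∂μ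
      ≤ ∫ x in ball F.o R, (4 * R ^ 2 + K) + (K - F.u 0 x) ∂μ := by
    refine setIntegral_mono_on (hi hc) (hi (by fun_prop)) measurableSet_ball fun x hx => ?_
    have h1 : F.r x < R := hx
    have h2 : 0 ≤ F.r x := dist_nonneg
    have h3 := k0 x (show F.r x ≤ C * R by nlinarith)
    have h4 : 0 ≤ K := by rw [hK]; positivity
    have h5 : |F.u 0 x| ≤ K + (K - F.u 0 x) := abs_le.2 ⟨by linarith, by linarith⟩
    rw [maj]
    nlinarith
  rw [integral_add (hi continuous_const) (hi (by fun_prop)), setIntegral_const, smul_eq_mul] at k2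
  have k3 := hG F.o 1 R one_pos hR
  have k4 : 0 ≤ μ.real (ball F.o R) := measureReal_nonneg
  have k5 : K ≤ (2 * |a| * C + 1) * R ^ 2 := by
    have : 0 ≤ 2 * |a| * C := by positivity
    rw [hK]; nlinarith [mul_le_mul_of_nonneg_left (show R ≤ R ^ 2 by nlinarith) this]
  have k6 : K - F.u 0 F.o ≤ (2 * |a| * C + 1 + |F.u 0 F.o|) * R ^ 2 := by
    nlinarith [neg_abs_le (F.u 0 F.o), mul_le_mul_of_nonneg_left
      (show 1 ≤ R ^ 2 by nlinarith) u0]
  calc _ ≤ (4 * R ^ 2 + K + C * (K - F.u 0 F.o)) * μ.real (ball F.o R) := by linarith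
    _ ≤ (4 * R ^ 2 + (2 * |a| * C + 1) * R ^ 2 + C * ((2 * |a| * C + 1 + |F.u 0 F.o|) * R ^ 2))
        * (D * (R / 1) ^ (2 * n) * μ.real (ball F.o 1)) := by gcongr
    _ = _ := by ring

theorem l1 (hB : F.Bas1) (h3 : ∀ K, IsCompact K → μ K < ⊤) (hW : WTE F μ) (hN : CLN F μ)
    (hQ : QL F μ) (hU : UPB F) : F.L1 μ := by
  have : IsFiniteMeasureOnCompacts μ := ⟨fun K hK => h3 K hK⟩
  intro S v hv h1 h2
  rcases le_or_gt S 0 with hS | hS
  · exact Eventually.of_forall fun q hq => absurd (hq.1.trans hq.2) (not_lt.2 hS)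
  obtain ⟨N, hW⟩ := hW
  obtain ⟨A₁, a1⟩ := hN N hW S
  obtain ⟨A₂, a0, a2⟩ := hU S
  have hu := hB.sm_cont _ hB.u_sm
  have hut : ∀ t, 0 ≤ t → Continuous (F.u t) := fun t ht => by
    rw [← continuousOn_univ]
    exact hu.comp (f := fun x => (t, x)) (by fun_prop) fun x _ => ⟨ht, trivial⟩
  have hD : Measurable (Function.uncurry fun t x => Real.exp (v t x) - 1) :=
    (Real.measurable_exp.comp hv).sub_const 1
  have d0 : ∀ t ∈ Ioo 0 S, ∀ x, 0 ≤ (Real.exp (v t x) - 1) * vol F t x ∧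
      (Real.exp (v t x) - 1) * vol F t x ≤ 1 - vol F t x := fun t ht x => by
    refine ⟨mul_nonneg (sub_nonneg.2 (Real.one_le_exp (h1 t ht x).1)) (Real.exp_pos _).le, ?_⟩
    rw [sub_mul, one_mul, vol, ← Real.exp_add]
    exact sub_le_sub_right (Real.exp_le_one_iff.2 (by linarith [(h1 t ht x).2])) _
  have key : ∀ k : ℕ, ∀ᵐ q : ℝ × M ∂(volume.prod μ), q ∈ Ioo 0 S ×ˢ closedBall F.o k →
      (Real.exp (v q.1 q.2) - 1) * vol F q.1 q.2 = 0 := fun k => by
    have hm : MeasurableSet (Ioo 0 S ×ˢ closedBall F.o k) :=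
      measurableSet_Ioo.prod measurableSet_closedBall
    have n0 : 0 ≤ᵐ[(volume.prod μ).restrict (Ioo 0 S ×ˢ closedBall F.o k)]
        fun q : ℝ × M => (Real.exp (v q.1 q.2) - 1) * vol F q.1 q.2 :=
      (ae_restrict_iff' hm).2 (Eventually.of_forall fun q hq => (d0 _ hq.1 _).1)
    have c0 : ContinuousOn (fun q : ℝ × M => vol F q.1 q.2) (Ioo 0 S ×ˢ closedBall F.o k) :=
      (((hut 0 le_rfl).comp continuous_snd).continuousOn.sub
        (hu.mono (prod_mono (fun _ h => h.1.le) (subset_univ _)))).rexp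
    have i0 : IntegrableOn (fun q : ℝ × M => (Real.exp (v q.1 q.2) - 1) * vol F q.1 q.2)
        (Ioo 0 S ×ˢ closedBall F.o k) (volume.prod μ) := by
      refine IntegrableOn.of_bound ?_ (hD.aestronglyMeasurable.mul (c0.aestronglyMeasurable hm)) 1
        ((ae_restrict_iff' hm).2 (Eventually.of_forall fun q hq => ?_))
      · rw [Measure.prod_prod]
        exact ENNReal.mul_lt_top (by simp) (h3 _ (isCompact_closedBall _ _))
      · rw [Real.norm_of_nonneg (d0 _ hq.1 _).1]
        exact (d0 _ hq.1 _).2.trans (sub_le_self _ (Real.exp_pos _).le)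
    refine (ae_restrict_iff' hm).1 ((setIntegral_eq_zero_iff_of_nonneg_ae n0 i0).1
      (le_antisymm (le_of_forall_pos_le_add fun ε hε => ?_) (integral_nonneg_of_ae n0)))
    obtain ⟨ρ, hρ⟩ := hQ N hW S hS k (max A₁ A₂) ε hε
    obtain ⟨b, hb⟩ := ((isCompact_Icc (a := 0) (b := S)).prod (isCompact_closedBall F.o ρ)
      ).exists_bound_of_continuousOn (hu.mono (prod_mono (fun _ h => h.1) (subset_univ _)))
    rw [zero_add]
    refine hρ _ v (Real.exp (2 * b)) hD hv (fun t ht x hx => ⟨(h1 t ht x).1,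
      by linarith [Real.add_one_le_exp (v t x)], ?_, ?_⟩) (fun t ht => ?_)
      fun χ a b hχ c1 c2 c3 c4 => h2 χ a b _ hχ c1 c2 c3 (isCompact_closedBall F.o ρ) c4
    · have e1 := a2 t ⟨ht.1.le, ht.2.le⟩ x
      have e2 : 1 * |F.u 0 x| ≤ max A₁ A₂ * |F.u 0 x| := by gcongr; exact le_max_of_le_right a0
      have e3 : A₂ * (1 + F.r x) ^ 2 ≤ max A₁ A₂ * (1 + F.r x) ^ 2 := by gcongr; exact le_max_right _ _
      rw [maj]
      linarith [(h1 t ht x).2, neg_abs_le (F.u 0 x)]
    · have e1 : |F.u t x| ≤ b := hb (t, x) ⟨⟨ht.1.le, ht.2.le⟩, hx⟩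
      have e2 : |F.u 0 x| ≤ b := hb (0, x) ⟨⟨le_rfl, hS.le⟩, hx⟩
      have e3 : Real.exp (v t x) ≤ Real.exp (2 * b) := Real.exp_le_exp.2
        (by linarith [(h1 t ht x).2, (abs_le.1 e1).2, (abs_le.1 e2).1])
      linarith
    · have hr : ∀ x, 0 < (1 + F.r x) ^ (2 * N) := fun x => by unfold Flow.r; positivity
      refine (integral_mono_of_nonneg (Eventually.of_forall fun x => div_nonneg (d0 t ht x).1
        (hr x).le) (ContinuousOn.integrableOn_compact (isCompact_closedBall _ _)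
          (Continuous.continuousOn ((continuous_const.sub ((hut 0 le_rfl).sub
            (hut t ht.1.le)).rexp).div (by unfold Flow.r; fun_prop) fun x => (hr x).ne')))
        (Eventually.of_forall fun x => div_le_div_of_nonneg_right (d0 t ht x).2 (hr x).le)).trans
        ((a1 ρ t ⟨ht.1.le, ht.2.le⟩).trans ?_)
      exact mul_le_mul_of_nonneg_right (le_max_left _ _) ht.1.le
  filter_upwards [ae_all_iff.2 key] with q hq ht
  obtain ⟨k, hk⟩ := exists_nat_ge (dist q.2 F.o)
  have := (mul_eq_zero.1 (hq k ⟨ht, hk⟩)).resolve_right (Real.exp_pos _).ne'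
  exact (Real.exp_eq_one_iff _).1 (by linarith)

end Vale.Agent.P253W.HK
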