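import Vale.Agent.P253W.HK.Defs

/-!
# P253W, block HK, row LOW: the lower bound for the potential and the upper bound for `u_t`
-/

set_option linter.unusedSectionVars false

open scoped Manifold ContDiff Bundle ENNReal Topology ComplexOrder
open Bundle MeasureTheory Set Metric Filter Vale.Agent.P253Z
open Vale.Agent.P272.K (Cm Chart)

noncomputable section

namespace Vale.Agent.P253W.HK

variable {n : ℕ} {M : Type} [MetricSpace M] [ChartedSpace (Cm n) M]
  [RiemannianBundle (fun x : M => TangentSpace 𝓘(ℝ, Cm n) x)] {F : Flow n M}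

namespace Lowa

theorem hs_sub {f : M → ℝ} {x : M} (h : C2 n f x) (c : ℝ) :
    hs (fun y => c - f y) (pc n x) (pc n x x) = -hs f (pc n x) (pc n x x) := by
  have := Vale.Agent.P272.K.cHess_sub (f := fun _ => c) contDiffAt_const h
  rw [Vale.Agent.P272.K.cHess_const, zero_sub] at this
  exact this

theorem up_sub {f : M → ℝ} {x : M} (h : C2 n f x) (c : ℝ) {a : ℝ} (hl : Lo n f a x) :
    Up n (fun y => c - f y) a x := by
  unfold Up
  rw [hs_sub h, sub_neg_eq_add, add_comm]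
  exact hl

theorem lo_sub {f : M → ℝ} {x : M} (h : C2 n f x) (c : ℝ) {a : ℝ} (hl : Up n f a x) :
    Lo n (fun y => c - f y) a x := by
  unfold Lo
  rw [hs_sub h, neg_add_eq_sub]
  exact hl

theorem psi_cont (hF : F.Is) (h1 : F.Bas1) {t : ℝ} (ht : 0 ≤ t) : Continuous (F.ψ t) :=
  (h1.sm_cont _ hF.sm).comp_continuous (f := fun x => (t, x)) (by fun_prop)
    fun x => ⟨ht, mem_univ x⟩

theorem psi_cont' (hF : F.Is) (h1 : F.Bas1) (x : M) : ContinuousOn (fun t => F.ψ t x) (Ici 0) :=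
  (h1.sm_cont _ hF.sm).comp (f := fun t => (t, x)) (by fun_prop) fun t ht => ⟨ht, mem_univ x⟩

/-- the upper bound for the potential on a time interval -/
theorem psi_bd (h2 : F.Bas2) (S : ℝ) : ∃ C : ℝ, 0 ≤ C ∧ ∀ t ∈ Icc 0 S, ∀ x,
    F.ψ t x ≤ C * (1 + F.r x) := by
  obtain ⟨C, hC⟩ := h2.psi_up
  refine ⟨|C| * (1 + |S|) * (1 + |S|), by positivity, fun t ht x => (hC t ht.1 x).trans ?_⟩
  have hr : 0 ≤ F.r x := dist_nonneg
  have hS : t ≤ |S| := ht.2.trans (le_abs_self S)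
  have h0 := ht.1
  calc C * (1 + t) * (1 + t + F.r x) ≤ |C| * (1 + t) * (1 + t + F.r x) := by
        gcongr; exact le_abs_self C
    _ ≤ |C| * (1 + |S|) * ((1 + |S|) * (1 + F.r x)) := by
        gcongr
        nlinarith [mul_nonneg (abs_nonneg S) hr]
    _ = _ := by ring

end Lowa

open Lowa

/-- **UPB** -/
theorem upb (hF : F.Is) (h1 : F.Bas1) (h2 : F.Bas2) (hL : F.LOW) : UPB F := by
  intro S
  obtain ⟨b, -, hb, hL⟩ := hL
  obtain ⟨C, hC⟩ := hL S
  obtain ⟨D, hD0, hD⟩ := psi_bd h2 (S + 1)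
  refine ⟨1 + D + |C|, by linarith [abs_nonneg C], fun t ht x => ?_⟩
  have hr : 1 ≤ 1 + F.r x := le_add_of_nonneg_right dist_nonneg
  obtain ⟨s, hs, he⟩ := exists_hasDerivAt_eq_slope (fun s => F.ψ s x) (fun s => F.u s x)
    (lt_add_one t) ((psi_cont' hF h1 x).mono fun s hs => ht.1.trans hs.1)
    fun s hs => hF.eq s (ht.1.trans_lt hs.1) x
  have hm : F.u t x ≤ F.u s x := hF.mono x ht.1 (ht.1.trans hs.1.le) hs.1.le
  rw [add_sub_cancel_left, div_one] at he
  have e1 := hD (t + 1) ⟨by linarith [ht.1], by linarith [ht.2]⟩ x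
  have e2 := hC t ht x
  have e3 : (1 + F.r x) ^ (2 * b) ≤ (1 + F.r x) ^ 2 := by
    rw [← Real.rpow_natCast]
    exact Real.rpow_le_rpow_of_exponent_le hr (by push_cast; linarith)
  have e4 : C * (1 + F.r x) ^ (2 * b) ≤ |C| * (1 + F.r x) ^ 2 :=
    mul_le_mul (le_abs_self C) e3 (by positivity) (abs_nonneg C)
  have e5 : D * (1 + F.r x) ≤ D * (1 + F.r x) ^ 2 := by
    gcongr; nlinarith
  nlinarith [sq_nonneg (1 + F.r x)]

variable [MeasurableSpace M] [BorelSpace M] {μ : Measure M}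

/-- **WHM** -/
theorem whm (h : WH1 μ) (hb : BRL n μ) : WHM n μ := by
  obtain ⟨C, hC, h⟩ := h
  refine ⟨C, hC, fun g x R hg hR hp y hy => ?_⟩
  obtain ⟨l, G, hl, hL⟩ := hb g x (C * R) hg (fun y hy => (hp y hy).1) fun y hy => (hp y hy).2
  have hsub : ball x R ⊆ closedBall x (C * R) :=
    ball_subset_closedBall.trans (closedBall_subset_closedBall (by nlinarith))
  have e : ∀ z ∈ ball x R, Real.exp (-l z) = g z := fun z hz => by
    rw [hl z (hsub hz), neg_neg, Real.exp_log (hp z (hsub hz)).1]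
  have := h l G _ hL x R hR Subset.rfl y hy
  rwa [setIntegral_congr_fun measurableSet_ball e, e y hy] at this

/-- **MVM** -/
theorem mvm (h : MV1 μ) (hb : BRS n μ) : MVM n μ := by
  obtain ⟨C, hC, h⟩ := h
  have hn : (0 : ℝ) ≤ n := Nat.cast_nonneg n
  refine ⟨C * (1 + 4 * n), by nlinarith, fun u x R N a hu hR hN ha hl hi => ?_⟩
  obtain ⟨G, hG, hc⟩ := hb u hu
  have := h u G _ _ (by positivity) hG (hc N _ hN hl) x R a hR ha Subset.rfl hi
  refine this.trans ?_
  rw [mul_assoc C]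
  gcongr
  nlinarith [mul_nonneg hn ha, mul_nonneg hN (sq_nonneg R)]

variable [ProperSpace M] [IsFiniteMeasureOnCompacts μ]

/-- **LOW** -/
theorem low (hF : F.Is) (h1 : F.Bas1) (h2 : F.Bas2) (hc : Cal F) (hW : WHM n μ) (hM : MVM n μ)
    (hB : BG n μ) : F.LOW := by
  obtain ⟨C₁, hC₁, hW⟩ := hW
  obtain ⟨C₂, hC₂, hM⟩ := hM
  obtain ⟨C₃, hC₃, hB⟩ := hB
  have hn : (0 : ℝ) ≤ n := Nat.cast_nonneg n
  refine ⟨(2 * n + 1) / (2 * n + 2),
    by rw [div_le_div_iff₀ (by positivity) (by positivity)]; linarith,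
    by rw [div_lt_one (by positivity)]; linarith, fun S => ?_⟩
  obtain ⟨D, hD0, hD⟩ := psi_bd h2 S
  set K : ℝ := D * (1 + 2 * C₁) + 1 with hK
  set K' : ℝ := K + |S| * |F.u 0 F.o| with hK'
  have hK0 : 0 < K := by positivity
  have hK'0 : 0 < K' := by positivity
  refine ⟨C₂ * (C₁ * K' * C₃ * 3 ^ (2 * n) + 1), fun t ht x => ?_⟩
  set R : ℝ := 1 + F.r x with hR
  have hr0 : 0 ≤ F.r x := dist_nonneg
  have hR1 : 1 ≤ R := by linarith
  -- the radius
  obtain ⟨q, hq1, hq, hq'⟩ : ∃ q : ℝ, 1 ≤ q ∧ q ^ (2 * n + 2) = R ∧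
      R ^ (2 * ((2 * n + 1 : ℝ) / (2 * n + 2))) = (q ^ (2 * n + 1)) ^ 2 := by
    refine ⟨R ^ ((2 * n + 2 : ℝ)⁻¹), Real.one_le_rpow hR1 (by positivity), ?_, ?_⟩
    · rw [← Real.rpow_natCast, ← Real.rpow_mul (by linarith)]
      push_cast
      rw [inv_mul_cancel₀ (by positivity), Real.rpow_one]
    · rw [← pow_mul, ← Real.rpow_natCast, ← Real.rpow_mul (by linarith)]
      congr 1
      push_cast
      field_simp
  set s : ℝ := q ^ (2 * n + 1) with hs
  have hs1 : 1 ≤ s := one_le_pow₀ hq1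
  have hsq : s * q = R := by rw [← hq, hs]; ring
  have hsR : s ≤ R := by nlinarith
  -- the function
  set g : M → ℝ := fun y => K * R - F.ψ t y with hg
  have hψ : Sm n (F.ψ t) := h1.sm_at _ hF.sm t ht.1
  have gs : Sm n g := fun e he z hz => contDiffAt_const.sub (hψ e he z hz)
  have gc : Continuous g := continuous_const.sub (psi_cont hF h1 ht.1)
  have gp : ∀ y ∈ closedBall F.o (C₁ * (2 * R)), 0 < g y := fun y hy => by
    have e1 := hD t ht y
    have e2 : F.r y ≤ C₁ * (2 * R) := hy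
    have e3 : D * (1 + F.r y) ≤ D * ((1 + 2 * C₁) * R) := by gcongr; nlinarith
    simp only [hg, hK]
    nlinarith
  have w := hW g F.o (2 * R) gs (by linarith)
    (fun y hy => ⟨gp y hy, up_sub (hc.c2 _ hψ y) _ (hc.psi t ht.1 y).1⟩) F.o
    (mem_ball_self (by linarith))
  have go : g F.o ≤ K' * R := by
    have e1 := (h2.psi_le t ht.1 F.o).1
    have e2 : |t * F.u 0 F.o| ≤ |S| * |F.u 0 F.o| := by
      rw [abs_mul]
      exact mul_le_mul_of_nonneg_right (abs_le_abs_of_nonneg ht.1 ht.2) (abs_nonneg _)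
    have e3 := (abs_le.1 e2).1
    have e4 : |S| * |F.u 0 F.o| ≤ |S| * |F.u 0 F.o| * R :=
      le_mul_of_one_le_right (by positivity) hR1
    simp only [hg, hK']
    nlinarith
  have s1 : ball x s ⊆ ball F.o (2 * R) := fun y hy => by
    have : dist y F.o ≤ dist y x + F.r x := dist_triangle _ _ _
    rw [mem_ball] at hy ⊢
    linarith
  have s2 : ball F.o (2 * R) ⊆ ball x (3 * R) := fun y hy => by
    have : dist y x ≤ dist y F.o + F.r x := dist_triangle_right _ _ _
    rw [mem_ball] at hy ⊢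
    linarith
  have s3 : ball F.o (2 * R) ⊆ closedBall F.o (C₁ * (2 * R)) :=
    ball_subset_closedBall.trans (closedBall_subset_closedBall (by nlinarith))
  have i1 : ∫ y in ball x s, max (g y) 0 ∂μ ≤ ∫ y in ball F.o (2 * R), g y ∂μ := by
    rw [setIntegral_congr_fun measurableSet_ball fun y hy => max_eq_left (gp y (s3 (s1 hy))).le]
    refine setIntegral_mono_set ((gc.continuousOn.integrableOn_compact
      (isCompact_closedBall _ _)).mono_set s3) ?_ s1.eventuallyLE
    exact (ae_restrict_iff' measurableSet_ball).2 (.of_forall fun y hy => (gp y (s3 hy)).le)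
  have v1 : μ.real (ball F.o (2 * R)) ≤ C₃ * (3 * q) ^ (2 * n) * μ.real (ball x s) := by
    refine (measureReal_mono s2 measure_ball_lt_top.ne).trans ?_
    have := hB x s (3 * R) (by linarith) (by linarith)
    rwa [show 3 * R / s = 3 * q by rw [← hsq]; field_simp] at this
  have e : R * q ^ (2 * n) = s ^ 2 := by rw [← hq, hs]; ring
  have i2 : ∫ y in ball x s, max (g y) 0 ∂μ ≤
      C₁ * K' * C₃ * 3 ^ (2 * n) * s ^ 2 * μ.real (ball x s) :=
    calc _ ≤ C₁ * g F.o * μ.real (ball F.o (2 * R)) := i1.trans w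
      _ ≤ C₁ * (K' * R) * (C₃ * (3 * q) ^ (2 * n) * μ.real (ball x s)) := by gcongr
      _ = _ := by rw [← e, mul_pow]; ring
  have m := hM g x s 1 _ gs (by linarith) zero_le_one (by positivity)
    (fun y _ => lo_sub (hc.c2 _ hψ y) _ (hc.psi t ht.1 y).2) i2
  rw [hq']
  simp only [hg] at m
  nlinarith [mul_pos hK0 (show 0 < R by linarith)]

end Vale.Agent.P253W.HK
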