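import Vale.Agent.P253W.HK.Defs

/-!
# P253W, block HK: the maximum principle on `{σ > 0}`
-/

open scoped Manifold ContDiff Bundle Topology
open Bundle Set Metric Filter Vale.Agent.P253Z
open Vale.Agent.P272.K (Cm Chart)

noncomputable section

namespace Vale.Agent.P253W.HK

theorem deriv_nonpos_of_min {g : ℝ → ℝ} {g' t : ℝ} (hg : HasDerivAt g g' t) (ht : 0 < t)
    (h : ∀ s ∈ Ioo 0 t, g t ≤ g s) : g' ≤ 0 := by
  refine le_of_tendsto ((hasDerivAt_iff_tendsto_slope.1 hg).mono_left (nhdsLT_le_nhdsNE t)) ?_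
  filter_upwards [Ioo_mem_nhdsLT ht] with s hs
  rw [slope_def_field]
  exact div_nonpos_of_nonneg_of_nonpos (sub_nonneg.2 (h s hs)) (sub_nonpos.2 hs.2.le)

variable {n : ℕ} {M : Type} [MetricSpace M] [ChartedSpace (Cm n) M]

theorem smT_const {σ : M → ℝ} (h : Sm n σ) (I : Set ℝ) : SmT n I fun _ => σ :=
  fun e he q hq => ((h e he _ hq.2).comp q contDiffAt_snd).contDiffWithinAt

variable [RiemannianBundle (fun x : M => TangentSpace 𝓘(ℝ, Cm n) x)] {F : Flow n M}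

theorem mp (hC : Cal F) : MP F := fun S T B σ c v hST hσ h0 hK hv h t₀ ht₀ x₀ hx₀ => by
  have cσ : Continuous σ := continuousOn_univ.1 ((hC.cont univ univ (fun _ => σ) fun e he =>
    (smT_const hσ univ e he).mono fun _ hq => ⟨hq.1, hq.2.1⟩).comp
      (f := fun x => ((0 : ℝ), x)) (by fun_prop) fun _ _ => ⟨trivial, trivial⟩)
  have hD : IsOpen {x | 0 < σ x} := isOpen_lt continuous_const cσ
  obtain ⟨a, ha⟩ := cσ.bounded_above_of_compact_support hK
  obtain ⟨l1, l2⟩ := hC.cont_lap T _ (smT_const hσ _)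
  obtain ⟨C, hb⟩ := (isCompact_Icc.prod hK).exists_bound_of_continuousOn
    ((((cσ.comp continuous_snd).continuousOn.mul l1).sub l2).mono
      (prod_mono (Icc_subset_Ico_right hST) (subset_univ _)))
  have C0 : 0 ≤ C := (norm_nonneg _).trans (hb (t₀, x₀) ⟨ht₀, subset_tsupport _ hx₀.ne'⟩)
  have la (x : M) (hx : 0 < σ x) : Real.log (σ x) ≤ a :=
    (Real.log_le_self hx.le).trans ((le_abs_self _).trans (ha x))
  refine le_of_forall_pos_le_add fun δ hδ => ?_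
  have hA : 0 < a - Real.log (σ x₀) + (C + 1) * t₀ + 1 := by
    nlinarith [la x₀ hx₀, mul_nonneg C0 ht₀.1, ht₀.1]
  obtain ⟨ε, hε, e⟩ : ∃ ε > 0, ε * (a - Real.log (σ x₀) + (C + 1) * t₀ + 1) = δ :=
    ⟨_, div_pos hδ hA, div_mul_cancel₀ _ hA.ne'⟩
  let w : ℝ × M → ℝ := fun q => v q.1 q.2 + ε * (a - Real.log (σ q.2) + (C + 1) * q.1)
  by_contra hn
  have h1 : w (t₀, x₀) < 0 := by simp only [w]; nlinarith
  have h2 (s) (hs : s ∈ Icc 0 S) (y) (hy : 0 < σ y) (hy' : σ y < Real.exp (a - B / ε)) :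
      0 ≤ w (s, y) := by
    have := mul_lt_mul_of_pos_left ((Real.log_lt_iff_lt_exp hy).2 hy') hε
    rw [mul_sub, mul_div_cancel₀ _ hε.ne'] at this
    simp only [w]
    nlinarith [(h y hy).2.1 s hs, mul_nonneg hε.le (mul_nonneg (add_nonneg C0 zero_le_one) hs.1)]
  have hs : Icc 0 S ×ˢ {y | Real.exp (a - B / ε) ≤ σ y} ⊆ Icc 0 T ×ˢ {y | 0 < σ y} :=
    prod_mono (Icc_subset_Icc_right hST.le) fun y hy => (Real.exp_pos _).trans_le hy
  obtain ⟨⟨t, x⟩, hq, hm⟩ := (isCompact_Icc.prod (hK.of_isClosed_subset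
    (isClosed_le continuous_const cσ) fun y hy => subset_tsupport _
      ((Real.exp_pos (a - B / ε)).trans_le hy).ne')).exists_isMinOn (f := w)
    ⟨(t₀, x₀), ht₀, not_lt.1 fun h' => (h2 _ ht₀ _ hx₀ h').not_gt h1⟩
    (((hC.cont _ _ v hv).mono hs).add (continuousOn_const.mul ((continuousOn_const.sub
      ((cσ.comp continuous_snd).continuousOn.log fun q hq => (hs hq).2.ne')).add (by fun_prop))))
  have hx : 0 < σ x := (hs hq).2
  have h3 : w (t, x) < 0 :=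
    (hm (a := (t₀, x₀)) ⟨ht₀, not_lt.1 fun h' => (h2 _ ht₀ _ hx₀ h').not_gt h1⟩).trans_lt h1
  have h4 (s) (hs : s ∈ Icc 0 S) (y) (hy : 0 < σ y) : w (t, x) ≤ w (s, y) :=
    (lt_or_ge (σ y) _).elim (fun h' => h3.le.trans (h2 s hs y hy h')) fun h' => hm ⟨hs, h'⟩
  have h5 : v t x < 0 := by
    simp only [w] at h3
    nlinarith [mul_nonneg hε.le (add_nonneg (sub_nonneg.2 (la x hx))
      (mul_nonneg (add_nonneg C0 zero_le_one) hq.1.1))]
  have ht : 0 < t := hq.1.1.lt_of_ne fun h' => h5.not_ge (h' ▸ (h x hx).1)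
  obtain ⟨c1, c2⟩ := hC.slice _ _ v hD hv t (hs hq).1 x hx
  have d1 := ((c2.contDiffAt (Icc_mem_nhds ht (hq.1.2.trans_lt hST))).differentiableAt
    (by simp)).hasDerivAt
  have h6 := deriv_nonpos_of_min (d1.add (((hasDerivAt_id t).const_mul (C + 1)).const_add
    (a - Real.log (σ x)) |>.const_mul ε)) ht fun s hs => h4 s ⟨hs.1.le, hs.2.le.trans hq.1.2⟩ x hx
  have c3 := hC.c2 σ hσ x
  have c4 : C2 n (fun y => Real.log (σ y)) x :=
    c3.log (by rw [(pc n x).left_inv (mem_chart_source _ x)]; exact hx.ne')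
  have h7 := hC.min t ht.le (fun y => 1 * v t y + -ε * Real.log (σ y)) x
    ((contDiffAt_const (c := (1 : ℝ)).mul c1).add (contDiffAt_const (c := -ε).mul c4)) (by
      filter_upwards [hD.mem_nhds hx] with y hy
      have := h4 t hq.1 y hy
      simp only [w] at this
      linarith)
  rw [hC.lin t _ _ _ _ x c1 c4, hC.comp t Real.log σ x (Real.contDiffAt_log.2 hx.ne') c3,
    Real.deriv_log', deriv_inv] at h7
  have h8 := (abs_le.1 (hb (t, x) ⟨hq.1, subset_tsupport _ hx.ne'⟩)).1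
  obtain ⟨h9, h10⟩ := (h x hx).2.2 t ⟨ht, hq.1.2⟩
  have h11 := mul_nonneg (sq_nonneg (σ x)) h7
  rw [show ∀ a b d : ℝ, σ x ^ 2 * (1 * a + -ε * ((σ x)⁻¹ * b + -(σ x ^ 2)⁻¹ * d)) =
    σ x ^ 2 * a - ε * (σ x * b - d) from fun a b d => by field_simp; ring] at h11
  simp only [Pi.sub_apply, Pi.mul_apply, Function.comp] at h8
  unfold dt at h10
  nlinarith [mul_nonneg h9 (neg_pos.2 h5).le, mul_le_mul_of_nonneg_left h8 hε.le]

end Vale.Agent.P253W.HK
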