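import Vale.Agent.P253W.HK.Ug

/-!
# P253W, block HK: the mean value inequality
-/

open scoped ENNReal Topology
open MeasureTheory Set Metric Filter

noncomputable section

namespace Vale.Agent.P253W.HK

variable {X : Type} [MetricSpace X] [ProperSpace X] [MeasurableSpace X] [BorelSpace X]
  {μ : Measure X} {m : ℕ}

/-- **the mean value inequality** -/
theorem mv1 (h : Sp μ m) (hd : DG μ) : MV1 μ := by
  obtain ⟨C, C1, hd⟩ := hd
  obtain ⟨D, D1, hD⟩ := h.dbl
  have p4 : (1 : ℝ) ≤ 4 ^ m := one_le_pow₀ (by norm_num)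
  have K0 : 0 ≤ C ^ 2 * (2 ^ m * D) := by positivity
  refine ⟨4 ^ m * (C ^ 2 * (2 ^ m * D) + 2 * C), one_le_mul_of_one_le_of_one_le p4 (by linarith),
    fun u G N U N0 hu hc x R a R0 a0 hU ha => ?_⟩
  rcases le_or_gt (u x) 0 with u0 | u0
  · exact u0.trans (by positivity)
  have cu := hu.1
  obtain ⟨y, hy, hm⟩ := (isCompact_closedBall x R).exists_isMaxOn ⟨x, mem_closedBall_self R0.le⟩
    (f := fun y => (R - dist y x) ^ m * max (u y) 0) (by fun_prop)
  have m1 : R ^ m * u x ≤ (R - dist y x) ^ m * max (u y) 0 := by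
    simpa [u0.le] using hm (mem_closedBall_self R0.le)
  have m2 := (mul_pos (pow_pos R0 m) u0).trans_le m1
  obtain ⟨s, hs⟩ : ∃ s, R - dist y x = 4 * s := ⟨(R - dist y x) / 4, by ring⟩
  have s0 : 0 < s := lt_of_le_of_ne (by linarith [mem_closedBall.1 hy]) fun e => by
    rw [hs, ← e, mul_zero, zero_pow (by linarith [h.mpos]), zero_mul] at m2
    exact lt_irrefl _ m2
  have sR : 4 * s ≤ R := by linarith [dist_nonneg (x := y) (y := x)]
  have y0 : 0 < u y := by
    have := pos_of_mul_pos_right m2 (by rw [hs]; positivity)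
    simpa using this
  rw [hs, max_eq_left y0.le] at m1
  have sub : closedBall y (2 * s) ⊆ ball x R := closedBall_subset_ball' (by linarith)
  have sub' := ball_subset_closedBall.trans sub
  have b1 : ∀ z ∈ ball y (2 * s), max (u z) 0 ≤ 2 ^ m * u y := fun z hz => by
    have : (R - dist z x) ^ m * max (u z) 0 ≤ (R - dist y x) ^ m * max (u y) 0 :=
      hm (ball_subset_closedBall (sub' hz))
    rw [hs, max_eq_left y0.le, show 4 * s = 2 * s * 2 by ring, mul_pow, mul_assoc] at this
    refine le_of_mul_le_mul_left (le_trans (mul_le_mul_of_nonneg_right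
      (pow_le_pow_left₀ (by positivity) ?_ m) (le_max_right _ _)) this) (by positivity)
    linarith [dist_triangle z y x, mem_ball.1 hz]
  obtain ⟨ρ, hρ⟩ : ∃ ρ, ρ = (R / s) ^ m := ⟨_, rfl⟩
  have ρ1 : 1 ≤ ρ := hρ ▸ one_le_pow₀ ((one_le_div s0).2 (by linarith))
  have b2 : ∫ z in ball y (2 * s), max (u z) 0 ^ 2 ∂μ ≤
      2 ^ m * u y * (a * (D * ρ * μ.real (ball y (2 * s)))) := by
    refine (setIntegral_mono_on (h.intOn (by fun_prop) Subset.rfl)
      (h.intOn (f := fun z => 2 ^ m * u y * max (u z) 0) (by fun_prop) Subset.rfl)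
      measurableSet_ball fun z hz => ?_).trans ?_
    · rw [sq]
      exact mul_le_mul_of_nonneg_right (b1 z hz) (le_max_right _ _)
    · rw [integral_const_mul]
      refine mul_le_mul_of_nonneg_left (((setIntegral_mono_set (h.intOn (by fun_prop) Subset.rfl)
        (Eventually.of_forall fun z => le_max_right _ _) sub'.eventuallyLE).trans ha).trans
          (mul_le_mul_of_nonneg_left ?_ a0)) (by positivity)
      have := hD x y (2 * s) R (2 * R) (by positivity) (by linarith)
        (by rw [dist_comm]; linarith [mem_closedBall.1 hy])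
      rwa [mul_div_mul_left _ _ two_ne_zero, ← hρ] at this
  have C0 : 0 < C := by linarith
  have b3 := hd u G N U N0 hu hc y s (u y / (2 * C) + C * (2 ^ m * D) * ρ * a / 2) s0
    (by positivity) (sub.trans (ball_subset_closedBall.trans hU)) (b2.trans (by
      rw [← mul_assoc a, ← mul_assoc]
      refine mul_le_mul_of_nonneg_right ?_ measureReal_nonneg
      have e : 2 ^ m * u y * (a * (D * ρ)) =
          4 * (u y / (2 * C)) * (C * (2 ^ m * D) * ρ * a / 2) := by field_simp; ring
      rw [e]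
      nlinarith [sq_nonneg (u y / (2 * C) - C * (2 ^ m * D) * ρ * a / 2)]))
  rw [mul_add, mul_add, show C * (u y / (2 * C)) = u y / 2 by field_simp] at b3
  have b4 : C * (N * s ^ 2) ≤ C * (N * R ^ 2) * ρ :=
    le_trans (by gcongr; linarith) (le_mul_of_one_le_right (by positivity) ρ1)
  have b5 : u x * ρ ≤ 4 ^ m * u y := by
    rw [hρ, div_pow, ← mul_div_assoc, div_le_iff₀ (by positivity)]
    rw [mul_pow] at m1
    linarith
  refine le_of_mul_le_mul_right (b5.trans ?_) (one_pos.trans_le ρ1)
  rw [mul_assoc, mul_assoc]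
  refine mul_le_mul_of_nonneg_left ?_ (by positivity)
  have t1 : 0 ≤ C ^ 2 * (2 ^ m * D) * (N * R ^ 2 * ρ) := by positivity
  have t2 : 0 ≤ C * (a * ρ) := by positivity
  linarith

end Vale.Agent.P253W.HK
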