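import Vale.Agent.P253W.HK.Defs

/-!
# P253W, block HK: the `L¹` estimate
-/

set_option linter.all false

open scoped Manifold ContDiff Bundle ENNReal Topology ComplexOrder
open Bundle MeasureTheory Set Metric Filter Vale.Agent.P253Z
open Vale.Agent.P272.K (Cm Chart)

noncomputable section

namespace Vale.Agent.P253W.HK

namespace Ql

/-- the cutoff in time -/
theorem theta {S C : ℝ} (hS : 0 < S) (hC : 0 ≤ C) : ∃ L e : ℝ, 0 ≤ L ∧ 0 < e ∧ ∀ b > (0 : ℝ),
    ∃ θ : ℝ → ℝ, ContDiff ℝ ∞ θ ∧ (∀ t, 0 ≤ θ t ∧ θ t ≤ S / b) ∧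
      (∀ t, θ t ≠ 0 → t ∈ Icc (b ^ 2) (S - b ^ 2)) ∧ ∀ t ∈ Ioo 0 S,
        deriv θ t + θ t / (2 * t) + C * θ t ≤
          if t ≤ 2 * b ^ 2 then L / b ^ 3 else if S - 2 * b ^ 2 ≤ t then 0 else -e := by
  obtain ⟨β, L, hβ⟩ := exists_prof
  have L0 : 0 ≤ L := (abs_nonneg _).trans (hβ.d2 0)
  let E : ℝ → ℝ := fun t => Real.exp (-Real.log t / 2 - C * t)
  refine ⟨L * S, E S, by positivity, Real.exp_pos _, fun b b0 => ?_⟩
  have a0 : 0 < b ^ 2 := by positivity
  let p : ℝ → ℝ := fun t => 1 - β (t / b ^ 2 - 1)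
  let q : ℝ → ℝ := fun t => β ((t - S) / b ^ 2 + 2)
  have p0 : ∀ t ≤ b ^ 2, p t = 0 := fun t h => sub_eq_zero.2
    (hβ.one _ (sub_nonpos.2 ((div_le_one a0).2 h))).symm
  have q0 : ∀ t, S - b ^ 2 ≤ t → q t = 0 := fun t h => hβ.zero _ (by
    have : -1 ≤ (t - S) / b ^ 2 := (le_div_iff₀ a0).2 (by linarith)
    linarith)
  have sp : ∀ t, p t * ((S - t) * q t) * E t ≠ 0 → t ∈ Icc (b ^ 2) (S - b ^ 2) := fun t h =>
    ⟨by_contra fun c => h (by simp [p0 t (not_le.1 c).le]),
      by_contra fun c => h (by simp [q0 t (not_le.1 c).le])⟩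
  have pm : ∀ t, 0 ≤ p t ∧ p t ≤ 1 := fun t => ⟨sub_nonneg.2 (hβ.mem _).2, sub_le_self _ (hβ.mem _).1⟩
  have qm : ∀ t, 0 ≤ q t ∧ q t ≤ 1 := fun t => hβ.mem _
  have E0 : ∀ t, 0 < E t := fun t => Real.exp_pos _
  have E1 : ∀ t, b ^ 2 ≤ t → E t ≤ b⁻¹ := fun t h => by
    rw [← Real.exp_log (inv_pos.2 b0), Real.log_inv]
    have := Real.log_le_log a0 h
    rw [Real.log_pow] at this
    exact Real.exp_le_exp.2 (by push_cast at this; nlinarith [mul_nonneg hC (a0.le.trans h)])
  have := hβ.sm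
  refine ⟨fun t => p t * ((S - t) * q t) * E t, contDiff_iff_contDiffAt.2 fun t => ?_, fun t => ?_,
    sp, fun t ht => ?_⟩
  · rcases lt_or_ge t (b ^ 2) with h | h
    · exact (contDiffAt_const (c := 0)).congr_of_eventuallyEq (mem_of_superset (Iio_mem_nhds h) fun s hs => by
        simp [p0 s (le_of_lt hs)])
    · have := (Real.contDiffAt_log (n := ∞)).2 (a0.trans_le h).ne'
      simp only [p, q, E]
      fun_prop
  · by_cases h : p t * ((S - t) * q t) * E t = 0
    · exact ⟨h.ge, h.le.trans (by positivity)⟩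
    obtain ⟨h1, h2⟩ := sp t h
    have h3 : 0 ≤ S - t := by linarith
    have h4 := mul_nonneg h3 (qm t).1
    exact ⟨mul_nonneg (mul_nonneg (pm t).1 h4) (E0 t).le, mul_le_mul ((mul_le_of_le_one_left h4
      (pm t).2).trans ((mul_le_of_le_one_right h3 (qm t).2).trans (by linarith))) (E1 t h1) (E0 t).le hS.le⟩
  have hd : ∀ s, HasDerivAt β (deriv β s) s := fun s => (this.differentiable (by simp) s).hasDerivAt
  have dp : HasDerivAt p (-(deriv β (t / b ^ 2 - 1) * (1 / b ^ 2))) t :=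
    ((hd _).comp t (((hasDerivAt_id t).div_const _).sub_const 1)).const_sub 1
  have dq : HasDerivAt q (deriv β ((t - S) / b ^ 2 + 2) * (1 / b ^ 2)) t :=
    (hd _).comp t ((((hasDerivAt_id t).sub_const S).div_const _).add_const 2)
  have dE : HasDerivAt E (E t * (-t⁻¹ / 2 - C * 1)) t :=
    (((Real.hasDerivAt_log ht.1.ne').neg.div_const 2).sub ((hasDerivAt_id t).const_mul C)).exp
  rw [((dp.fun_mul (((hasDerivAt_id' t).const_sub S).fun_mul dq)).fun_mul dE).deriv]
  obtain ⟨x, hx⟩ : ∃ x, x = -(deriv β (t / b ^ 2 - 1) * (1 / b ^ 2)) * ((S - t) * q t) := ⟨_, rfl⟩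
  obtain ⟨y, hy⟩ : ∃ y, y = (S - t) * (deriv β ((t - S) / b ^ 2 + 2) * (1 / b ^ 2)) := ⟨_, rfl⟩
  rw [← hx, ← hy]
  have h3 := sub_pos.2 ht.2
  have y0 : y ≤ 0 := hy ▸ mul_nonpos_of_nonneg_of_nonpos h3.le
    (mul_nonpos_of_nonpos_of_nonneg (hβ.d1 _).2 (by positivity))
  have k : p t * (-1 * q t + y) ≤ 0 := mul_nonpos_of_nonneg_of_nonpos (pm t).1 (by linarith [qm t])
  refine le_trans (le_of_eq (b := (x + p t * (-1 * q t + y)) * E t) (by
    have := ht.1.ne'
    field_simp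
    ring)) ?_
  have x0 : ∀ c : ℝ, β =ᶠ[𝓝 (t / b ^ 2 - 1)] (fun _ => c) → x = 0 := fun c h => by
    simp [hx, h.deriv_eq]
  split_ifs with h1 h2
  · rcases lt_or_ge t (b ^ 2) with h | h
    · rw [x0 1 (mem_of_superset (Iio_mem_nhds (sub_neg.2 ((div_lt_one a0).2 h))) fun s hs =>
        hβ.one s (le_of_lt hs)), zero_add]
      exact (mul_nonpos_of_nonpos_of_nonneg k (E0 t).le).trans (by positivity)
    have : x ≤ L * (1 / b ^ 2) * S := by
      rw [hx, ← neg_mul]
      exact mul_le_mul (mul_le_mul_of_nonneg_right (by linarith [hβ.d1 (t / b ^ 2 - 1)]) (by positivity))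
        ((mul_le_of_le_one_right h3.le (qm t).2).trans (by linarith [ht.1])) (mul_nonneg h3.le (qm t).1)
        (by positivity)
    refine (mul_le_mul (b := L * (1 / b ^ 2) * S) (by linarith) (E1 t h) (E0 t).le (by positivity)).trans_eq ?_
    field_simp
  all_goals
    have h4 : 1 < t / b ^ 2 - 1 := by
      have := (lt_div_iff₀ a0).2 (not_le.1 h1)
      linarith
    rw [x0 0 (mem_of_superset (Ioi_mem_nhds h4) fun s hs => hβ.zero s (le_of_lt hs)), zero_add]
  · exact mul_nonpos_of_nonpos_of_nonneg k (E0 t).le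
  have h5 : q t = 1 := hβ.one _ (by
    have : (t - S) / b ^ 2 ≤ -2 := (div_le_iff₀ a0).2 (by linarith)
    linarith)
  have h6 : p t = 1 := by simp [p, hβ.zero _ h4.le]
  have h7 : E S ≤ E t := Real.exp_le_exp.2 (by
    linarith [Real.log_le_log ht.1 ht.2.le, mul_le_mul_of_nonneg_left ht.2.le hC])
  rw [h5, h6]
  nlinarith [E0 t]

variable {M : Type} [MeasurableSpace M] {μ : Measure M} [SFinite μ]

/-- integrals over strips in time -/
theorem strip {f : ℝ × M → ℝ} {I J : Set ℝ} {B : Set M} {c : ℝ} (hI : MeasurableSet I)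
    (hJ : MeasurableSet J) (hf : IntegrableOn f (I ×ˢ B) (volume.prod μ)) (h0 : volume (J ∩ I) < ⊤)
    (h : ∀ t ∈ J ∩ I, |∫ x in B, f (t, x) ∂μ| ≤ c) :
    ∫ q in I ×ˢ B, (J ×ˢ univ).indicator f q ∂(volume.prod μ) ≤ c * volume.real (J ∩ I) := by
  rw [integral_indicator (hJ.prod .univ), ← Measure.prod_restrict, ← Measure.prod_restrict,
    Measure.restrict_restrict hJ, Measure.restrict_univ, Measure.prod_restrict,
    setIntegral_prod _ (hf.mono_set (prod_mono inter_subset_right subset_rfl))]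
  exact (le_abs_self _).trans (norm_setIntegral_le_of_norm_le_const
    (f := fun t => ∫ x in B, f (t, x) ∂μ) h0 h)

/-- the pointwise inequality -/
theorem pt {D v V W χ χt lχ θ θ' t z i j₁ j₂ j₃ C L e c G T : ℝ} {p₁ p₂ : Prop}
    [Decidable p₁] [Decidable p₂] (v0 : 0 ≤ v) (v1 : v ≤ D) (V0 : 0 ≤ V) (W0 : 0 ≤ W) (χ0 : 0 ≤ χ)
    (χ1 : χ ≤ C * W) (θ0 : 0 ≤ θ) (C0 : 0 ≤ C) (L0 : 0 ≤ L) (G0 : 0 ≤ G)
    (h1 : χt ≤ χ / (2 * t)) (h2 : lχ ≤ C * χ + z) (h3 : θ * (v * z * V) ≤ T * j₃)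
    (h4 : θ' + θ / (2 * t) + C * θ ≤ if p₁ then L else if p₂ then 0 else -e)
    (h5 : e * c * i ≤ e * (χ * (D * V))) (h6 : e * c * i ≤ G * (D * V * W))
    (h7 : p₁ → j₁ = D * V * W) (h8 : p₂ → j₂ = D * V * W) (h9 : 0 ≤ j₁) (h10 : 0 ≤ j₂) :
    e * c * i + ((θ' * χ + θ * χt) * D + v * (θ * lχ)) * V ≤ (L * C + G) * j₁ + G * j₂ + T * j₃ := by
  have f0 := mul_nonneg (v0.trans v1) V0
  have q1 := mul_le_mul_of_nonneg_left (mul_le_mul_of_nonneg_right
    (mul_le_mul_of_nonneg_left h2 v0) V0) θ0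
  have q2 := mul_le_mul_of_nonneg_left (mul_le_mul_of_nonneg_right v1 V0)
    (mul_nonneg θ0 (mul_nonneg C0 χ0))
  have q3 := mul_le_mul_of_nonneg_right (mul_le_mul_of_nonneg_left h1 θ0) f0
  have q4 := mul_le_mul_of_nonneg_right h4 (mul_nonneg χ0 f0)
  have q5 := mul_le_mul_of_nonneg_left (mul_le_mul_of_nonneg_right χ1 f0) L0
  have q6 := mul_nonneg (add_nonneg (mul_nonneg L0 C0) G0) h9
  have q7 := mul_nonneg G0 h10
  simp only [div_eq_mul_inv] at *
  split_ifs at q4 with a b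
  · rw [h7 a]
    linarith
  · rw [h8 b]
    linarith
  · linarith

end Ql

open Ql

variable {n : ℕ} {M : Type} [MetricSpace M] [ChartedSpace (Cm n) M]
  [RiemannianBundle (fun x : M => TangentSpace 𝓘(ℝ, Cm n) x)] [ProperSpace M]
  [MeasurableSpace M] [BorelSpace M] {μ : Measure M} {F : Flow n M}

theorem Ql.tail {f : M → ℝ} (hf : Integrable f μ) {ε : ℝ} (hε : 0 < ε) :
    ∃ ρ : ℝ, ∫ x in {x | ρ ≤ F.r x}, f x ∂μ ≤ ε := by
  have c : Continuous F.r := continuous_id.dist continuous_const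
  have := tendsto_setIntegral_of_antitone (s := fun i : ℕ => {x | (i : ℝ) ≤ F.r x})
    (fun i => measurableSet_le measurable_const c.measurable)
    (fun i j h x (hx : (j : ℝ) ≤ _) => show (i : ℝ) ≤ _ from (Nat.cast_le.2 h).trans hx)
    ⟨0, hf.integrableOn⟩
  rw [show ⋂ i : ℕ, {x | (i : ℝ) ≤ F.r x} = ∅ from eq_empty_of_forall_notMem fun x hx =>
    (exists_nat_gt (F.r x)).elim fun i hi => hi.not_ge (mem_iInter.1 hx i), setIntegral_empty] at this
  exact (this.eventually_le_const hε).exists.elim fun i hi => ⟨i, hi⟩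

/-- **QL** -/
theorem ql (h1 : F.Bas1) (hc : Cal F) (b3 : B3 n μ) (bar : BAR F) : QL F μ := by
  intro N wt S hS ρ₀ A ε hε
  have : IsFiniteMeasureOnCompacts μ := ⟨b3.fin⟩
  have cr : Continuous F.r := continuous_id.dist continuous_const
  have r0 : ∀ x, 0 ≤ F.r x := fun x => dist_nonneg
  obtain ⟨C, C1, bar⟩ := bar S hS N
  have C0 := zero_le_one.trans C1
  obtain ⟨c, c0, bar⟩ := bar ρ₀
  obtain ⟨L, e, L0, e0, th⟩ := theta hS C0
  obtain ⟨G, hG⟩ : ∃ G, G = e * c * (1 + |ρ₀|) ^ (2 * N) := ⟨_, rfl⟩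
  have G0 : 0 ≤ G := by rw [hG]; positivity
  obtain ⟨b, hb, b0⟩ : ∃ b, (L * C + G * b ^ 3) * (4 * |A| * b) + G * (|A| * S * (2 * b ^ 2)) <
      e * c * ε / 2 ∧ 0 < b := by
    have k : ContinuousAt (fun b : ℝ => (L * C + G * b ^ 3) * (4 * |A| * b) +
      G * (|A| * S * (2 * b ^ 2))) 0 := by fun_prop
    exact ((k.eventually_lt_const (u := e * c * ε / 2) (by simpa using by positivity)).filter_mono
      (nhdsWithin_le_nhds (s := Ioi 0))).and self_mem_nhdsWithin |>.exists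
  obtain ⟨θ, θs, θm, θ0, θd⟩ := th b b0
  obtain ⟨K, hK⟩ : ∃ K, K = S / b * C * |A| * n := ⟨_, rfl⟩
  have K0 : 0 ≤ K := by rw [hK]; positivity
  obtain ⟨ρ₁, tl⟩ := Ql.tail (F := F) wt (ε := e * c * ε / 2 / (K * S + 1)) (by positivity)
  obtain ⟨ρ', χ, χs, hχ⟩ := bar ρ₁
  refine ⟨max (ρ' + 1) ρ₀, fun D v B mD mv hb' hD ht => ?_⟩
  set ρ := max (ρ' + 1) ρ₀
  have a0 : 0 < b ^ 2 := by positivity
  have sub : Icc (b ^ 2) (S - b ^ 2) ⊆ Ioo 0 S := Icc_subset_Ioo a0 (by linarith)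
  have θz : ∀ t ∉ Ioo 0 S, ∀ᶠ s in 𝓝 t, θ s = 0 := fun t h => mem_of_superset
    (isClosed_Icc.isOpen_compl.mem_nhds fun k => h (sub k)) fun s hs => by_contra fun k => hs (θ0 s k)
  have Xz : ∀ t x, ρ' ≤ F.r x → θ t * χ t x = 0 := fun t x h => by
    by_contra k
    exact right_ne_zero_of_mul k ((hχ t (sub (θ0 t (left_ne_zero_of_mul k))) x).2.2.1 h)
  have Xs : SmT n univ fun t x => θ t * χ t x := fun e he q hq => by
    by_cases h : q.1 ∈ Ioo 0 S
    · exact ((θs.comp contDiff_fst).contDiffAt.mul ((χs e he).contDiffAt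
        ((isOpen_Ioo.prod e.open_target).mem_nhds ⟨h, hq.2⟩))).contDiffWithinAt
    · exact ((contDiffAt_const (c := 0)).congr_of_eventuallyEq ((continuousAt_fst.eventually
        (θz _ h)).mono fun q hq => by simp [ch, hq])).contDiffWithinAt
  replace ht := ht _ _ _ Xs (fun t x => by
    by_cases k : θ t = 0
    · simp [k]
    · exact mul_nonneg (θm t).1 (hχ t (sub (θ0 t k)) x).1) a0 (sub_lt_self S a0) fun t x k =>
      ⟨θ0 t (left_ne_zero_of_mul k), by_contra fun h => k (Xz t x (by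
        linarith [le_max_left (ρ' + 1) ρ₀, not_le.1 h]))⟩
  have Xs' : SmT n (Ico 0 (S + 1)) fun t x => θ t * χ t x := fun e he =>
    (Xs e he).mono (prod_mono (subset_univ _) subset_rfl)
  obtain ⟨X', c1, d1⟩ := hc.cont_dt _ _ Xs'
  have c2 := (hc.cont_lap _ _ Xs').1
  set P := Ioo 0 S ×ˢ closedBall F.o ρ
  have mP : MeasurableSet P := measurableSet_Ioo.prod measurableSet_closedBall
  have kP := (isCompact_Icc (a := 0) (b := S)).prod (isCompact_closedBall F.o ρ)
  have sP : P ⊆ _ := prod_mono Ioo_subset_Icc_self subset_rfl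
  have sP' : Icc 0 S ×ˢ closedBall F.o ρ ⊆ Ico 0 (S + 1) ×ˢ univ :=
    prod_mono (Icc_subset_Ico_right (lt_add_one S)) (subset_univ _)
  have fP : volume.prod μ P ≠ ⊤ := ((measure_mono sP).trans_lt kP.measure_lt_top).ne
  have cu := h1.sm_cont F.u h1.u_sm
  have cv : ContinuousOn (fun q : ℝ × M => vol F q.1 q.2) (Icc 0 S ×ˢ closedBall F.o ρ) :=
    ((cu.comp (continuousOn_const.prodMk continuousOn_snd) fun q _ => ⟨self_mem_Ici, trivial⟩).sub
      (cu.mono fun q hq => ⟨hq.1.1, trivial⟩)).rexp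
  have iD : IntegrableOn (Function.uncurry D) P (volume.prod μ) :=
    Measure.integrableOn_of_bounded (M := B) fP mD.aestronglyMeasurable ((ae_restrict_mem mP).mono
      fun q hq => have := hb' q.1 hq.1 q.2 hq.2
        (Real.norm_of_nonneg (this.1.trans this.2.1)).trans_le this.2.2.2)
  have iv : IntegrableOn (Function.uncurry v) P (volume.prod μ) :=
    Measure.integrableOn_of_bounded (M := B) fP mv.aestronglyMeasurable ((ae_restrict_mem mP).mono
      fun q hq => have := hb' q.1 hq.1 q.2 hq.2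
        (Real.norm_of_nonneg this.1).trans_le (this.2.1.trans this.2.2.2))
  have iI : IntegrableOn (fun q : ℝ × M => (dt (fun t x => θ t * χ t x) q.1 q.2 * D q.1 q.2 +
      v q.1 q.2 * F.lap q.1 (fun x => θ q.1 * χ q.1 x) q.2) * vol F q.1 q.2) P (volume.prod μ) :=
    (((iD.continuousOn_mul_of_subset (c1.mono sP') kP mP sP).add (iv.mul_continuousOn_of_subset
      (c2.mono sP') mP kP sP)).mul_continuousOn_of_subset cv mP kP sP).congr_fun (fun q hq => by
        rw [dt, (d1 q.1 ⟨hq.1.1, hq.1.2.trans (lt_add_one S)⟩ q.2).deriv]; rfl) mP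
  rw [← setIntegral_eq_integral_of_forall_compl_eq_zero (s := P) fun q hq => by
    rcases not_and_or.1 hq with h | h
    · rw [dt, EventuallyEq.deriv_eq (f := fun _ => 0) ((θz _ h).mono fun s hs => by simp [hs]),
        (θz _ h).self_of_nhds]
      simp [hc.const]
    · have h' : ρ' < F.r q.2 := by linarith [le_max_left (ρ' + 1) ρ₀, show ρ < F.r q.2 from not_le.1 h]
      rw [hc.congr _ _ (fun _ => 0) _ ((cr.continuousAt.eventually_const_lt h').mono
        fun y hy => Xz _ y hy.le), hc.const]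
      simp [dt, Xz _ _ h'.le]] at ht
  have i0 := iD.mul_continuousOn_of_subset cv mP kP sP
  have w0 : ∀ x, 0 < (1 + F.r x) ^ (2 * N) := fun x => by have := r0 x; positivity
  have i1 : IntegrableOn (fun q : ℝ × M => D q.1 q.2 * vol F q.1 q.2 / (1 + F.r q.2) ^ (2 * N)) P
      (volume.prod μ) := i0.mul_continuousOn_of_subset (Continuous.continuousOn (Continuous.inv₀
        (by fun_prop) fun q : ℝ × M => (w0 q.2).ne')) mP kP sP
  have mT : MeasurableSet {x | ρ₁ ≤ F.r x} := measurableSet_le measurable_const cr.measurable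
  have i2 : IntegrableOn (fun q : ℝ × M => {x | ρ₁ ≤ F.r x}.indicator
      (fun x => maj F x / (1 + F.r x) ^ (2 * N)) q.2) P (volume.prod μ) := by
    rw [IntegrableOn, ← Measure.prod_restrict]
    exact (wt.indicator mT).integrableOn.comp_snd _
  have m0 : ∀ x, 0 ≤ maj F x := fun x => by unfold maj; positivity
  have v0 : ∀ t x, 0 < vol F t x := fun t x => Real.exp_pos _
  have st : ∀ (J : Set ℝ) (τ : ℝ), MeasurableSet J → (∀ t ∈ J ∩ Ioo 0 S, t ≤ τ) →
      volume.real (J ∩ Ioo 0 S) ≤ 2 * b ^ 2 → 0 ≤ τ → ∫ q in P, (J ×ˢ univ).indicator (fun q : ℝ × M =>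
        D q.1 q.2 * vol F q.1 q.2 / (1 + F.r q.2) ^ (2 * N)) q ∂(volume.prod μ) ≤
        |A| * τ * (2 * b ^ 2) := fun J τ mJ h h' τ0 => by
    refine (strip measurableSet_Ioo mJ i1 ((measure_mono inter_subset_right).trans_lt
      measure_Ioo_lt_top) (c := |A| * τ) fun t k => ?_).trans (by gcongr)
    rw [abs_of_nonneg (setIntegral_nonneg measurableSet_closedBall fun x hx => div_nonneg (mul_nonneg
      ((hb' t k.2 x hx).1.trans (hb' t k.2 x hx).2.1) (v0 t x).le) (w0 x).le)]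
    exact (hD t k.2).trans (mul_le_mul (le_abs_self A) (h t k) k.2.1.le (abs_nonneg A))
  have s1 := st (Iic (2 * b ^ 2)) (2 * b ^ 2) measurableSet_Iic (fun t h => h.1)
    ((measureReal_mono (s₂ := Icc 0 (2 * b ^ 2)) (fun t h => ⟨h.2.1.le, h.1⟩)
      measure_Icc_lt_top.ne).trans_eq (by simp [a0.le]))
    (by positivity)
  have s2 := st (Ici (S - 2 * b ^ 2)) S measurableSet_Ici (fun t h => h.2.2.le)
    ((measureReal_mono (s₂ := Icc (S - 2 * b ^ 2) S) (fun t h => ⟨h.1, h.2.2.le⟩)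
      measure_Icc_lt_top.ne).trans_eq (by simp [a0.le])) hS.le
  have s3 : ∫ q in P, {x | ρ₁ ≤ F.r x}.indicator (fun x => maj F x / (1 + F.r x) ^ (2 * N)) q.2
      ∂(volume.prod μ) ≤ S * (e * c * ε / 2 / (K * S + 1)) := by
    rw [← Measure.prod_restrict, integral_fun_snd, smul_eq_mul, measureReal_restrict_apply_univ,
      Real.volume_real_Ioo_of_le hS.le, sub_zero]
    refine mul_le_mul_of_nonneg_left ((setIntegral_le_integral (wt.indicator mT) (.of_forall fun x =>
      indicator_nonneg (fun x _ => div_nonneg (m0 x) (w0 x).le) x)).trans ?_) hS.le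
    rwa [integral_indicator mT]
  have mB : MeasurableSet ((univ : Set ℝ) ×ˢ closedBall F.o ρ₀) := .prod .univ measurableSet_closedBall
  have key := setIntegral_mono_on (((i0.indicator mB).const_mul (e * c)).add iI)
    ((((i1.indicator (measurableSet_Iic.prod .univ : MeasurableSet (Iic (2 * b ^ 2) ×ˢ univ))).const_mul
      (L / b ^ 3 * C + G)).add ((i1.indicator (measurableSet_Ici.prod .univ :
        MeasurableSet (Ici (S - 2 * b ^ 2) ×ˢ univ))).const_mul G)).add (i2.const_mul K)) mP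
    fun ⟨t, x⟩ ⟨h2, h3⟩ => by
      obtain ⟨v1, v2, v3, -⟩ := hb' t h2 x h3
      obtain ⟨χ0, χ1, -, χ3, χ4, χ5⟩ := hχ t h2 x
      obtain ⟨k1, k2⟩ := hc.slice (Ioo 0 S) univ χ isOpen_univ (fun e he => by simpa using χs e he)
        t h2 x trivial
      have e1 : dt (fun t x => θ t * χ t x) t x = deriv θ t * χ t x + θ t * dt χ t x :=
        deriv_fun_mul (θs.differentiable (by simp) t) ((k2.contDiffAt
          (isOpen_Ioo.mem_nhds h2)).differentiableAt (by simp))
      have e2 : F.lap t (fun x => θ t * χ t x) x = θ t * F.lap t (χ t) x := by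
        simpa using hc.lin t (θ t) 0 _ _ x k1 k1
      have V := (v0 t x).le
      have W := (inv_pos.2 (w0 x)).le
      have f0 := mul_nonneg (v1.trans v2) V
      have g0 := div_nonneg f0 (w0 x).le
      simp only [Pi.add_apply, e1, e2]
      refine pt v1 v2 V W χ0 χ1 (θm t).1 C0 (by positivity) G0 χ4 χ5 ?_
        (θd t h2) ?_ ?_ (fun h => indicator_of_mem (by exact ⟨h, trivial⟩) _)
        (fun h => indicator_of_mem (by exact ⟨h, trivial⟩) _) (indicator_apply_nonneg fun _ => g0)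
        (indicator_apply_nonneg fun _ => g0)
      · split_ifs with h
        · have q3 : v t x * (F.y t x * vol F t x) ≤ |A| * maj F x * n :=
            (mul_le_mul_of_nonneg_left (hc.y_vol t h2.1.le x).1 v1).trans (mul_le_mul_of_nonneg_right
              (v3.trans (mul_le_mul_of_nonneg_right (le_abs_self A) (m0 x))) n.cast_nonneg)
          have q6 := mul_le_mul_of_nonneg_left (mul_le_mul_of_nonneg_left q3 (mul_nonneg C0 W)) (θm t).1
          have q7 := mul_le_mul_of_nonneg_right (θm t).2 (mul_nonneg (mul_nonneg C0 W)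
            (mul_nonneg (mul_nonneg (abs_nonneg A) (m0 x)) n.cast_nonneg))
          rw [hK, indicator_of_mem (by exact h), div_eq_mul_inv (maj F x), div_eq_mul_inv (C * _)]
          linarith
        · rw [indicator_of_notMem (by exact h)]
          simp
      · rw [mul_assoc]
        refine mul_le_mul_of_nonneg_left ?_ e0.le
        by_cases h : (t, x) ∈ univ ×ˢ closedBall F.o ρ₀
        · rw [indicator_of_mem h]
          exact mul_le_mul_of_nonneg_right (χ3 h.2) f0
        · rw [indicator_of_notMem h, mul_zero]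
          positivity
      · by_cases h : (t, x) ∈ univ ×ˢ closedBall F.o ρ₀
        · rw [indicator_of_mem h, hG, mul_assoc (e * c), mul_left_comm ((1 + |ρ₀|) ^ (2 * N))]
          refine mul_le_mul_of_nonneg_left (le_mul_of_one_le_right f0 ?_) (by positivity)
          rw [← div_eq_mul_inv, one_le_div (w0 x)]
          have := r0 x
          gcongr
          exact le_trans h.2 (le_abs_self _)
        · rw [indicator_of_notMem h, mul_zero]
          positivity
  have j1 := (i1.indicator (measurableSet_Iic.prod .univ : MeasurableSet (Iic (2 * b ^ 2) ×ˢ univ)))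
  have j2 := (i1.indicator (measurableSet_Ici.prod .univ : MeasurableSet (Ici (S - 2 * b ^ 2) ×ˢ univ)))
  rw [integral_add' ((i0.indicator mB).const_mul _) iI, integral_add' ((j1.const_mul _).add
    (j2.const_mul _)) (i2.const_mul _), integral_add' (j1.const_mul _) (j2.const_mul _),
    integral_const_mul, integral_const_mul, integral_const_mul, integral_const_mul,
    setIntegral_indicator mB, prod_inter_prod, inter_univ, inter_eq_right.2
      (closedBall_subset_closedBall (le_max_right _ _))] at key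
  have t1 := mul_le_mul_of_nonneg_left s1 (by positivity : 0 ≤ L / b ^ 3 * C + G)
  have t2 := mul_le_mul_of_nonneg_left s2 G0
  have t3 := mul_le_mul_of_nonneg_left s3 K0
  have t4 : K * (S * (e * c * ε / 2 / (K * S + 1))) ≤ e * c * ε / 2 := by
    rw [← mul_assoc, mul_comm, div_mul_eq_mul_div, div_le_iff₀ (by positivity)]
    gcongr
    linarith
  have t5 : (L / b ^ 3 * C + G) * (|A| * (2 * b ^ 2) * (2 * b ^ 2)) =
      (L * C + G * b ^ 3) * (4 * |A| * b) := by field_simp; ring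
  refine le_of_mul_le_mul_left ?_ (mul_pos e0 c0)
  have key' : e * c * ∫ q in Ioo 0 S ×ˢ closedBall F.o ρ₀, D q.1 q.2 * vol F q.1 q.2
    ∂(volume.prod μ) ≤ _ := (le_add_of_nonneg_right ht).trans key
  linarith

end Vale.Agent.P253W.HK
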