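import Vale.Agent.P253W.HK.Defs

/-!
# P253W, block HK: the reduced functions
-/

open scoped Manifold ContDiff Bundle Topology
open Bundle Set Metric Filter Vale.Agent.P253Z
open Vale.Agent.P272.K (Cm Chart)

noncomputable section

namespace Vale.Agent.P253W.HK

variable {n : ℕ} {M : Type} [MetricSpace M] [ChartedSpace (Cm n) M]

namespace Red

theorem st {f : M → ℝ} (h : Sm n f) (I : Set ℝ) : SmT n I fun _ x => f x :=
  fun e he q hq => ((h e he q.2 hq.2).comp q contDiffAt_snd).contDiffWithinAt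

theorem sd {I J : Set ℝ} {f : ℝ → M → ℝ} (h : SmT n I f) (hJ : J ⊆ I) (D : Set M) : SmD n J D f :=
  fun e he => (h e he).mono (prod_mono hJ inter_subset_left)

theorem smul {I : Set ℝ} {a : M → ℝ} {f : ℝ → M → ℝ} (ha : Sm n a) (h : SmT n I f) {J : Set ℝ}
    (hJ : J ⊆ I) : SmT n J fun t x => a x * f t x :=
  fun e he => (st ha J e he).mul ((h e he).mono (prod_mono hJ Subset.rfl))

theorem aff {a : M → ℝ} (ha : Sm n a) (c d : ℝ) : Sm n fun x => c + d * a x :=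
  fun e he z hz => contDiffAt_const.add (contDiffAt_const.mul (ha e he z hz))

theorem mul {a b : M → ℝ} (ha : Sm n a) (hb : Sm n b) : Sm n fun x => a x * b x :=
  fun e he z hz => (ha e he z hz).mul (hb e he z hz)

theorem lin {I : Set ℝ} {D : Set M} {f g : ℝ → M → ℝ} (hf : SmD n I D f) (hg : SmD n I D g)
    (a b : ℝ) : SmD n I D fun t x => a * f t x + b * g t x :=
  fun e he => (contDiffOn_const.mul (hf e he)).add (contDiffOn_const.mul (hg e he))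

variable [RiemannianBundle (fun x : M => TangentSpace 𝓘(ℝ, Cm n) x)] {F : Flow n M}

theorem cont (hC : Cal F) {f : M → ℝ} (h : Sm n f) : Continuous f := by
  have := hC.cont univ univ _ (sd (st h univ) Subset.rfl univ)
  rw [univ_prod_univ, continuousOn_univ] at this
  exact this.comp (continuous_const.prodMk continuous_id : Continuous fun x : M => ((0 : ℝ), x))

theorem sl (hC : Cal F) {I : Set ℝ} {D : Set M} {f : ℝ → M → ℝ} (hD : IsOpen D) (hf : SmD n I D f)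
    {t : ℝ} (ht : I ∈ 𝓝 t) {x : M} (hx : x ∈ D) :
    C2 n (f t) x ∧ HasDerivAt (fun s => f s x) (dt f t x) t :=
  ⟨(hC.slice I D f hD hf t (mem_of_mem_nhds ht) x hx).1,
    (((hC.slice I D f hD hf t (mem_of_mem_nhds ht) x hx).2.contDiffAt ht).differentiableAt
      (by simp)).hasDerivAt⟩

theorem op (hC : Cal F) {I : Set ℝ} {D : Set M} {f g : ℝ → M → ℝ} (hD : IsOpen D)
    (hf : SmD n I D f) (hg : SmD n I D g) (a b : ℝ) {t : ℝ} (ht : I ∈ 𝓝 t) {x : M} (hx : x ∈ D) :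
    F.lap t (fun y => a * f t y + b * g t y) x = a * F.lap t (f t) x + b * F.lap t (g t) x ∧
      dt (fun t x => a * f t x + b * g t x) t x = a * dt f t x + b * dt g t x :=
  ⟨hC.lin t a b _ _ x (sl hC hD hf ht hx).1 (sl hC hD hg ht hx).1,
    (((sl hC hD hf ht hx).2.const_mul a).add ((sl hC hD hg ht hx).2.const_mul b)).deriv⟩

theorem bnd (hC : Cal F) {S : ℝ} {f : ℝ → M → ℝ} (hf : SmT n (Ico 0 (S + 1)) f) {K : Set M}
    (hK : IsCompact K) : ∃ B : ℝ, 0 ≤ B ∧ ∀ t ∈ Icc 0 S, ∀ x ∈ K,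
      |f t x| ≤ B ∧ |F.lap t (f t) x| ≤ B ∧ (0 < t → |dt f t x| ≤ B) := by
  have hs : Icc 0 S ×ˢ K ⊆ Ico 0 (S + 1) ×ˢ univ :=
    prod_mono (Icc_subset_Ico_right (lt_add_one S)) (subset_univ K)
  have hc := (isCompact_Icc (a := 0) (b := S)).prod hK
  obtain ⟨f', h1, h2⟩ := hC.cont_dt _ f hf
  obtain ⟨a, ha⟩ := hc.exists_bound_of_continuousOn
    ((hC.cont _ univ f (sd hf Subset.rfl univ)).mono hs)
  obtain ⟨b, hb⟩ := hc.exists_bound_of_continuousOn ((hC.cont_lap _ f hf).1.mono hs)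
  obtain ⟨c, hc⟩ := hc.exists_bound_of_continuousOn (h1.mono hs)
  refine ⟨|a| + |b| + |c|, by positivity, fun t ht x hx => ?_⟩
  have a1 : |f t x| ≤ a := ha (t, x) ⟨ht, hx⟩
  have a2 : |F.lap t (f t) x| ≤ b := hb (t, x) ⟨ht, hx⟩
  have a3 : |f' t x| ≤ c := hc (t, x) ⟨ht, hx⟩
  have := le_abs_self a
  have := le_abs_self b
  have := le_abs_self c
  have := abs_nonneg a
  have := abs_nonneg b
  have := abs_nonneg c
  refine ⟨by linarith, by linarith, fun h => ?_⟩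
  rw [dt, (h2 t ⟨h, by linarith [ht.2]⟩ x).deriv]
  linarith

theorem loc [IsManifold 𝓘(ℂ, Cm n) 1 M] (hC : Cal F) {I J : Set ℝ} (hI : I ⊆ J) {f : ℝ → M → ℝ}
    (h : ∀ x, ∃ D, IsOpen D ∧ x ∈ D ∧ SmD n J D f) : SmT n I f := by
  refine hC.loc I f fun t ht x => ?_
  obtain ⟨D, h1, h2, h3⟩ := h x
  have he : Hc (pc n x) := IsManifold.chart_mem_maximalAtlas x
  have hx : pc n x x ∈ (pc n x).target ∩ (pc n x).symm ⁻¹' D :=
    ⟨mem_chart_target _ x, by simpa using h2⟩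
  refine ⟨pc n x, he, mem_chart_source _ x,
    (h3 _ he (t, pc n x x) ⟨hI ht, hx⟩).mono_of_mem_nhdsWithin (mem_nhdsWithin.2
      ⟨univ ×ˢ ((pc n x).target ∩ (pc n x).symm ⁻¹' D),
        isOpen_univ.prod ((pc n x).isOpen_inter_preimage_symm h1), ⟨trivial, hx⟩,
        fun q hq => ⟨hI hq.2.1, hq.1.2⟩⟩)⟩

end Red

open Red

variable [IsManifold 𝓘(ℂ, Cm n) 1 M] [RiemannianBundle (fun x : M => TangentSpace 𝓘(ℝ, Cm n) x)]
  [ProperSpace M] {F : Flow n M}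

theorem red (hC : Cal F) (hL : LINF F) (hM : MP F) (hU : U1 F) : RED F := by
  intro S hS Z A hZ h1 h2 ρ₀ ε hε
  obtain ⟨ρ', hρ'⟩ := hU S hS ρ₀ A ε hε
  obtain ⟨p, p1, p2, p3⟩ : ∃ p : ℝ, ρ' ≤ p ∧ ρ₀ ≤ p ∧ 0 ≤ p :=
    ⟨max ρ' (max ρ₀ 0), le_max_left _ _, le_max_of_le_right (le_max_left _ _),
      le_max_of_le_right (le_max_right _ _)⟩
  obtain ⟨β₁, s1, b1⟩ := hC.cut p (p + 1) (by linarith)
  obtain ⟨β₂, s2, b2⟩ := hC.cut (p + 2) (p + 3) (by linarith)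
  obtain ⟨β₃, s3, b3⟩ := hC.cut (3 * (p + 3)) (3 * (p + 3) + 1) (by linarith)
  obtain ⟨ζ, s4, b4⟩ := hC.cut (3 * (p + 3) + 1) (3 * (p + 3) + 2) (by linarith)
  obtain ⟨σ, s5, b5⟩ := hC.cut (3 * (p + 3) + 2) (3 * (p + 3) + 3) (by linarith)
  have hr : Continuous F.r := continuous_id.dist continuous_const
  have hK := isCompact_closedBall F.o (3 * (p + 3) + 3)
  have hσ : HasCompactSupport σ := HasCompactSupport.intro hK fun x hx =>
    (b5 x).2.2.2 (le_of_lt (not_le.1 hx))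
  have hDK : ∀ x, 0 < σ x → x ∈ closedBall F.o (3 * (p + 3) + 3) := fun x hx => by
    by_contra h
    exact hx.ne' ((b5 x).2.2.2 (le_of_lt (not_le.1 h)))
  have hD : IsOpen {x | 0 < σ x} := isOpen_lt continuous_const (cont hC s5)
  have hD1 : ∀ x, F.r x ≤ 3 * (p + 3) + 2 → 0 < σ x := fun x h => by
    rw [(b5 x).2.2.1 h]; exact one_pos
  obtain ⟨z, sz, z0, z1, z2, z3, z4⟩ : ∃ z : M → ℝ, Sm n z ∧ (∀ x, 0 ≤ z x) ∧ (∀ x, z x ≤ 1) ∧
      (∀ x, F.r x ≤ p + 2 → z x = 0) ∧ (∀ x, p + 3 ≤ F.r x → F.r x ≤ 3 * (p + 3) → z x = 1) ∧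
      ∀ x, 3 * (p + 3) + 1 ≤ F.r x → z x = 0 :=
    ⟨fun x => (1 + -1 * β₂ x) * β₃ x, mul (aff s2 1 (-1)) s3,
      fun x => mul_nonneg (by linarith [(b2 x).2.1]) (b3 x).1,
      fun x => mul_le_one₀ (by linarith [(b2 x).1]) (b3 x).1 (b3 x).2.1,
      fun x h => by simp [(b2 x).2.2.1 h], fun x h h' => by simp [(b2 x).2.2.2 h, (b3 x).2.2.1 h'],
      fun x h => by simp [(b3 x).2.2.2 h]⟩
  have i1 : Ico 0 (S + 1) ⊆ Ici (0 : ℝ) := fun _ h => h.1
  have i2 : Icc 0 (S + 1) ⊆ Ici (0 : ℝ) := fun _ h => h.1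
  have i3 : ∀ t ∈ Ioc 0 S, Icc 0 (S + 1) ∈ 𝓝 t := fun t h => Icc_mem_nhds h.1 (by linarith [h.2])
  obtain ⟨B₁, k1, c1⟩ := bnd hC (fun e he => (hZ e he).mono (prod_mono i1 Subset.rfl)) hK
  obtain ⟨B₂, k2, c2⟩ := bnd hC (smul sz hZ i1) hK
  obtain ⟨Λ, l1, l2⟩ : ∃ Λ : ℝ, 4 * B₁ ≤ Λ ∧ 2 * B₂ ≤ Λ := ⟨4 * B₁ + 2 * B₂, by linarith, by linarith⟩
  have c0 : ∀ x, 0 ≤ Λ + -Λ * β₁ x := fun x => by nlinarith [(b1 x).2.1]
  obtain ⟨w, B, w1, w2⟩ := hL (S + 1) σ (fun x => z x * Z 0 x) (fun _ x => Λ + -Λ * β₁ x)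
    (fun t x => (Λ + -Λ * β₁ x) * (1 / 2 + 1 / 2 * ζ x) * Z t x) (by linarith) s5
    (fun x => (b5 x).1) hσ (mul sz (hC.sm _ Z hZ 0 self_mem_Ici)) (st (aff s1 _ _) _)
    (smul (mul (aff s1 _ _) (aff s4 _ _)) hZ i2)
  have q2 : ∀ x, 0 ≤ σ x ^ 2 ∧ σ x ^ 2 ≤ 1 := fun x =>
    ⟨sq_nonneg _, pow_le_one₀ (b5 x).1 (b5 x).2.1⟩
  have up : ∀ t ∈ Icc 0 S, ∀ x, 0 < σ x → 0 ≤ 1 * Z t x + -1 * w t x := by
    refine hM S (S + 1) B σ (fun _ x => Λ + -Λ * β₁ x) _ (lt_add_one S) s5 (fun x => (b5 x).1) hσ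
      (lin (sd hZ i2 _) w1 1 (-1)) fun x hx => ⟨?_, fun t ht => ?_, fun t ht => ⟨c0 x, ?_⟩⟩
    · have := (h1 0 ⟨le_rfl, hS.le⟩ x).1
      rw [(w2 x hx).1]
      nlinarith [z1 x]
    · have := (h1 t ht x).1
      linarith [(abs_le.1 ((w2 x hx).2.1 t ⟨ht.1, by linarith [ht.2]⟩)).2]
    · obtain ⟨o1, o2⟩ := op hC hD (sd hZ i2 _) w1 1 (-1) (i3 t ht) hx
      have o3 := (h1 t ⟨ht.1.le, ht.2⟩ x).1
      rw [o1, o2, (w2 x hx).2.2 t ⟨ht.1, by linarith [ht.2]⟩]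
      rcases le_total (F.r x) (3 * (p + 3) + 2) with h | h
      · have := mul_nonneg (mul_nonneg (c0 x) (sub_nonneg.2 (b4 x).2.1)) (zero_le_one.trans o3)
        rw [(b5 x).2.2.1 h]
        linarith [h2 t ht x]
      · obtain ⟨-, o4, o5⟩ := c1 t ⟨ht.1.le, ht.2⟩ x (hDK x hx)
        rw [(b4 x).2.2.2 h, (b1 x).2.2.2 (by linarith)]
        have o6 := (abs_le.1 (o5 ht.1)).1
        have o7 := mul_le_mul_of_nonneg_left (abs_le.1 o4).2 (q2 x).1
        have o8 := mul_le_mul_of_nonneg_right (q2 x).2 k1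
        have o9 := mul_le_mul_of_nonneg_left o3 (show 0 ≤ Λ by linarith)
        linarith
  have lo : ∀ t ∈ Icc 0 S, ∀ x, 0 < σ x → 0 ≤ 1 * w t x + -(1 / 2) * (z x * Z t x) := by
    refine hM S (S + 1) (B + B₂) σ (fun _ x => Λ + -Λ * β₁ x) _ (lt_add_one S) s5
      (fun x => (b5 x).1) hσ (lin w1 (sd (smul sz hZ i2) Subset.rfl _) 1 (-(1 / 2)))
      fun x hx => ⟨?_, fun t ht => ?_, fun t ht => ⟨c0 x, ?_⟩⟩
    · have := (h1 0 ⟨le_rfl, hS.le⟩ x).1
      rw [(w2 x hx).1]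
      nlinarith [z0 x]
    · linarith [(abs_le.1 ((w2 x hx).2.1 t ⟨ht.1, by linarith [ht.2]⟩)).1,
        (abs_le.1 (c2 t ht x (hDK x hx)).1).2]
    · obtain ⟨o1, o2⟩ := op hC hD w1 (sd (smul sz hZ i2) Subset.rfl _) 1 (-(1 / 2)) (i3 t ht) hx
      have o3 := (h1 t ⟨ht.1.le, ht.2⟩ x).1
      rw [o1, o2, (w2 x hx).2.2 t ⟨ht.1, by linarith [ht.2]⟩]
      rcases lt_or_ge (F.r x) (p + 1) with h | h
      · have e1 : F.lap t (fun y => z y * Z t y) x = 0 := by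
          rw [hC.congr t _ (fun _ => 0) x, hC.const]
          filter_upwards [(isOpen_lt hr continuous_const).mem_nhds h] with y hy
          rw [z2 y (by linarith), zero_mul]
        have e2 : dt (fun t y => z y * Z t y) t x = 0 := by simp [dt, z2 x (by linarith)]
        have := mul_nonneg (mul_nonneg (c0 x) (add_nonneg zero_le_one (b4 x).1))
          (zero_le_one.trans o3)
        rw [e1, e2, z2 x (by linarith)]
        linarith
      · obtain ⟨-, o4, o5⟩ := c2 t ⟨ht.1.le, ht.2⟩ x (hDK x hx)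
        have o6 := (abs_le.1 (o5 ht.1)).2
        have o7 := mul_le_mul_of_nonneg_left (abs_le.1 o4).1 (q2 x).1
        have o8 := mul_le_mul_of_nonneg_right (q2 x).2 k2
        have o9 : 1 ≤ (1 + ζ x - z x) * Z t x := by
          refine one_le_mul_of_one_le_of_one_le ?_ o3
          rcases le_total (F.r x) (3 * (p + 3) + 1) with h' | h'
          · linarith [(b4 x).2.2.1 h', z1 x]
          · linarith [z4 x h', (b4 x).1]
        have o10 := mul_le_mul_of_nonneg_left o9 (show 0 ≤ Λ by linarith)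
        rw [(b1 x).2.2.2 h]
        linarith
  have sX : SmT n (Ico 0 (S + 1)) fun t x => ζ x * w t x := by
    refine loc hC Ico_subset_Icc_self fun x => ?_
    by_cases hx : 0 < σ x
    · exact ⟨_, hD, hx, fun e he => (sd (st s4 _) Subset.rfl _ e he).mul (w1 e he)⟩
    · refine ⟨{y | 3 * (p + 3) + 2 < F.r y}, isOpen_lt continuous_const hr,
        not_le.1 fun h => hx (hD1 x h), fun e _ => (contDiffOn_const (c := 0)).congr fun q hq => ?_⟩
      simp [ch, (b4 _).2.2.2 (le_of_lt hq.2.2)]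
  have w0 : ∀ t ∈ Icc 0 S, ∀ x, 0 < σ x → 0 ≤ w t x := fun t ht x hx => by
    linarith [lo t ht x hx, mul_nonneg (z0 x) (zero_le_one.trans (h1 t ht x).1)]
  have eq : ∀ t ∈ Ioc 0 S, ∀ x, F.r x ≤ 3 * (p + 3) → dt (fun t x => ζ x * w t x) t x
      = F.lap t (fun x => ζ x * w t x) x + (Λ + -Λ * β₁ x) * (Z t x - w t x) := fun t ht x h => by
    have e1 : F.lap t (fun y => ζ y * w t y) x = F.lap t (w t) x := by
      refine hC.congr t _ _ x ?_
      filter_upwards [(isOpen_lt hr continuous_const).mem_nhds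
        (show F.r x < 3 * (p + 3) + 1 by linarith)] with y hy
      rw [(b4 y).2.2.1 (le_of_lt hy), one_mul]
    have e2 : dt (fun t y => ζ y * w t y) t x = dt w t x := by
      simp [dt, (b4 x).2.2.1 (by linarith)]
    rw [e1, e2, (w2 x (hD1 x (by linarith))).2.2 t ⟨ht.1, by linarith [ht.2]⟩,
      (b5 x).2.2.1 (by linarith), (b4 x).2.2.1 (by linarith)]
    ring
  refine ⟨p + 3, by linarith, fun t x => ζ x * w t x, sX, fun t ht x => ⟨?_, ?_, fun a b => ?_⟩,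
    fun t ht x h => ?_⟩
  · rcases le_total (F.r x) (3 * (p + 3) + 2) with h | h
    · exact mul_nonneg (b4 x).1 (w0 t ht x (hD1 x h))
    · simp [(b4 x).2.2.2 h]
  · refine hρ' _ sX (fun y hy => ⟨?_, fun s hs => ?_, fun s hs => ?_⟩) t ht x
    · rw [(w2 y (hD1 y (by linarith))).1, z2 y (by linarith)]; simp
    · rw [(b4 y).2.2.1 (by linarith), one_mul]
      exact ⟨w0 s hs y (hD1 y (by linarith)),
        by linarith [up s hs y (hD1 y (by linarith)), (h1 s hs y).2]⟩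
    · rw [eq s ⟨hs.1, hs.2.le⟩ y (by linarith), (b1 y).2.2.1 (by linarith)]; ring
  · have := lo t ht x (hD1 x (by linarith))
    rw [z3 x a b] at this
    simp only [(b4 x).2.2.1 (by linarith)]
    linarith
  · rw [eq t ht x h]
    have := up t ⟨ht.1.le, ht.2⟩ x (hD1 x (by linarith))
    exact le_add_of_nonneg_right (mul_nonneg (c0 x) (by linarith))

end Vale.Agent.P253W.HK
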