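import Vale.Agent.P253W.HK.Defs
import Vale.Agent.P253W.FG.Rbl

/-!
# P253W, block HK: smooth substitutes for the square of the distance
-/

open scoped Manifold ContDiff Bundle ENNReal Topology ComplexConjugate ComplexOrder
open Bundle IsManifold MeasureTheory Set Metric Filter Vale.Agent.P253.Mfd Vale.Agent.P253Z
open Vale.Agent.P272.K (Cm dz dzb cHess jacM Chart)
open Vale.Agent.P253.R2.H451 (WeakLevi)
open Vale.Agent.P253.R2.H618 (leviSq_all)

set_option linter.all false

noncomputable section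

namespace Vale.Agent.P253W.HK

namespace Rpm

variable {n : ℕ}

theorem dz_add_c (f : Cm n → ℝ) (c : ℝ) (j : Fin n) :
    (dz j fun y => ((f y + c : ℝ) : ℂ)) = dz j fun y => (f y : ℂ) := by
  funext z
  simp only [dz, Complex.ofReal_add, fderiv_add_const]

theorem dzb_add_c (f : Cm n → ℝ) (c : ℝ) (j : Fin n) :
    (dzb j fun y => ((f y + c : ℝ) : ℂ)) = dzb j fun y => (f y : ℂ) := by
  funext z
  simp only [dzb, Complex.ofReal_add, fderiv_add_const]

theorem cHess_add_c (f : Cm n → ℝ) (c : ℝ) (z : Cm n) :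
    cHess (fun y => f y + c) z = cHess f z := by
  simp only [cHess, dzb_add_c]

theorem gm_add_c (f : Cm n → ℝ) (c : ℝ) (z : Cm n) :
    P272.K.AMP.gm (fun y => f y + c) (fun y => f y + c) z = FG.gg f z := by
  simp only [P272.K.AMP.gm, FG.gg, dz_add_c, dzb_add_c, P272.K.AMP.dzb_real_eq]

theorem psd_add {A B : Mx n} (hB : B.PosDef) {a b : ℝ} (hab : a ≤ b)
    (h : ((a : ℂ) • B - A).PosSemidef) : ((b : ℂ) • B - A).PosSemidef := by
  have h2 := hB.posSemidef.smul (a := ((b - a : ℝ) : ℂ)) (Complex.zero_le_real.2 (by linarith))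
  convert h2.add h using 1
  rw [Complex.ofReal_sub, sub_smul, sub_add_sub_cancel]

/-- the supremum of `d(q, o)² / 2 - d(x, q)²` is attained near `x` -/
theorem exists_max {X : Type} [MetricSpace X] [ProperSpace X] (o x : X) : ∃ q,
    dist x q ≤ 3 * dist x o ∧ ∀ p, dist p o ^ 2 / 2 - dist x p ^ 2 ≤
      dist q o ^ 2 / 2 - dist x q ^ 2 := by
  have hc : Continuous fun p : X => dist p o ^ 2 / 2 - dist x p ^ 2 := by fun_prop
  have h0 : 0 ≤ dist x o := dist_nonneg
  obtain ⟨q, hq, hm⟩ := (isCompact_closedBall x (3 * dist x o)).exists_isMaxOn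
    ⟨x, mem_closedBall_self (by positivity)⟩ hc.continuousOn
  refine ⟨q, mem_closedBall'.1 hq, fun p => ?_⟩
  by_cases hp : p ∈ closedBall x (3 * dist x o)
  · exact hm hp
  · have h1 : dist x o ^ 2 / 2 - dist x x ^ 2 ≤ dist q o ^ 2 / 2 - dist x q ^ 2 :=
      hm (mem_closedBall_self (by positivity))
    rw [mem_closedBall', not_le] at hp
    have h2 := dist_triangle p x o
    rw [dist_comm p x] at h2
    have h3 : dist p o ^ 2 ≤ (dist x p + dist x o) ^ 2 := pow_le_pow_left₀ dist_nonneg h2 2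
    rw [dist_self] at h1
    nlinarith

end Rpm

variable {n : ℕ} {M : Type} [MetricSpace M] [ChartedSpace (Cm n) M]
  [IsManifold 𝓘(ℂ, Cm n) 1 M] [IsManifold 𝓘(ℝ, Cm n) ∞ M]
  [RiemannianBundle (fun x : M => TangentSpace 𝓘(ℝ, Cm n) x)]
  [IsContMDiffRiemannianBundle 𝓘(ℝ, Cm n) ∞ (Cm n) (fun x : M => TangentSpace 𝓘(ℝ, Cm n) x)]
  [IsRiemannianManifold 𝓘(ℝ, Cm n) M] [CompleteSpace M] [ConnectedSpace M] [NoncompactSpace M]
  [MeasurableSpace M] [BorelSpace M] {μ : Measure M}

open Rpm

/-- **WLD** -/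
theorem wld (c : Ctx n μ) : WLD n M := by
  intro o
  have := properSpace_riemannian (Cm n) M
  have : Nonempty (Fin n) := ⟨⟨0, c.npos⟩⟩
  have hK := c.kahler
  exact Sup.weakLevi_of_discW hK (by fun_prop) fun x _ e he hx Y f U z₀ _ _ _ _ h =>
    ⟨fun _ => 1, fun _ => norm_one, fun η hη => (leviSq_all hK (fun y => Sch.nonneg (c.pos y)) o x
      e he hx Y _ (fun _ => norm_one) _ (h _ fun _ => norm_one) η hη).mono fun r hr => by
        rw [Finset.sum_neg_distrib]; linarith⟩

/-- **RP** -/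
theorem rp (a : B1a n M) (b : B1b n M) (h : FG.RHO n M) (o : M) : RP n o := by
  obtain ⟨K, ϱ, hK, hϱ⟩ := h o
  refine ⟨fun x => ϱ x + 2, K + 3, by linarith,
    fun e he z hz => (hϱ.sm e he z hz).add contDiffAt_const, fun x => ?_⟩
  have h0 : 0 ≤ dist x o := dist_nonneg
  obtain ⟨h1, h2⟩ := abs_le.1 (hϱ.near x)
  have hs := mem_chart_source (Cm n) x
  have ht := (pc n x).map_source hs
  refine ⟨?_, ?_, ?_, ?_⟩
  · nlinarith [sq_nonneg (dist x o - 1), mul_nonneg hK (by nlinarith : 0 ≤ ϱ x + 2)]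
  · nlinarith [mul_nonneg hK (sq_nonneg (1 + dist x o))]
  · have h3 := hϱ.hess _ (a.chart x) _ ht
    unfold Up P253W.hs
    rw [cHess_add_c]
    simpa using h3
  · have h3 := hϱ.grad _ (a.chart x) _ ht
    rw [(pc n x).left_inv hs] at h3
    unfold Gr dd
    rw [gm_add_c]
    exact psd_add (b.wpos _ (a.chart x) _ ht) (by nlinarith [sq_nonneg (1 + dist x o)]) h3

/-- **RM** -/
theorem rm (a : B1a n M) (b : B1b n M) (hw : WLD n M) (h : FG.RBL n M) (o : M) : RM n o := by
  have := properSpace_riemannian (Cm n) M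
  choose Q hQ hm using exists_max o
  obtain ⟨u, hu⟩ : ∃ u : M → ℝ, ∀ x, u x = dist (Q x) o ^ 2 / 2 - dist x (Q x) ^ 2 :=
    ⟨_, fun _ => rfl⟩
  have l1 : ∀ x y z, dist y x < 1 → dist z x < 1 → u y - u z ≤ (6 * dist x o + 8) * dist y z := by
    intro x y z hy hz
    have h1 := hm z (Q y)
    have h2 := hQ y
    have h3 := dist_triangle z y (Q y)
    have h4 := dist_triangle y x o
    have h5 := dist_triangle_right y z x
    have h6 : dist z (Q y) ^ 2 ≤ (dist z y + dist y (Q y)) ^ 2 := pow_le_pow_left₀ dist_nonneg h3 2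
    have h7 : 0 ≤ dist y z := dist_nonneg
    rw [dist_comm z y] at h6
    rw [hu y, hu z]
    nlinarith [mul_le_mul_of_nonneg_right
      (show dist y z + 2 * dist y (Q y) ≤ 6 * dist x o + 8 by linarith) h7]
  have l2 : ∀ x y z, dist y x < 1 → dist z x < 1 → |u y - u z| ≤ (6 * dist x o + 8) * dist y z :=
    fun x y z hy hz => abs_sub_le_iff.2 ⟨l1 x y z hy hz, by rw [dist_comm y z]; exact l1 x z y hz hy⟩
  have hc : Continuous u := continuous_iff_continuousAt.2 fun x => by
    have h1 : LipschitzOnWith (Real.toNNReal (6 * dist x o + 8)) u (ball x 1) :=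
      LipschitzOnWith.of_dist_le' fun y hy z hz => l2 x y z hy hz
    exact h1.continuousOn.continuousAt (ball_mem_nhds x one_pos)
  have hl : WeakLevi (Cm n) u (fun _ => -1) univ := by
    refine ⟨hc, fun e he W N hW hWt hWS hN hl f z₀ r hr hf hf' hmem => ?_⟩
    have h1 := (hw (Q (f z₀))).2 e he W N hW hWt hWS hN hl f z₀ r hr hf hf' hmem
    have h2 : ContinuousOn (fun z => N (e (f z))) (closedBall z₀ r) :=
      hN.continuousOn.comp (e.continuousOn.comp hf fun z hz => (hmem z hz).1)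
        fun z hz => (hmem z hz).2
    have h3 : ∀ v : M → ℝ, Continuous v → CircleIntegrable (fun z => v (f z) - N (e (f z))) z₀ r :=
      fun v hv => (((hv.comp_continuousOn hf).sub h2).mono sphere_subset_closedBall).circleIntegrable
        hr.le
    have h4 := h3 (fun x => -dist x (Q (f z₀)) ^ 2) (by fun_prop)
    have h5 := Real.circleAverage_mono (h4.add (circleIntegrable_const
      (dist (Q (f z₀)) o ^ 2 / 2) z₀ r)) (h3 u hc) fun z _ => by
        have := hm (f z) (Q (f z₀))
        simp only [Pi.add_apply]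
        rw [hu (f z)]
        linarith
    rw [Real.circleAverage_add h4 (circleIntegrable_const _ z₀ r), Real.circleAverage_const] at h5
    rw [hu (f z₀)]
    linarith
  obtain ⟨v, v1, v2, v3⟩ := h u (fun _ => -1) (fun x => 6 * dist x o + 8) (fun _ => 1)
    continuous_const (by fun_prop) continuous_const (fun x => by positivity) (fun _ => one_pos) hl
    fun x => by
      filter_upwards [prod_mem_nhds (ball_mem_nhds x one_pos) (ball_mem_nhds x one_pos)] with p hp
      exact l2 x _ _ hp.1 hp.2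
  refine ⟨fun x => v x + 2, 16200, by norm_num,
    fun e he z hz => (v1 e he z hz).add contDiffAt_const, fun x => ?_⟩
  have h0 : 0 ≤ dist x o := dist_nonneg
  obtain ⟨h1, h2⟩ := abs_le.1 (v2 x)
  have hs := mem_chart_source (Cm n) x
  have ht := (pc n x).map_source hs
  have h3 := hm x x
  have h4 := dist_triangle (Q x) x o
  have h5 : dist (Q x) o ^ 2 ≤ (dist (Q x) x + dist x o) ^ 2 := pow_le_pow_left₀ dist_nonneg h4 2
  rw [dist_comm (Q x) x] at h5
  rw [dist_self, ← hu x] at h3
  have h6 : u x ≤ dist x o ^ 2 := by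
    rw [hu x]; nlinarith [sq_nonneg (dist x (Q x) - dist x o)]
  obtain ⟨h7, h8⟩ := v3 _ (a.chart x) _ ht
  have hp := b.wpos _ (a.chart x) _ ht
  refine ⟨?_, ?_, ?_, ?_⟩
  · nlinarith [sq_nonneg (dist x o - 1)]
  · nlinarith
  · unfold Lo P253W.hs
    rw [cHess_add_c]
    have h9 := psd_add (A := -cHess (fun y => v ((pc n x).symm y)) (pc n x x)) hp
      (show (2 : ℝ) ≤ 16200 by norm_num) (by convert h7 using 1; norm_num [add_comm])
    convert h9 using 1
    rw [sub_neg_eq_add, add_comm]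
  · rw [(pc n x).left_inv hs] at h8
    unfold Gr dd
    rw [gm_add_c]
    exact psd_add hp (by nlinarith) h8

/-- **RP** from the standing hypotheses -/
theorem rp_of (c : Ctx n μ) (o : M) : RP n o := by
  have : Nonempty (Fin n) := ⟨⟨0, c.npos⟩⟩
  exact rp b1a (b1b c.kahler b1a) (FG.rho c) o

/-- **RM** from the standing hypotheses -/
theorem rm_of (c : Ctx n μ) (o : M) : RM n o := by
  have : Nonempty (Fin n) := ⟨⟨0, c.npos⟩⟩
  exact rm b1a (b1b c.kahler b1a) (wld c) (FG.rbl c.kahler b1a (b1b c.kahler b1a)) o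

end Vale.Agent.P253W.HK
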