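import Vale.Agent.P253W.HK.Defs

/-!
# P253W, block HK, row STA: static weights
-/

set_option linter.unusedSectionVars false

open scoped Manifold ContDiff Bundle Topology
open Bundle Set Metric Filter Vale.Agent.P253Z
open Vale.Agent.P272.K (Cm Chart)

noncomputable section

namespace Vale.Agent.P253W.HK

theorem sta_prof {β : ℝ → ℝ} {L : ℝ} (h : Prof β L) (K b : ℝ) (hK : 0 ≤ K) :
    ∃ φ : ℝ → ℝ, ContDiff ℝ ∞ φ ∧ ∀ a, φ a = Real.exp (-K * a) * β (a - b) ∧ deriv φ a ≤ 0 ∧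
      -deriv φ a ≤ (K + L) * Real.exp (-K * a) ∧
      |deriv (deriv φ) a| ≤ (K ^ 2 + 2 * K * L + L) * Real.exp (-K * a) := by
  have h1 := (contDiff_infty_iff_deriv.1 h.sm).2
  have e0 : ∀ a, HasDerivAt (fun a => Real.exp (-K * a)) (Real.exp (-K * a) * -K) a := fun a => by
    simpa using ((hasDerivAt_id a).const_mul (-K)).exp
  have e1 : ∀ a, HasDerivAt (fun a => β (a - b)) (deriv β (a - b)) a := fun a =>
    (h.sm.differentiable (by simp) _).hasDerivAt.comp_sub_const a b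
  have e2 : ∀ a, HasDerivAt (fun a => deriv β (a - b)) (deriv (deriv β) (a - b)) a := fun a =>
    (h1.differentiable (by simp) _).hasDerivAt.comp_sub_const a b
  have d1 : deriv (fun a => Real.exp (-K * a) * β (a - b)) =
      fun a => Real.exp (-K * a) * (-K * β (a - b) + deriv β (a - b)) := funext fun a => by
    rw [((e0 a).fun_mul (e1 a)).deriv]; ring
  refine ⟨fun a => Real.exp (-K * a) * β (a - b), (contDiff_const.mul contDiff_id).exp.mul
    (h.sm.comp (contDiff_id.sub contDiff_const)), fun a => ⟨rfl, ?_, ?_, ?_⟩⟩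
  · rw [d1]
    exact mul_nonpos_of_nonneg_of_nonpos (Real.exp_pos _).le
      (by nlinarith [h.mem (a - b), h.d1 (a - b)])
  · rw [d1, mul_comm, ← mul_neg]
    exact mul_le_mul_of_nonneg_left (by nlinarith [h.mem (a - b), h.d1 (a - b)])
      (Real.exp_pos _).le
  · rw [d1, ((e0 a).fun_mul (((e1 a).const_mul (-K)).fun_add (e2 a))).deriv, mul_assoc, ← mul_add,
      abs_mul, abs_of_pos (Real.exp_pos _), mul_comm]
    refine mul_le_mul_of_nonneg_right (abs_le.2 ⟨?_, ?_⟩) (Real.exp_pos _).le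
    · nlinarith [h.mem (a - b), h.d1 (a - b), abs_le.1 (h.d2 (a - b)), sq_nonneg K,
        mul_nonneg (sq_nonneg K) (h.mem (a - b)).1, mul_nonneg hK (neg_nonneg.2 (h.d1 (a - b)).2)]
    · nlinarith [h.mem (a - b), h.d1 (a - b), abs_le.1 (h.d2 (a - b)),
        mul_le_mul_of_nonneg_left (h.mem (a - b)).2 (sq_nonneg K),
        mul_le_mul_of_nonneg_left (h.d1 (a - b)).1 hK]

variable {n : ℕ} {M : Type} [MetricSpace M] [ChartedSpace (Cm n) M]
  [RiemannianBundle (fun x : M => TangentSpace 𝓘(ℝ, Cm n) x)] {F : Flow n M}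

theorem sta (C : Cal F) (h2 : F.Bas2) {s A : ℝ} {q : M → ℝ} (hs : |s| ≤ 1) (hA : 1 ≤ A)
    (hq : Sm n q) (h : ∀ x, (1 + F.r x) ^ 2 ≤ A * q x ∧ q x ≤ A * (1 + F.r x) ^ 2 ∧ ∀ t, 0 ≤ t →
      gr F t q q x ≤ A * (1 + F.r x) ^ 2 * F.y t x ∧ -(A * F.y t x) ≤ s * F.lap t q x) :
    STA F s := by
  intro K
  obtain ⟨β, L, hβ⟩ := exists_prof
  have hL : 0 ≤ L := (abs_nonneg _).trans (hβ.d2 0)
  have r1 : ∀ x, 0 < 1 + F.r x := fun x => add_pos_of_pos_of_nonneg one_pos dist_nonneg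
  have q0 : ∀ x, 0 < q x := fun x =>
    (mul_pos_iff_of_pos_left (by linarith)).1 ((pow_pos (r1 x) 2).trans_le (h x).1)
  obtain ⟨D, hD⟩ : ∃ D : ℝ, D = (K + L) * (A + A ^ 2) + (K ^ 2 + 2 * K * L + L) * A ^ 2 := ⟨_, rfl⟩
  have hD0 : 0 ≤ D := by rw [hD]; positivity
  have hAK : 1 ≤ A ^ K := one_le_pow₀ hA
  obtain ⟨E, hE⟩ : ∃ E : ℝ, E = (K + L) ^ 2 * (A ^ K) ^ 2 * A ^ 3 := ⟨_, rfl⟩
  have hE0 : 0 ≤ E := by rw [hE]; positivity
  have hDA : 0 ≤ D * A ^ K * A := by positivity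
  refine ⟨A ^ K + D * A ^ K * A + E, by linarith, fun ρ => ?_⟩
  obtain ⟨φ, sφ, hφ⟩ := sta_prof hβ K (Real.log (A * (1 + |ρ|) ^ 2)) K.cast_nonneg
  have sτ : Sm n fun x => Real.log (q x) := fun e he z hz => (hq e he z hz).log (q0 _).ne'
  refine ⟨A * Real.exp (Real.log (A * (1 + |ρ|) ^ 2) + 1), fun x => φ (Real.log (q x)),
    fun e he z hz => sφ.contDiffAt.comp z (sτ e he z hz), fun x => ?_⟩
  have hr := r1 x
  have hq0 := q0 x
  have ex : Real.exp (-K * Real.log (q x)) = 1 / q x ^ K := by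
    rw [neg_mul, Real.exp_neg, Real.exp_nat_mul, Real.exp_log hq0, one_div]
  have i1 : 1 / q x ≤ A / (1 + F.r x) ^ 2 := by
    rw [div_le_div_iff₀ hq0 (by positivity), one_mul]; exact (h x).1
  have iK : 1 / q x ^ K ≤ A ^ K / (1 + F.r x) ^ (2 * K) := by
    rw [pow_mul, ← div_pow, ← one_div_pow]; gcongr
  obtain ⟨p0, p1, p2, p3⟩ := hφ (Real.log (q x))
  rw [ex] at p0 p2 p3
  have b0 := hβ.mem (Real.log (q x) - Real.log (A * (1 + |ρ|) ^ 2))
  beta_reduce
  refine ⟨?_, ?_, fun hx => ?_, fun hx => ?_, fun t ht => ?_⟩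
  · rw [p0]; exact mul_nonneg (by positivity) b0.1
  · rw [p0]
    refine (mul_le_of_le_one_right (by positivity) b0.2).trans (iK.trans ?_)
    gcongr; linarith
  · rw [p0, hβ.zero, mul_zero]
    rw [le_sub_iff_add_le', Real.le_log_iff_exp_le hq0]
    refine le_of_mul_le_mul_left (hx.trans (le_trans ?_ (h x).1)) (by linarith)
    have : 0 ≤ F.r x := dist_nonneg
    linarith [sq_nonneg (F.r x)]
  · have h1 : q x ≤ A * (1 + |ρ|) ^ 2 := (h x).2.1.trans (by gcongr; exact hx.trans (le_abs_self ρ))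
    rw [p0, hβ.one _ (sub_nonpos.2 (Real.log_le_log hq0 h1)), mul_one]
    have h3 : q x ^ K ≤ A ^ K * (1 + F.r x) ^ (2 * K) := by
      rw [pow_mul, ← mul_pow]; gcongr; exact (h x).2.1
    rw [mul_one_div, div_le_div_iff₀ (by positivity) (by positivity), one_mul]
    exact h3.trans (by gcongr; linarith)
  · obtain ⟨g1, g2⟩ := (h x).2.2 t ht
    have y0 : 0 ≤ F.y t x := (Nat.cast_nonneg n).trans (h2.y_ge t ht x)
    have g0 := C.gr_nonneg t ht q x
    have cq := C.c2 q hq x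
    have cτ := C.c2 _ sτ x
    have dl : deriv (deriv Real.log) (q x) = -(1 / q x ^ 2) := by
      rw [Real.deriv_log', deriv_inv, one_div]
    have l1 := C.comp t Real.log q x (Real.contDiffAt_log.2 hq0.ne') cq
    have l2 := C.gr_comp t Real.log Real.log q q x (Real.differentiableAt_log hq0.ne')
      (Real.differentiableAt_log hq0.ne') cq cq
    rw [dl, Real.deriv_log] at l1
    rw [Real.deriv_log] at l2
    have l3 := C.comp t φ _ x (sφ.contDiffAt.of_le (by norm_cast)) cτ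
    have l4 := C.gr_comp t φ φ _ _ x (sφ.differentiable (by simp) _) (sφ.differentiable (by simp) _)
      cτ cτ
    obtain ⟨Y, hY⟩ : ∃ Y, Y = F.y t x * (1 / q x) := ⟨_, rfl⟩
    have Y0 : 0 ≤ Y := by rw [hY]; positivity
    have m1 : 1 / q x ^ 2 * gr F t q q x ≤ A ^ 2 * Y := by
      have : gr F t q q x ≤ A * (A * q x) * F.y t x := g1.trans (by gcongr; exact (h x).1)
      calc 1 / q x ^ 2 * gr F t q q x ≤ 1 / q x ^ 2 * (A * (A * q x) * F.y t x) := by gcongr
        _ = _ := by rw [hY]; field_simp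
    have m0 : 0 ≤ 1 / q x ^ 2 * gr F t q q x := by positivity
    have m2 : gr F t (fun x => Real.log (q x)) (fun x => Real.log (q x)) x =
        1 / q x ^ 2 * gr F t q q x := by rw [l2]; field_simp
    have m3 : -((A + A ^ 2) * Y) ≤ s * F.lap t (fun x => Real.log (q x)) x := by
      have k1 : -(A * Y) ≤ (q x)⁻¹ * (s * F.lap t q x) := by
        rw [hY, one_div]
        linarith [mul_le_mul_of_nonneg_left g2 (inv_pos.2 hq0).le]
      rw [l1]
      linarith [mul_nonneg (sub_nonneg.2 (abs_le.1 hs).2) m0]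
    have iY : Y ≤ F.y t x * (A / (1 + F.r x) ^ 2) := by rw [hY]; gcongr
    refine ⟨?_, ?_⟩
    · have k1 : deriv φ (Real.log (q x)) * (s * F.lap t (fun x => Real.log (q x)) x) ≤
          (K + L) * (1 / q x ^ K) * ((A + A ^ 2) * Y) := by
        have := mul_le_mul_of_nonneg_left m3 (neg_nonneg.2 p1)
        linarith [mul_le_mul_of_nonneg_right p2 (by positivity : 0 ≤ (A + A ^ 2) * Y)]
      have k2 : s * (deriv (deriv φ) (Real.log (q x)) * (1 / q x ^ 2 * gr F t q q x)) ≤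
          (K ^ 2 + 2 * K * L + L) * (1 / q x ^ K) * (A ^ 2 * Y) := by
        refine (le_abs_self _).trans ?_
        rw [abs_mul, abs_mul, abs_of_nonneg m0]
        refine (mul_le_of_le_one_left (by positivity) hs).trans ?_
        gcongr
      calc _ ≤ D * (1 / q x ^ K) * Y := by rw [l3, m2, hD]; linarith
        _ ≤ D * (A ^ K / (1 + F.r x) ^ (2 * K)) * (F.y t x * (A / (1 + F.r x) ^ 2)) := by gcongr
        _ = D * A ^ K * A * F.y t x / (1 + F.r x) ^ (2 * K + 2) := by rw [pow_add]; field_simp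
        _ ≤ _ := by gcongr; linarith
    · have k1 : deriv φ (Real.log (q x)) * deriv φ (Real.log (q x)) ≤
          ((K + L) * (A ^ K / (1 + F.r x) ^ (2 * K))) ^ 2 := by
        rw [← neg_mul_neg, ← sq]
        exact pow_le_pow_left₀ (neg_nonneg.2 p1) (p2.trans (by gcongr)) 2
      calc _ ≤ ((K + L) * (A ^ K / (1 + F.r x) ^ (2 * K))) ^ 2 *
            (A ^ 2 * (F.y t x * (A / (1 + F.r x) ^ 2))) := by
            rw [l4, m2]
            exact mul_le_mul k1 (m1.trans (by gcongr)) m0 (sq_nonneg _)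
        _ = E * F.y t x / (1 + F.r x) ^ (4 * K + 2) := by
            rw [hE, show 4 * K + 2 = 2 * K * 2 + 2 by ring, pow_add, pow_mul _ (2 * K)]
            field_simp
        _ ≤ _ := by gcongr; linarith

theorem sta_pos (C : Cal F) (h2 : F.Bas2) (h : RM n F.o) : STA F 1 := by
  obtain ⟨q, A, hA, hq, h⟩ := h
  exact sta C h2 (by simp) hA hq fun x => ⟨(h x).1, (h x).2.1, fun t ht =>
    ⟨C.gr_le t ht q _ x (h x).2.2.2, by rw [one_mul]; exact C.lo t ht q A x (h x).2.2.1⟩⟩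

theorem sta_neg (C : Cal F) (h2 : F.Bas2) (h : RP n F.o) : STA F (-1) := by
  obtain ⟨q, A, hA, hq, h⟩ := h
  refine sta C h2 (A := 2 * A) (by simp) (by linarith) hq fun x => ?_
  obtain ⟨a1, a2, a3, a4⟩ := h x
  have b1 : 0 ≤ (1 + F.r x) ^ 2 := sq_nonneg _
  have b2 : 0 ≤ A * (1 + F.r x) ^ 2 := by positivity
  change (1 + F.r x) ^ 2 ≤ _ at a1
  change _ ≤ A * (1 + F.r x) ^ 2 at a2
  refine ⟨by linarith, by linarith, fun t ht => ?_⟩
  have y0 : 0 ≤ F.y t x := (Nat.cast_nonneg n).trans (h2.y_ge t ht x)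
  have c1 : _ ≤ A * (1 + F.r x) ^ 2 * F.y t x := C.gr_le t ht q _ x a4
  have c2 := C.up t ht q 2 x a3
  exact ⟨by nlinarith [mul_nonneg b2 y0], by nlinarith⟩

end Vale.Agent.P253W.HK
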