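import Vale.Agent.P253W.HK.Defs

/-!
# P253W, block HK, row SUP: the barriers
-/

set_option linter.unusedSectionVars false

open scoped Manifold ContDiff Bundle Topology
open Bundle Set Metric Filter Vale.Agent.P253Z
open Vale.Agent.P272.K (Cm Chart)

noncomputable section

namespace Vale.Agent.P253W.HK

variable {n : ℕ} {M : Type} [MetricSpace M] [ChartedSpace (Cm n) M]
  [RiemannianBundle (fun x : M => TangentSpace 𝓘(ℝ, Cm n) x)] {F : Flow n M}

theorem C2.lin {f h : M → ℝ} {x : M} (hf : C2 n f x) (hh : C2 n h x) (a b : ℝ) :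
    C2 n (fun y => a * f y + b * h y) x :=
  (contDiffAt_const.mul hf).add (contDiffAt_const.mul hh)

/-- the first barrier -/
theorem sup_P (C : Cal F) (hF : F.Is) (h1 : F.Bas1) (h2 : F.Bas2) (hp : RP n F.o) {S : ℝ}
    (hS : 0 < S) : ∃ (P : ℝ → M → ℝ) (c A : ℝ), 0 < c ∧ 0 ≤ A ∧ SmT n (Ici 0) P ∧
      (∀ t ∈ Icc 0 S, ∀ x, c * (1 + F.r x) ^ 2 ≤ P t x ∧ P t x ≤ A * maj F x) ∧
      ∀ t, 0 < t → ∀ x, ∃ d, HasDerivAt (fun s => P s x) d t ∧
        F.y t x / 2 + F.lap t (P t) x ≤ d := by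
  obtain ⟨p, K, hK, sp, hp⟩ := hp
  obtain ⟨U, hU⟩ := hF.up
  obtain ⟨a, ha⟩ : ∃ a : ℝ, a = 1 / (48 * K) := ⟨_, rfl⟩
  have a0 : 0 < a := by rw [ha]; positivity
  have a1 : a ≤ 1 / 4 := by
    rw [ha]; exact one_div_le_one_div_of_le (by norm_num) (by linarith)
  obtain ⟨b, hb⟩ : ∃ b : ℝ, b = ((S + 1) * U) ^ 2 / (4 * a) := ⟨_, rfl⟩
  have b0 : 0 ≤ b := by rw [hb]; positivity
  have hy := hF.ys (S + 1) a b (by linarith) a0 a1 fun x => by
    have e1 : 4 * a * b = ((S + 1) * U) ^ 2 := by rw [hb]; field_simp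
    refine (mul_le_mul_of_nonneg_left (hU x) (by linarith)).trans
      (le_of_mul_le_mul_left ?_ (by positivity : 0 < 4 * a))
    nlinarith [sq_nonneg (2 * a * (1 + F.r x) - (S + 1) * U)]
  refine ⟨fun t x => 1 * (1 / 4 * p x + -1 * F.ψ t x) +
    1 * (-(S + 1 - t) * F.u t x + 1 * (n * t + b)), 1 / (8 * K), K + 2 * S + 1 + n * S + b,
    by positivity, by positivity, fun e he => ?_, fun t ht x => ?_, fun t ht x => ?_⟩
  · have s1 : ContDiffOn ℝ ∞ (fun q : ℝ × Cm n => p (e.symm q.2)) (Ici 0 ×ˢ e.target) :=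
      fun q hq => ((sp e he q.2 hq.2).comp q contDiffAt_snd).contDiffWithinAt
    have s2 := hF.sm e he
    have s3 := h1.u_sm e he
    exact (contDiffOn_const.mul ((contDiffOn_const.mul s1).add (contDiffOn_const.mul s2))).add
      (contDiffOn_const.mul (((contDiffOn_const.sub contDiffOn_fst).neg.mul s3).add
        (contDiffOn_const.mul ((contDiffOn_const.mul contDiffOn_fst).add contDiffOn_const))))
  · obtain ⟨p1, p2, -⟩ := hp x
    change (1 + F.r x) ^ 2 ≤ _ at p1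
    change _ ≤ K * (1 + F.r x) ^ 2 at p2
    have e1 := hy t ht.1 x
    have e2 : 1 / (8 * K) * (1 + F.r x) ^ 2 + 6 * a * (1 + F.r x) ^ 2 ≤ 1 / 4 * p x := by
      have : 1 / (8 * K) * (1 + F.r x) ^ 2 + 6 * a * (1 + F.r x) ^ 2 =
        (1 + F.r x) ^ 2 / (4 * K) := by rw [ha]; field_simp; ring
      rw [this, div_le_iff₀ (by positivity)]; linarith
    refine ⟨by linarith, ?_⟩
    have e3 := (h2.psi_le t ht.1 x).1
    have e4 : F.u 0 x ≤ F.u t x := hF.mono x self_mem_Ici ht.1 ht.1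
    have e5 := neg_abs_le (F.u 0 x)
    have e6 : 1 ≤ (1 + F.r x) ^ 2 := one_le_pow₀ (le_add_of_nonneg_right dist_nonneg)
    have e7 := abs_nonneg (F.u 0 x)
    have e8 : -(S + 1 - t) * F.u t x ≤ (S + 1 - t) * |F.u 0 x| := by nlinarith [ht.2]
    have e9 : -F.ψ t x ≤ t * |F.u 0 x| := by nlinarith [ht.1]
    have e10 : (n : ℝ) * t ≤ n * S := mul_le_mul_of_nonneg_left ht.2 n.cast_nonneg
    have e11 : 0 ≤ n * S + b := by positivity
    rw [maj]
    nlinarith [mul_le_mul_of_nonneg_left e6 e11, mul_nonneg e11 e7, mul_nonneg hS.le e7,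
      mul_nonneg (zero_le_one.trans hK) e7, mul_nonneg hS.le (zero_le_one.trans e6),
      mul_nonneg (zero_le_one.trans hK) (zero_le_one.trans e6)]
  · refine ⟨_, (((hasDerivAt_const t _).fun_add ((hF.eq t ht x).const_mul (-1))).const_mul 1).fun_add
      ((((((hasDerivAt_id' t).const_sub (S + 1)).fun_neg).fun_mul (h2.u_t t ht x)).fun_add
        ((((hasDerivAt_id' t).const_mul (n : ℝ)).add_const b).const_mul 1)).const_mul 1), ?_⟩
    have c1 := C.c2 p sp x
    have c2 := C.c2 _ (h1.sm_at _ hF.sm t ht.le) x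
    have c3 := C.c2 _ (h1.sm_at _ h1.u_sm t ht.le) x
    have c4 : C2 n (fun _ => n * t + b) x := contDiffAt_const
    have l1 := C.lin t 1 1 _ _ x (c1.lin c2 (1 / 4) (-1)) (c3.lin c4 (-(S + 1 - t)) 1)
    rw [C.lin t _ _ _ _ x c1 c2, C.lin t _ _ _ _ x c3 c4, C.const, h2.lap_psi t ht.le] at l1
    have l2 := C.up t ht.le p 2 x (hp x).2.2.1
    rw [l1, Flow.R]
    linarith

theorem super (C : Cal F) (hF : F.Is) (h1 : F.Bas1) (h2 : F.Bas2) (hp : RP n F.o) (hu : UPB F)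
    (hr : RED F) : F.SUPER := by
  intro S hS
  obtain ⟨P, c, A, hc, hA, sP, bP, dP⟩ := sup_P C hF h1 h2 hp hS
  obtain ⟨U, hU, hu⟩ := hu S
  obtain ⟨V, hV⟩ := hF.up
  have sub : Ico 0 (S + 1) ⊆ Ici (0 : ℝ) := Ico_subset_Ici_self
  refine ⟨P, c, hc, fun e he => (sP e he).mono (prod_mono sub Subset.rfl),
    fun t ht x => (bP t ht x).1, fun t ht x => ?_, fun ρ₀ k ε hε => ?_⟩
  · obtain ⟨d, hd, hd'⟩ := dP t ht.1 x
    rwa [dt, hd.deriv]
  obtain ⟨a, ha⟩ : ∃ a : ℝ, a = (U + |V|) / c := ⟨_, rfl⟩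
  have a0 : 0 ≤ a := by rw [ha]; positivity
  have u0 := h1.sm_at _ h1.u_sm 0 le_rfl
  have key : ∀ t ∈ Icc 0 S, ∀ x, 1 ≤ a * P t x + 1 * (-1 * F.u 0 x + 1 * (n + 1)) ∧
      1 + Real.log (1 + F.y t x) ≤ a * P t x + 1 * (-1 * F.u 0 x + 1 * (n + 1)) := fun t ht x => by
    have e1 : (U + |V|) * (1 + F.r x) ^ 2 ≤ a * P t x := by
      have := mul_le_mul_of_nonneg_left (bP t ht x).1 a0
      rwa [← mul_assoc, ha, div_mul_cancel₀ _ hc.ne', ← ha] at this
    have e2 := hu t ht x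
    have e3 : F.u 0 x ≤ F.u t x := hF.mono x self_mem_Ici ht.1 ht.1
    have e4 : Real.log (1 + F.y t x) ≤ n + (F.u t x - F.u 0 x) := by
      have y0 : 0 ≤ F.y t x := (Nat.cast_nonneg n).trans (h2.y_ge t ht.1 x)
      rw [Real.log_le_iff_le_exp (by linarith), Real.exp_add]
      have := h2.y_le t ht.1 x
      nlinarith [Real.add_one_le_exp (n : ℝ), Real.one_le_exp (sub_nonneg.2 e3),
        Real.exp_pos (F.u t x - F.u 0 x)]
    have e5 : 0 ≤ |V| * (1 + F.r x) ^ 2 := by positivity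
    have e6 : (0 : ℝ) ≤ n := n.cast_nonneg
    exact ⟨by linarith, by linarith⟩
  obtain ⟨k', hk0, hk⟩ : ∃ k' : ℝ, 0 < k' ∧ k ≤ k' := ⟨|k| + 1, by positivity, by
    linarith [le_abs_self k]⟩
  obtain ⟨ρ, hρ, X, sX, bX, dX⟩ := hr S hS
    (fun t x => a * P t x + 1 * (-1 * F.u 0 x + 1 * (n + 1))) (a * A + n + 2)
    (fun e he => (contDiffOn_const.mul (sP e he)).add (contDiffOn_const.mul
      ((contDiffOn_const.mul fun q hq =>
        ((u0 e he q.2 hq.2).comp q contDiffAt_snd).contDiffWithinAt).add contDiffOn_const)))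
    (fun t ht x => ⟨(key t ht x).1, by
      have e1 := mul_le_mul_of_nonneg_left (bP t ht x).2 a0
      have e2 : 1 ≤ (1 + F.r x) ^ 2 := one_le_pow₀ (le_add_of_nonneg_right dist_nonneg)
      have e3 := neg_abs_le (F.u 0 x)
      have e4 := abs_nonneg (F.u 0 x)
      have e5 : (0 : ℝ) ≤ n := n.cast_nonneg
      have e6 : 1 ≤ maj F x := by rw [maj]; linarith
      have e7 : -F.u 0 x ≤ maj F x := by rw [maj]; linarith
      nlinarith [mul_le_mul_of_nonneg_left e6 e5]⟩)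
    (fun t ht x => by
      obtain ⟨d, hd, hd'⟩ := dP t ht.1 x
      have c1 := C.c2 _ (h1.sm_at _ sP t ht.1.le) x
      have c2 := C.c2 _ u0 x
      have c3 : C2 n (fun _ => (n : ℝ) + 1) x := contDiffAt_const
      have l1 := C.lin t a 1 _ _ x c1 (c2.lin c3 (-1) 1)
      have l2 := C.lo t ht.1.le _ 0 x (C.u0 x)
      have y0 : 0 ≤ F.y t x := (Nat.cast_nonneg n).trans (h2.y_ge t ht.1.le x)
      rw [C.lin t _ _ _ _ x c2 c3, C.const] at l1
      rw [l1, dt, ((hd.const_mul a).add_const _).deriv]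
      nlinarith [mul_le_mul_of_nonneg_left hd' a0, mul_nonneg a0 y0])
    ρ₀ (ε / (2 * k')) (by positivity)
  refine ⟨ρ, hρ, fun t x => 2 * k' * X t x, fun e he => contDiffOn_const.mul (sX e he),
    fun t ht x => mul_nonneg (by positivity) (bX t ht x).1, fun t ht x hx => ?_,
    fun t ht x hx => ?_, fun t ht x hx hx' => ?_⟩
  · have ht' : t ∈ Ico 0 (S + 1) := ⟨ht.1.le, ht.2.trans_lt (lt_add_one S)⟩
    have c1 := C.c2 _ (C.sm _ X sX t ht') x
    have l1 := C.lin t (2 * k') 0 _ _ x c1 c1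
    simp only [zero_mul, add_zero] at l1
    rw [l1, dt, deriv_const_mul_field]
    exact mul_le_mul_of_nonneg_left (dX t ht x hx) (by positivity)
  · exact (le_div_iff₀' (by positivity)).1 ((bX t ht x).2.1 hx)
  · have e1 := (bX t ht x).2.2 hx hx'
    have e2 := (key t ht x).2
    have y0 : 0 ≤ F.y t x := (Nat.cast_nonneg n).trans (h2.y_ge t ht.1 x)
    have e3 : 0 ≤ 1 + Real.log (1 + F.y t x) :=
      add_nonneg zero_le_one (Real.log_nonneg (by linarith))
    have e4 : 0 ≤ ε * P t x := mul_nonneg hε.le (le_trans (by positivity) (bP t ht x).1)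
    have e5 := mul_le_mul_of_nonneg_right hk e3
    have e6 := mul_le_mul_of_nonneg_left (e2.trans e1) hk0.le
    linarith

end Vale.Agent.P253W.HK
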