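import Vale.Agent.P253W.HK.U1

/-!
# P253W, block HK, row TFT: the derivative of an integral
-/

open scoped Manifold ContDiff Bundle ENNReal Topology
open Bundle MeasureTheory Set Metric Filter Vale.Agent.P253Z
open Vale.Agent.P272.K (Cm Chart)

noncomputable section

namespace Vale.Agent.P253W.HK

variable {n : ℕ} {M : Type} [MetricSpace M] [ChartedSpace (Cm n) M]
  [RiemannianBundle (fun x : M => TangentSpace 𝓘(ℝ, Cm n) x)] [ProperSpace M]
  [MeasurableSpace M] [BorelSpace M] {μ : Measure M} {F : Flow n M}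

open U1a in
/-- **TFT** -/
theorem tft (C : Cal F) (h1 : F.Bas1) (h2 : F.Bas2) (b3 : B3 n μ) : TFT F μ := by
  intro T ρ a sa ha s t s0 st tT
  have : IsFiniteMeasureOnCompacts μ := ⟨fun K hK => b3.fin K hK⟩
  obtain ⟨a', ca', da⟩ := C.cont_dt T a sa
  have sub : Icc s t ⊆ Ico 0 T := fun τ h => ⟨s0.trans h.1, h.2.trans_lt tT⟩
  have sub' : Ioo s t ⊆ Ioo 0 T := Ioo_subset_Ioo s0 tT.le
  have m1 : Icc s t ×ˢ (univ : Set M) ⊆ Ico 0 T ×ˢ univ := prod_mono sub le_rfl
  have m2 : Icc s t ×ˢ (univ : Set M) ⊆ Ici 0 ×ˢ univ :=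
    m1.trans (prod_mono Ico_subset_Ici_self le_rfl)
  have ca := (cont C sa).mono m1
  have cv := (vol_cont h1).mono m2
  have cG : ContinuousOn (fun q : ℝ × M => (a' q.1 q.2 - F.R q.1 q.2 * a q.1 q.2) * vol F q.1 q.2)
      (Icc s t ×ˢ univ) := ((ca'.mono m1).sub (((h1.sm_cont _ h1.R_sm).mono m2).mul ca)).mul cv
  have e : ∀ τ ∈ Ioo s t, ∀ x, dt a τ x = a' τ x := fun τ h x => (da τ (sub' h) x).deriv
  have hi : Integrable (Function.uncurry fun τ x => (dt a τ x - F.R τ x * a τ x) * vol F τ x)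
      ((volume.restrict (Ioo s t)).prod μ) := by
    rw [Measure.restrict_prod_eq_prod_univ]
    refine IntegrableOn.of_forall_sdiff_eq_zero (s := Ioo s t ×ˢ closedBall F.o ρ) ?_
      (measurableSet_Ioo.prod MeasurableSet.univ) fun q hq => ?_
    · refine (((cG.mono (prod_mono le_rfl (subset_univ _))).integrableOn_compact
        (isCompact_Icc.prod (isCompact_closedBall F.o ρ))).mono_set
        (prod_mono Ioo_subset_Icc_self le_rfl)).congr_fun (fun q hq => ?_)
        (measurableSet_Ioo.prod measurableSet_closedBall)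
      simp only [Function.uncurry, e _ hq.1]
    · have hx : ρ ≤ F.r q.2 := (not_le.1 fun h => hq.2 ⟨hq.1.1, h⟩).le
      have d0 : dt a q.1 q.2 = 0 := by
        rw [dt, EventuallyEq.deriv_eq (f := fun _ => 0), deriv_const]
        filter_upwards [isOpen_Ioo.mem_nhds (sub' hq.1.1)] with τ h
        exact ha τ (Ioo_subset_Ico_self h) _ hx
      simp [Function.uncurry, d0, ha _ (Ioo_subset_Ico_self (sub' hq.1.1)) _ hx]
  refine ⟨(intervalIntegrable_iff_integrableOn_Ioo_of_le st).2 hi.integral_prod_left, ?_⟩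
  have i : ∀ τ ∈ Icc s t, Integrable (fun x => a τ x * vol F τ x) μ := fun τ h =>
    int_of (F := F) (ρ := ρ) (slice (ca.mul cv) h) fun x hx => by
      rw [ha τ (sub h) x hx.le, zero_mul]
  rw [intervalIntegral.integral_of_le st, integral_Ioc_eq_integral_Ioo, integral_integral_swap hi,
    ← integral_sub (i t ⟨st, le_rfl⟩) (i s ⟨le_rfl, st⟩)]
  refine integral_congr_ae (Eventually.of_forall fun x => ?_)
  have sl : ∀ {f : ℝ × M → ℝ}, ContinuousOn f (Icc s t ×ˢ univ) →
      ContinuousOn (fun τ => f (τ, x)) (Icc s t) := fun h =>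
    h.comp (by fun_prop) fun τ h => ⟨h, mem_univ x⟩
  have := intervalIntegral.integral_eq_sub_of_hasDerivAt_of_le st (sl (ca.mul cv))
    (f' := fun τ => (a' τ x - F.R τ x * a τ x) * vol F τ x) (fun τ h => by
      have := (da τ (sub' h) x).mul ((h2.u_t τ (sub' h).1 x).const_sub (F.u 0 x)).exp
      exact this.congr_deriv (by rw [vol]; ring)) ((sl cG).intervalIntegrable_of_Icc st)
  rw [intervalIntegral.integral_of_le st, integral_Ioc_eq_integral_Ioo] at this
  refine this.symm.trans (setIntegral_congr_fun measurableSet_Ioo fun τ h => ?_)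
  simp only [e τ h]

end Vale.Agent.P253W.HK
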