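import Vale.Agent.P253W.HK.Defs

/-!
# P253W, block HK, row WH1: the weak Harnack inequality
-/

set_option linter.all false

open scoped Topology
open MeasureTheory Set Metric Filter

noncomputable section

namespace Vale.Agent.P253W.HK

namespace Wh

variable {X : Type} [MetricSpace X]

lemma exd {f : ℝ → ℝ} (hf : Continuous f) {ε : ℝ} (hε : 0 < ε) : ∃ δ > (0 : ℝ), f δ ≤ f 0 + ε := by
  have h : ∀ᶠ δ in 𝓝[>] (0 : ℝ), f δ < f 0 + ε :=
    nhdsWithin_le_nhds (hf.continuousAt.eventually (gt_mem_nhds (by linarith)))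
  obtain ⟨δ, h1, h2⟩ := (h.and self_mem_nhdsWithin).exists
  exact ⟨δ, h2, h1.le⟩

lemma ug_mul {u G v H : X → ℝ} (hu : Ug u G) (hv : Ug v H) :
    Ug (fun p => u p * v p) (fun p => |u p| * H p + |v p| * G p) := by
  obtain ⟨u1, u2, u3, u4⟩ := hu
  obtain ⟨v1, v2, v3, v4⟩ := hv
  refine ⟨by fun_prop, by fun_prop, fun p => by have := u3 p; have := v3 p; positivity,
    fun p ε hε => ?_⟩
  obtain ⟨δ, h0, h1⟩ := exd (f := fun δ => (|u p| + δ) * (H p + δ) + |v p| * (G p + δ))
    (by fun_prop) hε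
  have h2 : ∀ᶠ q in 𝓝 p, |u q| < |u p| + δ :=
    (u1.abs.continuousAt (x := p)).eventually (gt_mem_nhds (by linarith))
  filter_upwards [u4 p δ h0, v4 p δ h0, h2] with q a b c
  have e : u q * v q - u p * v p = u q * (v q - v p) + v p * (u q - u p) := by ring
  have d0 := dist_nonneg (x := q) (y := p)
  have := v3 p
  calc |u q * v q - u p * v p| ≤ |u q| * |v q - v p| + |v p| * |u q - u p| := by
        rw [e, ← abs_mul, ← abs_mul]; exact abs_add_le _ _
    _ ≤ (|u p| + δ) * ((H p + δ) * dist q p) + |v p| * ((G p + δ) * dist q p) := by gcongr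
    _ = ((|u p| + δ) * (H p + δ) + |v p| * (G p + δ)) * dist q p := by ring
    _ ≤ _ := mul_le_mul_of_nonneg_right (by simpa using h1) d0

lemma ug_exp {l G : X → ℝ} (h : Ug l G) {b : ℝ} (hb : 0 ≤ b) :
    Ug (fun p => Real.exp (-b * l p)) (fun p => b * Real.exp (-b * l p) * G p) := by
  obtain ⟨u1, u2, u3, u4⟩ := h
  refine ⟨by fun_prop, by fun_prop, fun p => by have := u3 p; positivity, fun p ε hε => ?_⟩
  obtain ⟨δ, h0, h1⟩ := exd (f := fun δ => (b * Real.exp (-b * l p) + δ) * (G p + δ))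
    (by fun_prop) hε
  have hd : HasDerivAt (fun s => Real.exp (-b * s)) (Real.exp (-b * l p) * (-b)) (l p) := by
    simpa using! ((hasDerivAt_id (l p)).const_mul (-b)).exp
  have h2 := (u1.tendsto p).eventually (hd.isLittleO.def h0)
  filter_upwards [u4 p δ h0, h2] with q a c
  have d0 := dist_nonneg (x := q) (y := p)
  have e0 := Real.exp_pos (-b * l p)
  have := u3 p
  simp only [Real.norm_eq_abs, smul_eq_mul] at c
  have e : Real.exp (-b * l q) - Real.exp (-b * l p) = (Real.exp (-b * l q) - Real.exp (-b * l p) -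
      (l q - l p) * (Real.exp (-b * l p) * -b)) + (l q - l p) * (Real.exp (-b * l p) * -b) := by ring
  calc |Real.exp (-b * l q) - Real.exp (-b * l p)|
      ≤ δ * |l q - l p| + |l q - l p| * (b * Real.exp (-b * l p)) := by
        rw [e]
        refine (abs_add_le _ _).trans (add_le_add c ?_)
        rw [abs_mul, abs_mul, abs_neg, abs_of_nonneg hb, abs_of_pos e0, mul_comm b]
    _ = (b * Real.exp (-b * l p) + δ) * |l q - l p| := by ring
    _ ≤ (b * Real.exp (-b * l p) + δ) * ((G p + δ) * dist q p) := by gcongr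
    _ = ((b * Real.exp (-b * l p) + δ) * (G p + δ)) * dist q p := by ring
    _ ≤ _ := by gcongr; simpa using h1

lemma ug_pos {w G : X → ℝ} (h : Ug w G) (k : ℝ) : Ug (fun p => max (w p - k) 0) G := by
  obtain ⟨u1, u2, u3, u4⟩ := h
  refine ⟨by fun_prop, u2, u3, fun p ε hε => (u4 p ε hε).mono fun q a => le_trans ?_ a⟩
  simpa using abs_max_sub_max_le_abs (w q - k) (w p - k) 0

/-- the cutoff function -/
def cut (x : X) (R a : ℝ) (p : X) : ℝ := max (min (a - dist p x / R) 1) 0

lemma cut_cont (x : X) (R a : ℝ) : Continuous (cut x R a) := by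
  unfold cut; fun_prop

lemma cut_mem (x : X) (R a : ℝ) (p : X) : 0 ≤ cut x R a p ∧ cut x R a p ≤ 1 :=
  ⟨le_max_right _ _, max_le (min_le_right _ _) zero_le_one⟩

lemma cut_one {x : X} {R a : ℝ} (hR : 0 < R) {p : X} (h : dist p x ≤ (a - 1) * R) :
    cut x R a p = 1 := by
  have : dist p x / R ≤ a - 1 := (div_le_iff₀ hR).2 h
  rw [cut, min_eq_right (by linarith), max_eq_left zero_le_one]

lemma cut_zero {x : X} {R a : ℝ} (hR : 0 < R) {p : X} (h : a * R ≤ dist p x) :
    cut x R a p = 0 := by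
  have : a ≤ dist p x / R := (le_div_iff₀ hR).2 h
  exact max_eq_right ((min_le_left _ _).trans (by linarith))

lemma ug_cut (x : X) {R : ℝ} (hR : 0 < R) : Ug (cut x R 2) (fun p => cut x R 3 p / R) := by
  refine ⟨cut_cont _ _ _, (cut_cont _ _ _).div_const _, fun p => div_nonneg (cut_mem _ _ _ _).1 hR.le,
    fun p ε hε => ?_⟩
  have d0 : ∀ q, 0 ≤ dist q p := fun q => dist_nonneg
  rcases le_or_gt (dist p x) (2 * R) with h | h
  · refine Eventually.of_forall fun q => ?_
    simp only [cut_one (a := 3) hR (show dist p x ≤ (3 - 1) * R by linarith)]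
    have h1 : |cut x R 2 q - cut x R 2 p| ≤ |dist q x - dist p x| / R := by
      refine (abs_max_sub_max_le_abs _ _ _).trans ((abs_min_sub_min_le_max _ _ _ _).trans ?_)
      rw [sub_self, abs_zero, max_eq_left (abs_nonneg _), sub_sub_sub_cancel_left, ← sub_div,
        abs_div, abs_of_pos hR, abs_sub_comm]
    have h2 : |dist q x - dist p x| / R ≤ dist q p / R := by
      gcongr; exact abs_dist_sub_le _ _ _
    have := mul_nonneg hε.le (d0 q)
    calc _ ≤ dist q p / R := h1.trans h2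
      _ ≤ _ := by rw [add_mul, one_div_mul_eq_div]; linarith
  · have h1 : ∀ᶠ q in 𝓝 p, 2 * R < dist q x :=
      ((continuous_id.dist continuous_const).continuousAt (x := p)).eventually (lt_mem_nhds h)
    filter_upwards [h1] with q a
    rw [cut_zero hR a.le, cut_zero hR h.le, sub_self, abs_zero]
    have := (cut_mem x R 3 p).1
    have := d0 q
    positivity

variable [ProperSpace X] [MeasurableSpace X] [BorelSpace X] {μ : Measure X} {m : ℕ}

lemma intg (h : Sp μ m) {f : X → ℝ} (hf : Continuous f) (x : X) (r : ℝ) :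
    IntegrableOn f (ball x r) μ := by
  obtain ⟨b, hb⟩ := (isCompact_closedBall x r).exists_bound_of_continuousOn hf.continuousOn
  exact Measure.integrableOn_of_bounded ((measure_mono ball_subset_closedBall).trans_lt
    (h.fin x r)).ne hf.aestronglyMeasurable (ae_restrict_of_forall_mem measurableSet_ball
      fun y hy => hb y (ball_subset_closedBall hy))

lemma bfin (h : Sp μ m) (x : X) (r : ℝ) : μ (ball x r) ≠ ⊤ :=
  ((measure_mono ball_subset_closedBall).trans_lt (h.fin x r)).ne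

lemma cheb (h : Sp μ m) {f : X → ℝ} (hf : Continuous f) (h0 : ∀ p, 0 ≤ f p) {x : X} {r c : ℝ}
    {S : Set X} (hS : MeasurableSet S) (hs : S ⊆ ball x r) (hc : ∀ p ∈ S, c ≤ f p) :
    c * μ.real S ≤ ∫ p in ball x r, f p ∂μ := by
  refine le_trans ?_ (setIntegral_mono_set (intg h hf x r) (Eventually.of_forall h0)
    hs.eventuallyLE)
  exact setIntegral_ge_of_const_le_real hS (ne_top_of_le_ne_top (bfin h x r) (measure_mono hs)) hc
    ((intg h hf x r).mono_set hs)

variable (μ) in
/-- exponential decay of the distribution function -/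
def DD (γ : ℝ) : Prop := ∃ C ≥ (1 : ℝ), ∀ l G U, Lg μ l G U → ∀ x R, 0 < R →
  closedBall x (C * R) ⊆ U → ∀ y ∈ ball x R, ∀ s, 0 ≤ s →
    μ.real (ball x R ∩ {z | l z < l y - s}) ≤ C * Real.exp (-γ * s) * μ.real (ball x R)

variable (μ) in
/-- the weak Harnack inequality with exponent `β` -/
def WW (β : ℝ) : Prop := ∃ C ≥ (1 : ℝ), ∀ l G U, Lg μ l G U → ∀ x R, 0 < R →
  closedBall x (C * R) ⊆ U → ∀ y ∈ ball x R,
    ∫ z in ball x R, Real.exp (-β * l z) ∂μ ≤ C * Real.exp (-β * l y) * μ.real (ball x R)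

lemma dd_ink (h : Sp μ m) (hi : INK μ) : ∃ γ > 0, DD μ γ := by
  obtain ⟨K, hK, hi⟩ := hi
  have K0 : 0 < K := by linarith
  refine ⟨Real.log 2 / K, div_pos (Real.log_pos one_lt_two) K0, 30, by norm_num,
    fun l G U hl x R hR hU y hy s hs => ?_⟩
  have V0 : 0 ≤ μ.real (ball x R) := measureReal_nonneg
  have e : ∀ k : ℕ, s < (k + 1) * K → 1 ≤ 2 * 2 ^ k * Real.exp (-(Real.log 2 / K) * s) := by
    intro k hk
    have h1 : (2 : ℝ) * 2 ^ k = Real.exp ((k + 1 : ℕ) * Real.log 2) := by
      rw [Real.exp_nat_mul, Real.exp_log two_pos, pow_succ']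
    rw [h1, ← Real.exp_add]
    refine Real.one_le_exp ?_
    have h2 : s / K ≤ k + 1 := (div_le_iff₀ K0).2 hk.le
    have h3 := mul_le_mul_of_nonneg_right h2 (Real.log_pos one_lt_two).le
    push_cast
    calc (0 : ℝ) ≤ (k + 1) * Real.log 2 - s / K * Real.log 2 := by linarith
      _ = _ := by ring
  have e1 := e ⌊s / K⌋₊ ((div_lt_iff₀ K0).1 (Nat.lt_floor_add_one _))
  have e2 : (⌊s / K⌋₊ : ℝ) * K ≤ s := (le_div_iff₀ K0).1 (Nat.floor_le (div_nonneg hs K0.le))
  have x0 := Real.exp_pos (-(Real.log 2 / K) * s)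
  generalize Real.exp (-(Real.log 2 / K) * s) = E at *
  rcases hk : ⌊s / K⌋₊ with _ | k
  · rw [hk] at e1
    refine (measureReal_mono inter_subset_left (bfin h x R)).trans ?_
    nlinarith
  · rw [hk] at e1 e2
    have h1 := hi l G U hl x R hR hU y hy k
    have h2 : μ.real (ball x R ∩ {z | l z < l y - s}) ≤
        μ.real (ball x R ∩ {z | l z < l y - (k + 1) * K}) :=
      measureReal_mono (inter_subset_inter_right _ fun z (hz : l z < _) =>
        show l z < _ by push_cast at e2; linarith)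
        (ne_top_of_le_ne_top (bfin h x R) (measure_mono inter_subset_left))
    have h3 : 0 ≤ μ.real (ball x R ∩ {z | l z < l y - (k + 1) * K}) := measureReal_nonneg
    refine h2.trans ?_
    rw [pow_succ] at e1
    nlinarith [mul_le_mul_of_nonneg_left e1 h3, mul_le_mul_of_nonneg_left h1 x0.le,
      mul_nonneg x0.le V0]

lemma ww_dd (h : Sp μ m) {β γ : ℝ} (h0 : 0 ≤ β) (h1 : β < γ) (hd : DD μ γ) : WW μ β := by
  obtain ⟨C, hC, hd⟩ := hd
  have q0 := Real.exp_pos (β - γ)
  have q1 : Real.exp (β - γ) < 1 := Real.exp_lt_one_iff.2 (by linarith)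
  have q2 : 0 ≤ (1 - Real.exp (β - γ))⁻¹ := inv_nonneg.2 (by linarith)
  have b0 := Real.exp_pos β
  have c1 : C ≤ C + C * Real.exp β * (1 - Real.exp (β - γ))⁻¹ :=
    le_add_of_nonneg_right (by positivity)
  refine ⟨_, hC.trans c1, fun l G U hl x R hR hU y hy => ?_⟩
  have hU' : closedBall x (C * R) ⊆ U := (closedBall_subset_closedBall (by gcongr)).trans hU
  have lc : Continuous l := hl.1.1
  obtain ⟨b, hb⟩ := (isCompact_closedBall x R).exists_bound_of_continuousOn
    (f := fun z => l y - l z) (by fun_prop)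
  obtain ⟨N, hN⟩ := exists_nat_ge b
  have hS : ∀ j : ℕ, MeasurableSet {z | l z < l y - j} := fun j =>
    (isOpen_lt lc continuous_const).measurableSet
  haveI : IsFiniteMeasure (μ.restrict (ball x R)) := isFiniteMeasure_restrict.2 (bfin h x R)
  have i1 : ∀ j ∈ Finset.range N, Integrable
      ({z | l z < l y - j}.indicator fun _ => Real.exp (β * (j + 1))) (μ.restrict (ball x R)) :=
    fun j _ => (integrable_const _).indicator (hS j)
  have V0 : 0 ≤ μ.real (ball x R) := measureReal_nonneg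
  have y0 := Real.exp_pos (-β * l y)
  calc ∫ z in ball x R, Real.exp (-β * l z) ∂μ
      ≤ ∫ z in ball x R, Real.exp (-β * l y) * (1 + ∑ j ∈ Finset.range N,
        {z | l z < l y - j}.indicator (fun _ => Real.exp (β * (j + 1))) z) ∂μ := by
        refine setIntegral_mono_on (intg h (by fun_prop) x R)
          (((integrable_const _).add (integrable_finset_sum _ i1)).const_mul _)
          measurableSet_ball fun z hz => ?_
        have e : Real.exp (-β * l z) = Real.exp (-β * l y) * Real.exp (β * (l y - l z)) := by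
          rw [← Real.exp_add]; congr 1; ring
        rw [e]
        gcongr
        have n0 : ∀ j ∈ Finset.range N,
            0 ≤ {z | l z < l y - j}.indicator (fun _ => Real.exp (β * (j + 1))) z :=
          fun j _ => indicator_nonneg (fun _ _ => (Real.exp_pos _).le) z
        rcases le_or_gt (l y - l z) 0 with a | a
        · exact (Real.exp_le_one_iff.2 (mul_nonpos_of_nonneg_of_nonpos h0 a)).trans
            (le_add_of_nonneg_right (Finset.sum_nonneg n0))
        · obtain ⟨j, hj⟩ := Nat.exists_eq_succ_of_ne_zero (Nat.ceil_pos.2 a).ne'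
          have a1 : l y - l z ≤ j + 1 := by
            have := Nat.le_ceil (l y - l z); rw [hj] at this; exact_mod_cast this
          have a2 : (j : ℝ) < l y - l z := Nat.lt_ceil.1 (by omega)
          have a3 : j ∈ Finset.range N := by
            have := (le_abs_self _).trans (hb z (ball_subset_closedBall hz))
            exact Finset.mem_range.2 (by exact_mod_cast a2.trans_le (this.trans hN))
          refine le_trans ?_ ((Finset.single_le_sum n0 a3).trans (le_add_of_nonneg_left zero_le_one))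
          rw [indicator_of_mem (show z ∈ {z | l z < l y - j} from show l z < _ by linarith)]
          gcongr
    _ = Real.exp (-β * l y) * (μ.real (ball x R) + ∑ j ∈ Finset.range N,
        μ.real (ball x R ∩ {z | l z < l y - j}) * Real.exp (β * (j + 1))) := by
        rw [integral_const_mul, integral_add (integrable_const _) (integrable_finset_sum _ i1),
          integral_finset_sum _ i1]
        simp only [integral_indicator_const _ (hS _), measureReal_restrict_apply (hS _),
          inter_comm (ball x R), smul_eq_mul, integral_const, mul_one, measureReal_restrict_apply_univ]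
    _ ≤ Real.exp (-β * l y) * (C * μ.real (ball x R) + ∑ j ∈ Finset.range N,
        C * Real.exp β * μ.real (ball x R) * Real.exp (β - γ) ^ j) := by
        refine mul_le_mul_of_nonneg_left (add_le_add (le_mul_of_one_le_left V0 hC)
          (Finset.sum_le_sum fun j hj => ?_)) y0.le
        · refine (mul_le_mul_of_nonneg_right (hd l G U hl x R hR hU' y hy j j.cast_nonneg)
            (Real.exp_pos _).le).trans_eq ?_
          have : Real.exp (-γ * j) * Real.exp (β * (j + 1)) = Real.exp β * Real.exp (β - γ) ^ j := by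
            rw [← Real.exp_nat_mul, ← Real.exp_add, ← Real.exp_add]; congr 1; ring
          linear_combination C * μ.real (ball x R) * this
    _ ≤ Real.exp (-β * l y) * (C * μ.real (ball x R) +
        C * Real.exp β * μ.real (ball x R) * (1 - Real.exp (β - γ))⁻¹) := by
        rw [← Finset.mul_sum, ← tsum_geometric_of_lt_one q0.le q1]
        gcongr
        exact (summable_geometric_of_lt_one q0.le q1).sum_le_tsum _ fun _ _ => by positivity
    _ = _ := by ring

lemma sob (h : Sp μ m) {C : ℝ} (c0 : 0 ≤ C) (hf : ∀ v G, Ug v G → ∀ x R σ, 0 < R → 0 < σ → C * σ ≤ 1 →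
    (∀ y ∉ ball x R, v y = 0 ∧ G y = 0) → μ.real {y | v y ≠ 0} ≤ σ ^ m * μ.real (ball x R) →
    ∫ y, v y ^ 2 ∂μ ≤ C * (σ * R) ^ 2 * ∫ y, G y ^ 2 ∂μ) {w H : X → ℝ} (wu : Ug w H)
    (w0 : ∀ p, 0 ≤ w p) {x : X} {R k σ : ℝ} (hR : 0 < R) (k0 : 0 < k) (s0 : 0 < σ) (s1 : C * σ ≤ 1)
    (n1 : μ.real (ball x (3 * R) ∩ {p | k < w p}) ≤ σ ^ m * μ.real (ball x (3 * R))) {S : Set X}
    (hS : MeasurableSet S) (h1 : S ⊆ ball x R) (h2 : ∀ p ∈ S, 2 * k ≤ w p) :
    k ^ 2 * μ.real S ≤ C * (σ * (3 * R)) ^ 2 *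
      (2 * ∫ p in ball x (3 * R), H p ^ 2 ∂μ + 2 / R ^ 2 * ∫ p in ball x (3 * R), w p ^ 2 ∂μ) := by
  have vu := ug_mul (ug_cut x hR) (ug_pos wu k)
  have z2 : ∀ p ∉ ball x (3 * R), cut x R 2 p = 0 ∧ cut x R 3 p = 0 := fun p hp => by
    have := not_lt.1 (mt mem_ball.2 hp)
    exact ⟨cut_zero hR (by linarith), cut_zero hR this⟩
  have F1 := hf _ _ vu x (3 * R) σ (by linarith) s0 s1 (fun p hp => by simp [z2 p hp])
    ((measureReal_mono (fun p (hp : cut x R 2 p * max (w p - k) 0 ≠ 0) =>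
      mem_inter (by_contra fun a => hp (by rw [(z2 p a).1, zero_mul]))
      (by_contra fun a => hp (by rw [max_eq_right (by linarith [not_lt.1 (show ¬ k < w p from a)]),
        mul_zero])))
      (ne_top_of_le_ne_top (bfin h x _) (measure_mono inter_subset_left))).trans n1)
  rw [← setIntegral_eq_integral_of_forall_compl_eq_zero (s := ball x (3 * R))
    (fun p hp => by simp [z2 p hp]), ← setIntegral_eq_integral_of_forall_compl_eq_zero
    (s := ball x (3 * R)) (f := fun p => (_ + _ : ℝ) ^ 2) (fun p hp => by simp [z2 p hp])] at F1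
  have F2 := cheb h (f := fun p => (cut x R 2 p * max (w p - k) 0) ^ 2) (vu.1.pow 2)
    (fun _ => sq_nonneg _) (x := x) (r := 3 * R) (c := k ^ 2) hS
    (h1.trans (ball_subset_ball (by linarith))) fun p hp => by
      rw [cut_one hR (by linarith [mem_ball.1 (h1 hp)]), one_mul]
      exact pow_le_pow_left₀ k0.le (le_max_of_le_left (by linarith [h2 p hp])) 2
  have i1 := intg h (f := fun p => H p ^ 2) (wu.2.1.pow 2) x (3 * R)
  have i2 := intg h (f := fun p => w p ^ 2) (wu.1.pow 2) x (3 * R)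
  refine F2.trans (F1.trans (mul_le_mul_of_nonneg_left ?_ (by positivity)))
  rw [← integral_const_mul, ← integral_const_mul, ← integral_add (i1.const_mul _) (i2.const_mul _)]
  refine setIntegral_mono_on (intg h (vu.2.1.pow 2) x _) ((i1.const_mul _).add
      (i2.const_mul _)) measurableSet_ball fun p _ => ?_
  obtain ⟨d1, d2⟩ := cut_mem x R 2 p
  obtain ⟨d3, d4⟩ := cut_mem x R 3 p
  have g0 := wu.2.2.1 p
  have g1 := w0 p
  have d5 : max (w p - k) 0 ≤ w p := max_le (by linarith) g1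
  have e1 : |cut x R 2 p| * H p ≤ 1 * H p := by
    rw [abs_of_nonneg d1]; gcongr
  have e2 : |max (w p - k) 0| * (cut x R 3 p / R) ≤ w p * (1 / R) := by
    rw [abs_of_nonneg (le_max_right _ _)]; gcongr
  refine (pow_le_pow_left₀ (vu.2.2.1 p) (add_le_add e1 e2) 2).trans ?_
  have : 2 / R ^ 2 * w p ^ 2 = 2 * (w p * (1 / R)) ^ 2 := by field_simp
  rw [this]
  nlinarith [sq_nonneg (H p - w p * (1 / R))]

lemma dd_ww (h : Sp μ m) (hf : FK μ m) {β : ℝ} (h0 : 0 < β) (h1 : β < 1) (hw : WW μ β) :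
    DD μ (β * (1 + 2 / m)) := by
  obtain ⟨C1, c1, hw⟩ := hw
  obtain ⟨Cf, cf, hf⟩ := hf
  obtain ⟨Cb, cb, hb⟩ := h.bg
  have m0 : (0 : ℝ) < m := Nat.cast_pos.2 h.mpos
  obtain ⟨B, hB⟩ : ∃ B, B = C1 * (Cb * 4 ^ m) := ⟨_, rfl⟩
  have B1 : 1 ≤ B := hB ▸ one_le_mul_of_one_le_of_one_le c1
    (one_le_mul_of_one_le_of_one_le cb (one_le_pow₀ (by norm_num)))
  obtain ⟨P, hP⟩ : ∃ P, P = 2 / (1 - β) ^ 2 + 2 := ⟨_, rfl⟩
  have b1 : 0 < 1 - β := by linarith
  have P0 : 0 ≤ P := by rw [hP]; positivity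
  have a1 : 0 ≤ (Cf * (4 * B)) ^ (m + 2) := by positivity
  have a2 : 0 ≤ 36 * Cf * (4 * B) ^ 2 * P * B := by positivity
  refine ⟨4 * C1 + ((Cf * (4 * B)) ^ (m + 2) + 36 * Cf * (4 * B) ^ 2 * P * B), by linarith,
    fun l G U hl x R hR hU y hy s hs => ?_⟩
  obtain ⟨t, ht⟩ : ∃ t, t = Real.exp (-β * s / m) := ⟨_, rfl⟩
  have t0 : 0 < t := ht ▸ Real.exp_pos _
  have tm : t ^ m = Real.exp (-β * s) := by
    rw [ht, ← Real.exp_nat_mul]; congr 1; field_simp
  have tm2 : Real.exp (-(β * (1 + 2 / m)) * s) = t ^ (m + 2) := by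
    rw [ht, ← Real.exp_nat_mul]; congr 1; push_cast; field_simp
  rw [tm2]
  have V0 : 0 ≤ μ.real (ball x R) := measureReal_nonneg
  have T0 : 0 ≤ t ^ (m + 2) * μ.real (ball x R) := by positivity
  rcases le_or_gt (Cf * (4 * B * t)) 1 with hs1 | hs1
  swap
  · refine (measureReal_mono inter_subset_left (bfin h x R)).trans ?_
    have : 1 ≤ (Cf * (4 * B)) ^ (m + 2) * t ^ (m + 2) := by
      rw [← mul_pow]; exact one_le_pow₀ (by linarith)
    exact le_mul_of_one_le_left V0 (this.trans (mul_le_mul_of_nonneg_right (by linarith)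
      (pow_pos t0 _).le))
  have lc : Continuous l := hl.1.1
  have Gc : Continuous G := hl.1.2.1
  have U4 : closedBall x (C1 * (4 * R)) ⊆ U :=
    (closedBall_subset_closedBall (by
      linarith only [mul_nonneg (add_nonneg a1 a2) hR.le])).trans hU
  have U4' : closedBall x (4 * R) ⊆ U :=
    (closedBall_subset_closedBall (le_mul_of_one_le_left (by positivity) c1)).trans U4
  obtain ⟨c, hc⟩ : ∃ c, c = Real.exp (-β * l y) := ⟨_, rfl⟩
  have c0 : 0 < c := hc ▸ Real.exp_pos _
  obtain ⟨I, hI⟩ : ∃ I, I = ∫ z in ball x (4 * R), Real.exp (-β * l z) ∂μ := ⟨_, rfl⟩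
  have I1 : I ≤ B * c * μ.real (ball x R) := by
    have e1 := hw l G U hl x (4 * R) (by linarith) U4 y (ball_subset_ball (by linarith) hy)
    have e2 := hb x R (4 * R) hR (by linarith)
    rw [mul_div_assoc, div_self hR.ne', mul_one] at e2
    rw [← hI, ← hc] at e1
    refine e1.trans ((mul_le_mul_of_nonneg_left e2 (by positivity)).trans_eq ?_)
    rw [hB]; ring
  have I2 : ∫ z in ball x (3 * R), Real.exp (-β * l z) * G z ^ 2 ∂μ ≤
      4 / ((1 - β) ^ 2 * R ^ 2) * I := by
    have := hl.2.2 x (3 * R) (4 * R) β (by linarith) (by linarith) h0.le h1 U4'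
    rwa [show 4 * R - 3 * R = R by ring, ← hI] at this
  have I3 : ∫ z in ball x (3 * R), Real.exp (-β * l z) ∂μ ≤ I := hI ▸
    setIntegral_mono_set (intg h (by fun_prop) x _) (Eventually.of_forall fun _ =>
      (Real.exp_pos _).le) (ball_subset_ball (by linarith)).eventuallyLE
  obtain ⟨w, hw⟩ : ∃ w : X → ℝ, w = fun p => Real.exp (-(β / 2) * l p) := ⟨_, rfl⟩
  have w0 : ∀ p, 0 < w p := fun p => hw ▸ Real.exp_pos _
  have w2 : ∀ p, w p ^ 2 = Real.exp (-β * l p) := fun p => by
    rw [hw, ← Real.exp_nat_mul]; congr 1; push_cast; ring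
  have wu : Ug w fun p => β / 2 * w p * G p := hw ▸ ug_exp hl.1 (by positivity)
  obtain ⟨k, hk⟩ : ∃ k, k = Real.exp (-(β / 2) * (l y - s)) / 2 := ⟨_, rfl⟩
  have k0 : 0 < k := by rw [hk]; positivity
  have k2 : 4 * k ^ 2 * t ^ m = c := by
    rw [hk, tm, hc, div_pow, ← Real.exp_nat_mul, show (2 : ℝ) ^ 2 = 4 by norm_num,
      mul_div_cancel₀ _ four_ne_zero, ← Real.exp_add]
    congr 1; push_cast; ring
  have V3 : μ.real (ball x R) ≤ μ.real (ball x (3 * R)) :=
    measureReal_mono (ball_subset_ball (by linarith)) (bfin h x _)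
  have n1 : μ.real (ball x (3 * R) ∩ {p | k < w p}) ≤ (4 * B * t) ^ m * μ.real (ball x (3 * R)) := by
    have e1 := (cheb h (f := fun p => Real.exp (-β * l p)) (by fun_prop)
      (fun _ => (Real.exp_pos _).le) (c := k ^ 2) (measurableSet_ball.inter
      (isOpen_lt continuous_const wu.1).measurableSet) inter_subset_left fun p hp => by
        rw [← w2]; exact pow_le_pow_left₀ k0.le (le_of_lt hp.2) 2).trans I3
    have e2 : 4 * B ≤ (4 * B) ^ m := le_self_pow₀ (by linarith) (by linarith [h.mpos])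
    refine le_of_mul_le_mul_left (e1.trans (I1.trans ?_)) (pow_pos k0 2)
    rw [← k2, mul_pow]
    calc B * (4 * k ^ 2 * t ^ m) * μ.real (ball x R)
        = k ^ 2 * (4 * B * t ^ m * μ.real (ball x R)) := by ring
      _ ≤ _ := by gcongr
  have F1 := sob h (by linarith) hf wu (fun p => (w0 p).le) hR k0 (by positivity) hs1 n1
    (S := ball x R ∩ {z | l z < l y - s})
    (measurableSet_ball.inter (isOpen_lt lc continuous_const).measurableSet) inter_subset_left
    fun p hp => by
      rw [hk, hw, mul_div_cancel₀ _ two_ne_zero]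
      exact Real.exp_le_exp.2 (mul_le_mul_of_nonpos_left (le_of_lt hp.2) (by linarith only [h0]))
  have e3 : ∀ p, (β / 2 * w p * G p) ^ 2 = β ^ 2 / 4 * (Real.exp (-β * l p) * G p ^ 2) := fun p => by
    rw [← w2]; ring
  simp only [e3, w2, integral_const_mul] at F1
  have I0 : 0 ≤ I := hI ▸ integral_nonneg fun _ => (Real.exp_pos _).le
  have F3 : 2 * (β ^ 2 / 4 * ∫ p in ball x (3 * R), Real.exp (-β * l p) * G p ^ 2 ∂μ) +
      2 / R ^ 2 * ∫ p in ball x (3 * R), Real.exp (-β * l p) ∂μ ≤ P / R ^ 2 * I :=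
    calc _ ≤ 2 * (1 ^ 2 / 4 * (4 / ((1 - β) ^ 2 * R ^ 2) * I)) + 2 / R ^ 2 * I := by
          gcongr
      _ = _ := by rw [hP]; field_simp
  have F4 : k ^ 2 * μ.real (ball x R ∩ {z | l z < l y - s}) ≤
      k ^ 2 * (36 * Cf * (4 * B) ^ 2 * P * B * (t ^ (m + 2) * μ.real (ball x R))) :=
    calc _ ≤ Cf * (4 * B * t * (3 * R)) ^ 2 * (P / R ^ 2 * (B * c * μ.real (ball x R))) :=
          F1.trans (mul_le_mul_of_nonneg_left (F3.trans (by gcongr)) (by positivity))
      _ = _ := by rw [← k2]; field_simp; ring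
  refine (le_of_mul_le_mul_left F4 (pow_pos k0 2)).trans ?_
  rw [mul_assoc (_ + _)]
  exact mul_le_mul_of_nonneg_right (by linarith only [a1, c1]) T0

end Wh

open Wh

theorem wh1 {X : Type} [MetricSpace X] [ProperSpace X] [MeasurableSpace X] [BorelSpace X]
    {μ : Measure X} {m : ℕ} (h : Sp μ m) (hf : FK μ m) (hi : INK μ) : WH1 μ := by
  obtain ⟨γ, g0, hd⟩ := dd_ink h hi
  have m0 : (0 : ℝ) < m := Nat.cast_pos.2 h.mpos
  have a1 : (1 : ℝ) < 1 + 1 / m := by linarith [one_div_pos.2 m0]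
  have q0 : 0 < (1 + 1 / m : ℝ)⁻¹ := by positivity
  have q1 : (1 + 1 / m : ℝ)⁻¹ < 1 := inv_lt_one_of_one_lt₀ a1
  have key : ∀ J : ℕ, WW μ ((1 + 1 / m : ℝ)⁻¹ ^ J) → WW μ 1 := by
    intro J
    induction J with
    | zero => simp only [pow_zero]; exact id
    | succ J ih =>
      refine fun hw => ih (ww_dd h (pow_pos q0 J).le ?_
        (dd_ww h hf (pow_pos q0 _) (pow_lt_one₀ q0.le q1 J.succ_ne_zero) hw))
      rw [pow_succ, mul_assoc]
      refine lt_mul_of_one_lt_right (pow_pos q0 J) ?_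
      rw [← div_eq_inv_mul, one_lt_div (by linarith)]
      have : (1 : ℝ) / m < 2 / m := by gcongr; norm_num
      linarith
  obtain ⟨J, hJ⟩ := exists_pow_lt_of_lt_one g0 q1
  simpa only [WW, neg_mul, one_mul] using! key J (ww_dd h (pow_pos q0 J).le hJ hd)

end Vale.Agent.P253W.HK
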