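import Vale.Agent.P253W.Asm
import Vale.Agent.P253W.HK.Bar
import Vale.Agent.P253W.HK.Brs
import Vale.Agent.P253W.HK.CLN
import Vale.Agent.P253W.HK.Cal2
import Vale.Agent.P253W.HK.Dg
import Vale.Agent.P253W.HK.Fk
import Vale.Agent.P253W.HK.Grn
import Vale.Agent.P253W.HK.Ink
import Vale.Agent.P253W.HK.Intf
import Vale.Agent.P253W.HK.Kl
import Vale.Agent.P253W.HK.L1
import Vale.Agent.P253W.HK.Low
import Vale.Agent.P253W.HK.Mp
import Vale.Agent.P253W.HK.Mv1
import Vale.Agent.P253W.HK.Poi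
import Vale.Agent.P253W.HK.Ql
import Vale.Agent.P253W.HK.Red
import Vale.Agent.P253W.HK.Rpm
import Vale.Agent.P253W.HK.Sta
import Vale.Agent.P253W.HK.Sup
import Vale.Agent.P253W.HK.TFT
import Vale.Agent.P253W.HK.Wh1
import Vale.Agent.P253W.FG.Rbl
import Vale.Agent.P253W.FP.Maq
import Vale.Agent.P253Z.B2
import Vale.Agent.P253Z.B3

/-!
# P253W, block HK: assembly
-/

set_option linter.unusedSectionVars false

open scoped Manifold ContDiff Bundle
open Bundle MeasureTheory Vale.Agent.P253.Mfd Vale.Agent.P253Z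
open Vale.Agent.P272.K (Cm)

noncomputable section

namespace Vale.Agent.P253W.HK

variable {n : ℕ} {M : Type} [MetricSpace M] [ChartedSpace (Cm n) M]
  [IsManifold 𝓘(ℂ, Cm n) 1 M] [IsManifold 𝓘(ℝ, Cm n) ∞ M]
  [RiemannianBundle (fun x : M => TangentSpace 𝓘(ℝ, Cm n) x)]
  [IsContMDiffRiemannianBundle 𝓘(ℝ, Cm n) ∞ (Cm n) (fun x : M => TangentSpace 𝓘(ℝ, Cm n) x)]
  [IsRiemannianManifold 𝓘(ℝ, Cm n) M] [CompleteSpace M] [ConnectedSpace M] [NoncompactSpace M]
  [MeasurableSpace M] [BorelSpace M] {μ : Measure M}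

/-- the mean value inequality -/
theorem mvM (c : Ctx n μ) : MVM n μ :=
  haveI : ProperSpace M := P210.R2.H53.properSpace_riemannian (Cm n) M
  mvm (mv1 (sp c) (dg (sp c) (fk (sp c)))) (brs c)

/-- the weak Harnack inequality -/
theorem whM (c : Ctx n μ) : WHM n μ :=
  haveI : ProperSpace M := P210.R2.H53.properSpace_riemannian (Cm n) M
  whm (wh1 (sp c) (fk (sp c)) (ink (sp c) (kl (sp c) (dg (sp c) (fk (sp c)))))) (brl c)

theorem blH_of (c : Ctx n μ) (hl : FP.LINX n M) (hi : FP.INT1 (Cm n)) : BlH n μ := by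
  intro F i h1 h2
  have : ProperSpace M := P210.R2.H53.properSpace_riemannian (Cm n) M
  have a : B1a n M := b1a
  have b := b1b c.kahler a
  have v := b3 c.vol a b
  have g := bg c a b
  have : IsFiniteMeasureOnCompacts μ := ⟨fun K hK => v.fin K hK⟩
  have hw := whM c
  have hm := mvM c
  have hp : ∀ o : M, RP n o := rp a b (FG.rho c)
  have hq : ∀ o : M, RM n o := rm a b (wld c) (FG.rbl c.kahler a b)
  have C := cal a (b2 c.kahler c.pos c.npos a b) i h1 h2
  have lo := low i h1 h2 C hw hm g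
  have up := upb i h1 h2 lo
  have s1 := sta_pos C h2 (hq F.o)
  have G := grn i h1 a b v C
  have T := tft C h1 h2 v
  have W := wte i h1 C v.fin hw g
  have Q := ql h1 C v (bar i h1 h2 C (hp F.o) s1 lo)
  exact ⟨lo, super C i h1 h2 (hp F.o) up (red C (linf i h1 hl) (mp C)
    (u1 C h1 h2 v g W s1 G T Q (intf a i h1 (FP.maq n) hi))),
    l1 h1 v.fin W (cln C h1 h2 v (sta_neg C h2 (hp F.o)) (hp F.o) up G T) Q up⟩

end Vale.Agent.P253W.HK
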