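import Vale.Agent.P253W.HK.PoiA
import Vale.Agent.P253Z.BG
import Vale.Agent.P253Z.B1a
import Vale.Agent.P253Z.B1b
import Vale.Agent.P210.R2.H999.Seg

/-!
# P253W, block HK: volume comparison and the Poincaré inequality on the manifold
-/

open scoped Manifold ContDiff Bundle ENNReal Topology
open Bundle IsManifold MeasureTheory Set Metric Vale.Agent.P253.Mfd Vale.Agent.P253Z
open Vale.Agent.P272.K (Cm)
open Vale.Agent.P210.R2

noncomputable section

namespace Vale.Agent.P253W.HK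

variable {n : ℕ} {M : Type} [MetricSpace M] [ChartedSpace (Cm n) M]
  [IsManifold 𝓘(ℂ, Cm n) 1 M] [IsManifold 𝓘(ℝ, Cm n) ∞ M]
  [RiemannianBundle (fun x : M => TangentSpace 𝓘(ℝ, Cm n) x)]
  [IsContMDiffRiemannianBundle 𝓘(ℝ, Cm n) ∞ (Cm n) (fun x : M => TangentSpace 𝓘(ℝ, Cm n) x)]
  [IsRiemannianManifold 𝓘(ℝ, Cm n) M] [CompleteSpace M] [ConnectedSpace M] [NoncompactSpace M]
  [MeasurableSpace M] [BorelSpace M] {μ : Measure M}

/-- **POI** -/
theorem sp (c : Ctx n μ) : Sp μ (2 * n) := by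
  have : ProperSpace M := H53.properSpace_riemannian (Cm n) M
  have hn := c.npos
  have b := b1b c.kahler (b1a (n := n) (M := M))
  have hf : Module.finrank ℝ (Cm n) = 2 * n := by
    rw [Module.finrank_pi_fintype]
    simp [mul_comm]
  obtain ⟨ν, hν⟩ := H999.vol (Cm n) M (by omega)
  obtain ⟨k, rfl⟩ := BGa.vol_eq b c.vol hν
  obtain ⟨A1, A2, A3, -⟩ := H934.cala (Cm n) M (by omega) _ hν
  have hk : k ≠ 0 := fun h0 => by simpa [h0] using A2 univ isOpen_univ univ_nonempty
  have hk' : (0 : ℝ) < k := NNReal.coe_pos.2 (pos_iff_ne_zero.2 hk)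
  have fin : IsFiniteMeasureOnCompacts μ := ⟨fun K hK => lt_top_iff_ne_top.2 fun h => by
    have h2 := A1 K hK
    rw [Measure.coe_nnreal_smul_apply, h, ENNReal.mul_top (ENNReal.coe_ne_zero.2 hk)] at h2
    exact h2.ne rfl⟩
  obtain ⟨g1, g2, -⟩ := H196.geo (Cm n) M
  obtain ⟨-, h1⟩ := g1 inferInstance inferInstance
  have B11 := (H34.calb (Cm n) M (by omega)).2.2.2.2.2.2.2.2.2.2
  have geo : Poi.Geo μ (2 ^ (2 * n) * Real.exp 1) := fun x => by
    obtain ⟨S, hS1, hS2, hS3⟩ := exists_measurable_superset_of_null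
      (mem_ae_iff.1 (A3 _ (LipschitzWith.dist_right x).locallyLipschitz))
    obtain ⟨T, H⟩ := H999.exists_intPts h1 g2 x (U := Sᶜ) fun z hz hne =>
      have hd : MDifferentiableAt 𝓘(ℝ, Cm n) 𝓘(ℝ, ℝ) (fun q => dist x q) z :=
        by_contra fun hcon => hz (hS1 hcon)
      ⟨hd, B11 x z hne hd⟩
    refine ⟨T, Sᶜ, H, hS2.compl, by simpa [hk] using hS3, fun R hR l hl A hA hAR => ?_⟩
    have l0 : 0 < l := by linarith [hl.1]
    have h := H168.mcp H912.wlc H934.cala H34.calb (2 * n) (by omega) (Cm n) M (by omega) hf _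
      (1 / R ^ 2) hν (by positivity) (BGa.ricGE c.kahler c.pos (by positivity)) x R l A hR l0 hl.2
      hA hAR
    rw [one_div_mul_cancel (by positivity), measureReal_nnreal_smul_apply,
      measureReal_nnreal_smul_apply, mul_left_comm] at h
    refine (le_of_mul_le_mul_left h hk').trans ?_
    gcongr
    exact inv_le_of_inv_le₀ two_pos (by linarith [hl.1])
  have one : (1 : ℝ) ≤ 2 ^ (2 * n) * Real.exp 1 :=
    one_le_mul_of_one_le_of_one_le (one_le_pow₀ one_le_two) (Real.one_le_exp zero_le_one)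
  refine ⟨by omega, fun x s => (isCompact_closedBall x s).measure_lt_top, fun x s hs => ?_,
    bg c b1a b, 32 * (2 ^ (2 * n) * Real.exp 1), by linarith,
    fun v G h x s hs => Poi.poi (by linarith) geo h x hs⟩
  refine ENNReal.toReal_pos (fun h0 => ?_) measure_ball_lt_top.ne
  simpa [h0] using A2 _ isOpen_ball (nonempty_ball.2 hs : (ball x s).Nonempty)

end Vale.Agent.P253W.HK
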