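import Vale.Agent.P253W.HK.Defs
import Vale.Agent.P210.R2.H999.SegD

/-!
# P253W, block HK: the Poincaré inequality from the measure contraction property
-/

open scoped ENNReal Topology
open MeasureTheory Set Metric Filter Vale.Agent.P210.R2.H999

noncomputable section

namespace Vale.Agent.P253W.HK

namespace Poi

variable {X : Type} [MetricSpace X] {v G : X → ℝ}

theorem dist_T {x : X} {T : ℝ → X → X} {U : Set X} (H : IntPts x T U) {z : X} (hz : z ∈ U)
    {l l' : ℝ} (h0 : 0 < l) (h : l < l') (h1 : l' ≤ 1) :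
    dist (T l' z) (T l z) = (l' - l) * dist x z := by
  have p : 0 < l' := h0.trans h
  have m : l / l' ∈ Icc (0 : ℝ) 1 := ⟨by positivity, (div_le_one p).2 h.le⟩
  have a1 := H.d1 l' ⟨p.le, h1⟩ z
  have a2 := H.d2 l' ⟨p.le, h1⟩ z
  have b1 := H.d1 _ m (T l' z)
  have b2 := H.d2 _ m (T l' z)
  rw [a1, ← mul_assoc] at b1 b2
  rw [div_mul_cancel₀ _ p.ne'] at b1
  rw [sub_mul, div_mul_cancel₀ _ p.ne', one_mul] at b2
  rw [← H.uniq l ⟨h0.le, h.le.trans h1⟩ z hz _ b1 (le_antisymm ?_ ?_), dist_comm, b2]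
  · linarith [dist_triangle (T (l / l') (T l' z)) (T l' z) z]
  · linarith [dist_triangle x (T (l / l') (T l' z)) z]

/-- the estimate along a curve -/
theorem curve (h : Ug v G) {γ : ℝ → X} (hγ : Continuous γ) {d : ℝ} (hd : 0 ≤ d)
    (hl : ∀ l l', 1 / 2 ≤ l → l < l' → l' ≤ 1 → dist (γ l') (γ l) ≤ (l' - l) * d) :
    (v (γ 1) - v (γ (1 / 2))) ^ 2 ≤ d ^ 2 * ∫ l in (1 / 2 : ℝ)..1, G (γ l) ^ 2 := by
  have hg : Continuous fun l => G (γ l) := h.2.1.comp hγ
  have h1 : |v (γ 1) - v (γ (1 / 2))| ≤ d * ∫ l in (1 / 2 : ℝ)..1, G (γ l) := by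
    refine image_le_of_liminf_slope_right_le_deriv_boundary
      (f := fun l => |v (γ l) - v (γ (1 / 2))|) (B := fun t => d * ∫ l in (1 / 2 : ℝ)..t, G (γ l))
      (B' := fun l => d * G (γ l)) (a := 1 / 2) (b := 1)
      ((h.1.comp hγ).sub continuous_const).abs.continuousOn (by simp)
      (fun t _ => ((hg.integral_hasStrictDerivAt _ t).hasDerivAt.const_mul d).continuousAt
        |>.continuousWithinAt)
      (fun t _ => ((hg.integral_hasStrictDerivAt _ t).hasDerivAt.const_mul d).hasDerivWithinAt)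
      (fun t ht r hr => Eventually.frequently ?_) ⟨by norm_num, le_rfl⟩
    obtain ⟨ε, ε0, hε⟩ : ∃ ε > 0, d * G (γ t) + ε * d < r :=
      ⟨(r - d * G (γ t)) / (d + 1), div_pos (by linarith) (by linarith), by
        rw [div_mul_eq_mul_div, ← lt_sub_iff_add_lt', div_lt_iff₀ (by linarith)]
        nlinarith⟩
    filter_upwards [mem_nhdsWithin_of_mem_nhds (hγ.continuousAt.eventually (h.2.2.2 (γ t) ε ε0)),
      Ioo_mem_nhdsGT ht.2] with s h1 h2
    rw [slope_def_field, div_lt_iff₀ (sub_pos.2 h2.1)]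
    have h3 := mul_le_mul_of_nonneg_left (hl t s ht.1 h2.1 h2.2.le)
      (add_nonneg (h.2.2.1 (γ t)) ε0.le)
    have h4 := abs_sub_abs_le_abs_sub (v (γ s) - v (γ (1 / 2))) (v (γ t) - v (γ (1 / 2)))
    rw [sub_sub_sub_cancel_right] at h4
    nlinarith [mul_lt_mul_of_pos_right hε (sub_pos.2 h2.1)]
  have h2 : (∫ l in (1 / 2 : ℝ)..1, G (γ l)) ^ 2 ≤ ∫ l in (1 / 2 : ℝ)..1, G (γ l) ^ 2 := by
    generalize hJ : ∫ l in (1 / 2 : ℝ)..1, G (γ l) = J
    have h3 := intervalIntegral.integral_mono_on (μ := volume) (a := 1 / 2) (b := 1)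
      (f := fun l => 2 * J * G (γ l) - J ^ 2) (g := fun l => G (γ l) ^ 2) (by norm_num)
      (((continuous_const.mul hg).sub continuous_const).intervalIntegrable _ _)
      ((hg.pow 2).intervalIntegrable _ _)
      fun l _ => by nlinarith [sq_nonneg (G (γ l) - J)]
    rw [intervalIntegral.integral_sub (f := fun l => 2 * J * G (γ l))
      ((continuous_const.mul hg).intervalIntegrable _ _) (by simp), intervalIntegral.integral_const_mul, hJ, intervalIntegral.integral_const,
      smul_eq_mul] at h3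
    nlinarith [sq_nonneg J]
  calc _ = |v (γ 1) - v (γ (1 / 2))| ^ 2 := (sq_abs _).symm
    _ ≤ (d * ∫ l in (1 / 2 : ℝ)..1, G (γ l)) ^ 2 := pow_le_pow_left₀ (abs_nonneg _) h1 2
    _ ≤ _ := by rw [mul_pow]; gcongr

variable [ProperSpace X]

theorem seg (h : Ug v G) {x : X} {T : ℝ → X → X} {U : Set X} (H : IntPts x T U) {z : X}
    (hz : z ∈ U) : ENNReal.ofReal ((v z - v (T (1 / 2) z)) ^ 2) ≤ ENNReal.ofReal (dist x z ^ 2) *
      ∫⁻ l in Ioc (1 / 2 : ℝ) 1, ENNReal.ofReal (G (T l z) ^ 2) := by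
  have hγ : Continuous fun l : ℝ => T (max 0 (min l 1)) z :=
    H.continuousOn.comp_continuous (f := fun l : ℝ => (max 0 (min l 1), z)) (by fun_prop)
      fun l => ⟨⟨le_max_left _ _, max_le zero_le_one (min_le_right _ _)⟩, hz⟩
  have e : ∀ l : ℝ, 1 / 2 ≤ l → l ≤ 1 → max 0 (min l 1) = l := fun l h1 h2 => by
    rw [min_eq_left h2, max_eq_right (by linarith)]
  have h1 := curve h hγ (d := dist x z) dist_nonneg fun l l' a b c => by
    rw [e l a (b.le.trans c), e l' (a.trans b.le) c]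
    exact (dist_T H hz (by linarith) b c).le
  have e1 : T 1 z = z := by
    have := H.d2 1 ⟨zero_le_one, le_rfl⟩ z
    rwa [sub_self, zero_mul, dist_eq_zero] at this
  simp only [e 1 (by norm_num) le_rfl, e (1 / 2) le_rfl (by norm_num), e1] at h1
  refine (ENNReal.ofReal_le_ofReal h1).trans (le_of_eq ?_)
  have hi : IntegrableOn (fun l => G (T (max 0 (min l 1)) z) ^ 2) (Ioc (1 / 2 : ℝ) 1) :=
    (((h.2.1.comp hγ).pow 2).integrableOn_Icc).mono_set Ioc_subset_Icc_self
  rw [ENNReal.ofReal_mul (sq_nonneg _), intervalIntegral.integral_of_le (by norm_num),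
    ofReal_integral_eq_lintegral_ofReal hi (Eventually.of_forall fun l => sq_nonneg _)]
  congr 1
  refine setLIntegral_congr_fun measurableSet_Ioc fun l hl => ?_
  simp only [Function.comp, e l hl.1.le hl.2]

/-- the pairs for which the second half of the way carries half of the oscillation -/
def DD (v : X → ℝ) (x : X) (s : ℝ) : Set (X × X) := {p | ∃ w ∈ closedBall x (2 * s),
  dist p.1 w = 1 / 2 * dist p.1 p.2 ∧ dist w p.2 = (1 - 1 / 2) * dist p.1 p.2 ∧
    (v p.1 - v p.2) ^ 2 ≤ 4 * (v p.2 - v w) ^ 2}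

theorem DD_closed (hv : Continuous v) (x : X) (s : ℝ) : IsClosed (DD v x s) := by
  have : CompactSpace (closedBall x (2 * s)) := isCompact_iff_compactSpace.1 (isCompact_closedBall _ _)
  have h := isClosedMap_fst_of_compactSpace (X := X × X) (Y := closedBall x (2 * s))
    {q | dist q.1.1 q.2 = 1 / 2 * dist q.1.1 q.1.2 ∧ dist q.2.1 q.1.2 = (1 - 1 / 2) * dist q.1.1 q.1.2 ∧
      (v q.1.1 - v q.1.2) ^ 2 ≤ 4 * (v q.1.2 - v q.2) ^ 2}
    ((isClosed_eq (by fun_prop) (by fun_prop)).inter ((isClosed_eq (by fun_prop) (by fun_prop)).inter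
      (isClosed_le (by fun_prop) (by fun_prop))))
  convert h using 1
  ext p
  exact ⟨fun ⟨w, h1, h2⟩ => ⟨(p, ⟨w, h1⟩), h2, rfl⟩, fun ⟨q, h1, h2⟩ => ⟨q.2, q.2.2, h2 ▸ h1⟩⟩

variable [MeasurableSpace X] [BorelSpace X]

/-- unique geodesics and the measure contraction property -/
def Geo (μ : Measure X) (C : ℝ) : Prop := ∀ x : X, ∃ (T : ℝ → X → X) (U : Set X), IntPts x T U ∧
  MeasurableSet U ∧ μ Uᶜ = 0 ∧ ∀ R > (0 : ℝ), ∀ l ∈ Icc (1 / 2 : ℝ) 1, ∀ A : Set X, IsCompact A →
    A ⊆ closedBall x R → μ.real A ≤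
      C * μ.real {w | ∃ z ∈ A, dist x w = l * dist x z ∧ dist w z = (1 - l) * dist x z}

theorem poi {μ : Measure X} [IsFiniteMeasureOnCompacts μ] {C : ℝ} (C0 : 0 ≤ C) (hG : Geo μ C)
    (h : Ug v G) (x : X) {s : ℝ} (hs : 0 < s) :
    ∫ y in ball x s, (∫ z in ball x s, (v y - v z) ^ 2 ∂μ) ∂μ ≤
      32 * C * s ^ 2 * μ.real (ball x s) * ∫ w in ball x (3 * s), G w ^ 2 ∂μ := by
  have hv := h.1
  let f : X × X → ℝ≥0∞ := (DD v x s).indicator fun p => ENNReal.ofReal ((v p.1 - v p.2) ^ 2)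
  have fe : ∀ p ∈ DD v x s, f p = ENNReal.ofReal ((v p.1 - v p.2) ^ 2) := fun p hp =>
    indicator_of_mem hp _
  have hf : Measurable f := Measurable.indicator (by fun_prop) (DD_closed hv x s).measurableSet
  have hI : ∫⁻ w in ball x (3 * s), ENNReal.ofReal (G w ^ 2) ∂μ =
      ENNReal.ofReal (∫ w in ball x (3 * s), G w ^ 2 ∂μ) :=
    (ofReal_integral_eq_lintegral_ofReal (((h.2.1.pow 2).continuousOn.integrableOn_compact
      (isCompact_closedBall x (3 * s))).mono_set ball_subset_closedBall)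
      (Eventually.of_forall fun w => sq_nonneg _)).symm
  have I0 : 0 ≤ ∫ w in ball x (3 * s), G w ^ 2 ∂μ := integral_nonneg fun w => sq_nonneg _
  generalize ∫ w in ball x (3 * s), G w ^ 2 ∂μ = I at hI I0
  have h1 : ∀ y ∈ ball x s, ∫⁻ z in ball x s, f (y, z) ∂μ ≤ ENNReal.ofReal (16 * C * s ^ 2 * I) := by
    intro y hy
    obtain ⟨T, U, H, hU, hU0, hM⟩ := hG y
    have hP : (ball x s ∩ U : Set X) =ᵐ[μ] ball x s :=
      inter_ae_eq_left_of_ae_eq_univ (ae_eq_univ.2 hU0)
    have sub : ball x s ∩ U ⊆ closedBall y (2 * s) := fun z hz => by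
      rw [mem_closedBall]
      linarith [dist_triangle_right z y x, mem_ball.1 hy, mem_ball.1 hz.1]
    have h2 := H.lintegral_lintegral_le μ (by norm_num) C0 (hM (2 * s) (by positivity))
      (measurableSet_ball.inter hU) inter_subset_right sub
      (F := fun w => ENNReal.ofReal (G w ^ 2)) (by have := h.2.1; fun_prop)
    rw [← setLIntegral_congr hP]
    calc _ ≤ ∫⁻ z in ball x s ∩ U, ENNReal.ofReal (16 * s ^ 2) *
          (∫⁻ l in Ioc (1 / 2 : ℝ) 1, ENNReal.ofReal (G (T l z) ^ 2)) ∂μ := by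
          refine setLIntegral_mono' (measurableSet_ball.inter hU) fun z hz => ?_
          by_cases hD : (y, z) ∈ DD v x s
          · obtain ⟨w, -, w1, w2, w3⟩ := id hD
            rw [H.uniq (1 / 2) ⟨by norm_num, by norm_num⟩ z hz.2 w w1 w2] at w3
            have h3 : dist y z ≤ 2 * s := dist_comm y z ▸ mem_closedBall.1 (sub hz)
            calc _ = ENNReal.ofReal ((v y - v z) ^ 2) := indicator_of_mem hD _
              _ ≤ ENNReal.ofReal 4 * ENNReal.ofReal ((v z - v (T (1 / 2) z)) ^ 2) := by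
                rw [← ENNReal.ofReal_mul (by norm_num)]; exact ENNReal.ofReal_le_ofReal w3
              _ ≤ ENNReal.ofReal 4 * (ENNReal.ofReal ((2 * s) ^ 2) * _) := by
                gcongr
                exact (seg h H hz.2).trans (by gcongr)
              _ = _ := by
                rw [← mul_assoc, ← ENNReal.ofReal_mul (by norm_num)]; congr 2; ring
          · exact (indicator_of_notMem hD _).trans_le zero_le'
      _ ≤ ENNReal.ofReal (16 * s ^ 2) * (ENNReal.ofReal C * ENNReal.ofReal I) := by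
          rw [lintegral_const_mul' _ _ ENNReal.ofReal_ne_top, ← hI]
          gcongr
          refine h2.trans ?_
          gcongr
          exact closedBall_subset_ball' (by linarith [mem_ball.1 hy])
      _ = _ := by
          rw [← ENNReal.ofReal_mul C0, ← ENNReal.ofReal_mul (by positivity)]; congr 1; ring
  have h2 : ∫⁻ y in ball x s, (∫⁻ z in ball x s, f (y, z) ∂μ) ∂μ ≤
      ENNReal.ofReal (16 * C * s ^ 2 * I * μ.real (ball x s)) := by
    refine (setLIntegral_mono' measurableSet_ball h1).trans (le_of_eq ?_)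
    rw [setLIntegral_const, ENNReal.ofReal_mul (q := μ.real (ball x s)) (by positivity),
      ofReal_measureReal measure_ball_lt_top.ne]
  have h3 : ∀ y ∈ ball x s, ∀ z ∈ ball x s, ‖(v y - v z) ^ 2‖ₑ ≤ f (y, z) + f (z, y) := by
    intro y hy z hz
    obtain ⟨T, U, H, -⟩ := hG y
    have a1 := H.d1 (1 / 2) ⟨by norm_num, by norm_num⟩ z
    have a2 := H.d2 (1 / 2) ⟨by norm_num, by norm_num⟩ z
    have a3 : T (1 / 2) z ∈ closedBall x (2 * s) := by
      rw [mem_closedBall]
      linarith [dist_triangle_right y z x, mem_ball.1 hy, mem_ball.1 hz,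
        dist_triangle (T (1 / 2) z) z x]
    rw [Real.enorm_eq_ofReal (sq_nonneg _)]
    by_cases hD : (v y - v z) ^ 2 ≤ 4 * (v z - v (T (1 / 2) z)) ^ 2
    · exact le_add_right (fe (y, z) ⟨_, a3, a1, a2, hD⟩).ge
    · refine le_add_left (le_trans (le_of_eq ?_) (fe (z, y)
        ⟨_, a3, by rw [dist_comm, a2, dist_comm z]; norm_num,
          by rw [dist_comm, a1, dist_comm z]; norm_num, ?_⟩).ge)
      · congr 1; ring
      · nlinarith [sq_nonneg (v y + v z - 2 * v (T (1 / 2) z))]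
  have h4 : ‖∫ y in ball x s, (∫ z in ball x s, (v y - v z) ^ 2 ∂μ) ∂μ‖ₑ ≤
      ENNReal.ofReal (32 * C * s ^ 2 * μ.real (ball x s) * I) :=
    calc _ ≤ ∫⁻ y in ball x s, ((∫⁻ z in ball x s, f (y, z) ∂μ) +
          ∫⁻ z in ball x s, f (z, y) ∂μ) ∂μ := by
          refine (enorm_integral_le_lintegral_enorm _).trans
            (setLIntegral_mono' measurableSet_ball fun y hy => ?_)
          rw [← lintegral_add_left (f := fun z => f (y, z)) (hf.comp measurable_prodMk_left)]
          exact (enorm_integral_le_lintegral_enorm _).trans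
            (setLIntegral_mono' measurableSet_ball (h3 y hy))
      _ ≤ ENNReal.ofReal (16 * C * s ^ 2 * I * μ.real (ball x s)) +
          ENNReal.ofReal (16 * C * s ^ 2 * I * μ.real (ball x s)) := by
          rw [lintegral_add_left hf.lintegral_prod_right',
            ← lintegral_lintegral_swap (f := fun y z => f (y, z)) hf.aemeasurable]
          exact add_le_add h2 h2
      _ = _ := by
          rw [← ENNReal.ofReal_add (by positivity) (by positivity)]; congr 1; ring
  exact (ENNReal.ofReal_le_ofReal_iff (by positivity)).1 ((Real.ofReal_le_enorm _).trans h4)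

end Poi

end Vale.Agent.P253W.HK
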