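import Vale.Agent.P253W.HK.Defs

/-!
# P253W, block HK, row U1: uniqueness below the majorant
-/

set_option linter.unusedSectionVars false

open scoped Manifold ContDiff Bundle ENNReal Topology
open Bundle MeasureTheory Set Metric Filter Vale.Agent.P253Z
open Vale.Agent.P272.K (Cm Chart)

noncomputable section

namespace Vale.Agent.P253W.HK

variable {n : ℕ} {M : Type} [MetricSpace M] [ChartedSpace (Cm n) M]

namespace U1a

theorem smT_mono {I J : Set ℝ} {f : ℝ → M → ℝ} (h : SmT n I f) (hJ : J ⊆ I) : SmT n J f :=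
  fun e he => (h e he).mono (prod_mono hJ le_rfl)

theorem smT_const {I : Set ℝ} {a : M → ℝ} (h : Sm n a) : SmT n I fun _ => a :=
  fun e he q hq => ((h e he q.2 hq.2).comp q contDiffAt_snd).contDiffWithinAt

theorem smT_mul {I : Set ℝ} {f g : ℝ → M → ℝ} (h : SmT n I f) (h' : SmT n I g) :
    SmT n I fun t x => f t x * g t x := fun e he => (h e he).mul (h' e he)

theorem smT_cmul {I : Set ℝ} {f : ℝ → M → ℝ} (c : ℝ) (h : SmT n I f) :
    SmT n I fun t x => c * f t x := fun e he => contDiffOn_const.mul (h e he)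

variable [RiemannianBundle (fun x : M => TangentSpace 𝓘(ℝ, Cm n) x)] {F : Flow n M}

theorem cont (C : Cal F) {I : Set ℝ} {f : ℝ → M → ℝ} (h : SmT n I f) :
    ContinuousOn (Function.uncurry f) (I ×ˢ univ) :=
  C.cont I univ f fun e he => (h e he).mono (prod_mono le_rfl inter_subset_left)

theorem slice {I : Set ℝ} {f : ℝ × M → ℝ} (h : ContinuousOn f (I ×ˢ univ)) {t : ℝ} (ht : t ∈ I) :
    Continuous fun x => f (t, x) :=
  h.comp_continuous (by fun_prop) fun x => ⟨ht, mem_univ x⟩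

theorem sm_cont (C : Cal F) {a : M → ℝ} (h : Sm n a) : Continuous a :=
  slice (cont C (smT_const (I := univ) h)) (mem_univ 0)

theorem lap_cont (C : Cal F) {a : M → ℝ} (h : Sm n a) {t : ℝ} (ht : 0 ≤ t) :
    Continuous (F.lap t a) :=
  slice (C.cont_lap (t + 1) _ (smT_const h)).1 ⟨ht, lt_add_one t⟩

theorem vol_cont (h1 : F.Bas1) : ContinuousOn (fun q : ℝ × M => vol F q.1 q.2) (Ici 0 ×ˢ univ) :=
  Real.continuous_exp.comp_continuousOn
    (((slice (h1.sm_cont _ h1.u_sm) self_mem_Ici).comp continuous_snd).continuousOn.sub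
      (h1.sm_cont _ h1.u_sm))

theorem lap_zero (C : Cal F) {a : M → ℝ} {ρ : ℝ} (h : ∀ x, a x ≠ 0 → F.r x ≤ ρ) (t : ℝ) {x : M}
    (hx : ρ < F.r x) : F.lap t a x = 0 := by
  rw [C.congr t a (fun _ => 0) x, C.const]
  filter_upwards [(isOpen_lt continuous_const (continuous_id.dist continuous_const)).mem_nhds hx]
    with y hy
  by_contra h0
  exact (h y h0).not_gt hy

theorem maj_pos (x : M) : 1 ≤ maj F x :=
  le_add_of_le_of_nonneg (one_le_pow₀ (le_add_of_nonneg_right dist_nonneg)) (abs_nonneg _)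

variable [ProperSpace M]

theorem maj_bd (h1 : F.Bas1) (ρ : ℝ) : ∃ m : ℝ, 0 < m ∧ ∀ x, F.r x ≤ ρ → maj F x ≤ m := by
  have hc : Continuous (maj F) :=
    ((continuous_const.add (continuous_id.dist continuous_const)).pow 2).add
      (slice (h1.sm_cont _ h1.u_sm) self_mem_Ici).abs
  obtain ⟨m, hm⟩ := (isCompact_closedBall F.o ρ).exists_bound_of_continuousOn hc.continuousOn
  exact ⟨|m| + 1, by positivity, fun x hx =>
    ((le_abs_self _).trans (hm x hx)).trans ((le_abs_self _).trans (lt_add_one _).le)⟩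

variable [MeasurableSpace M] [BorelSpace M] {μ : Measure M} [IsFiniteMeasureOnCompacts μ]

theorem int_of {g : M → ℝ} {ρ : ℝ} (hg : Continuous g) (h : ∀ x, ρ < F.r x → g x = 0) :
    Integrable g μ :=
  hg.integrable_of_hasCompactSupport (HasCompactSupport.intro (isCompact_closedBall F.o ρ)
    fun x hx => h x (not_le.1 hx))

/-- the formula of Green and the sign of the curvature -/
theorem key (C : Cal F) (h1 : F.Bas1) (h2 : F.Bas2) (hG : GRN F μ) {t ρ : ℝ} (ht : 0 ≤ t)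
    {a b H G : M → ℝ} (ha : Sm n a) (hb : Sm n b) (a0 : ∀ x, 0 ≤ a x)
    (hs : ∀ x, a x ≠ 0 → F.r x ≤ ρ) (b0 : ∀ x, F.r x ≤ ρ → 0 ≤ b x)
    (hi : Integrable (fun x => G x * vol F t x) μ)
    (e : ∀ x, H x = G x + a x * F.lap t b x - F.R t x * (a x * b x)) :
    Integrable (fun x => b x * F.lap t a x * vol F t x) μ ∧ ∫ x, H x * vol F t x ∂μ ≤
      ∫ x, (G x + b x * F.lap t a x) * vol F t x ∂μ := by
  have cv : Continuous (vol F t) := slice (vol_cont h1) ht
  have cR : Continuous (F.R t) := slice (h1.sm_cont _ h1.R_sm) ht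
  have ca := sm_cont C ha
  have cb := sm_cont C hb
  have z : ∀ x, ρ < F.r x → a x = 0 := fun x hx => by_contra fun h => (hs x h).not_gt hx
  have i1 : Integrable (fun x => b x * F.lap t a x * vol F t x) μ :=
    int_of ((cb.mul (lap_cont C ha ht)).mul cv) fun x hx => by rw [lap_zero C hs t hx]; simp
  have i2 : Integrable (fun x => a x * F.lap t b x * vol F t x) μ :=
    int_of ((ca.mul (lap_cont C hb ht)).mul cv) fun x hx => by rw [z x hx]; simp
  have i3 : Integrable (fun x => F.R t x * (a x * b x) * vol F t x) μ :=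
    int_of ((cR.mul (ca.mul cb)).mul cv) fun x hx => by rw [z x hx]; simp
  refine ⟨i1, ?_⟩
  simp only [e, add_mul, sub_mul]
  rw [integral_sub (by exact hi.add i2) i3, integral_add hi i2, integral_add hi i1, hG t ht a b ha hb
    (HasCompactSupport.intro (isCompact_closedBall F.o ρ) fun x hx => z x (not_le.1 hx))]
  refine sub_le_self _ (integral_nonneg fun x => mul_nonneg (mul_nonneg (h2.R_nonneg t ht x) ?_)
    (Real.exp_pos _).le)
  by_cases h : a x = 0
  · simp [h]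
  · exact mul_nonneg (a0 x) (b0 x (hs x h))

variable {S ρ A : ℝ} {X : ℝ → M → ℝ}

/-- the hypotheses on the solution -/
def Hy (F : Flow n M) (S ρ A : ℝ) (X : ℝ → M → ℝ) : Prop := SmT n (Ico 0 (S + 1)) X ∧
  ∀ x, F.r x ≤ ρ → X 0 x = 0 ∧
    (∀ t ∈ Icc 0 S, 0 ≤ X t x ∧ X t x ≤ A * maj F x) ∧ ∀ t ∈ Ioo 0 S, dt X t x = F.lap t (X t) x

/-- the initial bound -/
theorem init (C : Cal F) (h1 : F.Bas1) (h2 : F.Bas2) (hG : GRN F μ) (hT : TFT F μ) {N : ℕ}
    (hW : Wt F μ N) (hS : STA F 1) (hA : 0 ≤ A) : ∃ A', A ≤ A' ∧ ∀ ρ, ∃ ρ', ∀ S X, Hy F S ρ' A X →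
      ∀ t ∈ Ioo 0 S, ∫ x in closedBall F.o ρ, X t x * vol F t x / (1 + F.r x) ^ (2 * N) ∂μ ≤
        A' * t := by
  obtain ⟨K, hK, hσ⟩ := hS N
  set W := ∫ x, maj F x / (1 + F.r x) ^ (2 * N) ∂μ
  have r1 : ∀ x, 1 ≤ 1 + F.r x := fun x => le_add_of_nonneg_right dist_nonneg
  have w0 : ∀ x, 0 ≤ maj F x / (1 + F.r x) ^ (2 * N) := fun x =>
    div_nonneg (zero_le_one.trans (maj_pos x)) (pow_nonneg (zero_le_one.trans (r1 x)) _)
  have W0 : 0 ≤ W := integral_nonneg w0
  refine ⟨A + K * (A * K * n * W), le_add_of_nonneg_right (by positivity), fun ρ => ?_⟩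
  obtain ⟨ρ', σ, sσ, hσ⟩ := hσ ρ
  refine ⟨max ρ ρ', fun S X hX t ht => ?_⟩
  have hs : ∀ x, σ x ≠ 0 → F.r x ≤ max ρ ρ' := fun x hx =>
    le_max_of_le_right (not_lt.1 fun h => hx ((hσ x).2.2.1 h.le))
  have sX : ∀ τ ∈ Icc 0 S, Sm n (X τ) := fun τ hτ =>
    C.sm _ X hX.1 τ ⟨hτ.1, hτ.2.trans_lt (lt_add_one S)⟩
  obtain ⟨i1, e1⟩ := hT (S + 1) ρ' (fun t x => σ x * X t x) (smT_mul (smT_const sσ) hX.1)
    (fun t _ x hx => by rw [(hσ x).2.2.1 hx, zero_mul]) 0 t le_rfl ht.1.le (ht.2.trans (lt_add_one S))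
  have e0 : ∫ x, σ x * X 0 x * vol F 0 x ∂μ = 0 :=
    integral_eq_zero_of_ae (Eventually.of_forall fun x => by
      by_cases h : σ x = 0
      · simp [h]
      · simp [(hX.2 x (hs x h)).1])
  have e2 : ∫ x, σ x * X t x * vol F t x ∂μ ≤ A * K * n * W * t := by
    rw [e0, sub_zero] at e1
    rw [e1]
    refine (intervalIntegral.integral_mono_on_of_le_Ioo ht.1.le i1
      (intervalIntegrable_const (c := A * K * n * W)) fun τ hτ => ?_).trans (by simp; linarith)
    have hτ' : τ ∈ Ioo 0 S := ⟨hτ.1, hτ.2.trans ht.2⟩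
    obtain ⟨i2, k⟩ := key C h1 h2 hG hτ.1.le sσ (sX τ (Ioo_subset_Icc_self hτ')) (G := fun _ => 0)
      (H := fun x => dt (fun t x => σ x * X t x) τ x - F.R τ x * (σ x * X τ x))
      (fun x => (hσ x).1) hs (fun x hx => ((hX.2 x hx).2.1 τ (Ioo_subset_Icc_self hτ')).1)
      (by simp) fun x => by
        rw [zero_add, dt, deriv_const_mul_field]
        by_cases h : σ x = 0
        · simp [h]
        · rw [← (hX.2 x (hs x h)).2.2 τ hτ', dt]
    refine k.trans ?_
    simp only [zero_add]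
    rw [← integral_const_mul]
    refine integral_mono i2 (hW.const_mul _) fun x => ?_
    by_cases hx : max ρ ρ' < F.r x
    · simp only [lap_zero C hs τ hx, mul_zero, zero_mul]
      exact mul_nonneg (by positivity) (w0 x)
    obtain ⟨x0, x1⟩ := (hX.2 x (not_lt.1 hx)).2.1 τ (Ioo_subset_Icc_self hτ')
    have l1 := ((hσ x).2.2.2.2 τ hτ.1.le).1
    have y1 := (C.y_vol τ hτ.1.le x).1
    have y0 : 0 ≤ F.y τ x := (Nat.cast_nonneg n).trans (h2.y_ge τ hτ.1.le x)
    have v0 : 0 < vol F τ x := Real.exp_pos _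
    have r0 := r1 x
    have m0 := maj_pos (F := F) x
    rw [one_mul] at l1
    calc X τ x * F.lap τ σ x * vol F τ x
        ≤ X τ x * (K * F.y τ x / (1 + F.r x) ^ (2 * N + 2)) * vol F τ x := by gcongr
      _ ≤ A * maj F x * (K * F.y τ x / (1 + F.r x) ^ (2 * N)) * vol F τ x := by
        gcongr; omega
      _ = A * K * (F.y τ x * vol F τ x) * (maj F x / (1 + F.r x) ^ (2 * N)) := by ring
      _ ≤ _ := by have := w0 x; gcongr
  have ht' := Ioo_subset_Icc_self ht
  have cv : Continuous (vol F t) := slice (vol_cont h1) ht.1.le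
  have i3 : Integrable (fun x => K * (σ x * X t x * vol F t x)) μ :=
    (int_of (F := F) (ρ := ρ') (((sm_cont C sσ).mul (sm_cont C (sX t ht'))).mul cv) fun x hx => by
      simp [(hσ x).2.2.1 hx.le]).const_mul K
  have p : ∀ x, 0 ≤ K * (σ x * X t x * vol F t x) := fun x => by
    by_cases h : σ x = 0
    · simp [h]
    · exact mul_nonneg (by linarith) (mul_nonneg (mul_nonneg (hσ x).1
        ((hX.2 x (hs x h)).2.1 t ht').1) (Real.exp_pos _).le)
  calc _ ≤ ∫ x in closedBall F.o ρ, K * (σ x * X t x * vol F t x) ∂μ := by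
        refine integral_mono_of_nonneg ?_ i3.integrableOn ?_ <;>
          filter_upwards [ae_restrict_mem measurableSet_closedBall] with x hx <;>
          have x0 := mul_nonneg ((hX.2 x (le_max_of_le_left hx)).2.1 t ht').1
            (Real.exp_pos _ : 0 < vol F t x).le
        · exact div_nonneg x0 (pow_nonneg (zero_le_one.trans (r1 x)) _)
        · rw [div_eq_mul_one_div]
          exact (mul_le_mul_of_nonneg_left ((hσ x).2.2.2.1 hx) x0).trans
            (le_of_eq (by rw [vol]; ring))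
    _ ≤ ∫ x, K * (σ x * X t x * vol F t x) ∂μ :=
        setIntegral_le_integral i3 (Eventually.of_forall p)
    _ ≤ _ := by
        rw [integral_const_mul]
        nlinarith [mul_nonneg hA ht.1.le]

/-- the solution, continued in time by constants -/
def ex (S : ℝ) (X : ℝ → M → ℝ) (t : ℝ) : M → ℝ := X (max 0 (min t S))

theorem ex_eq {t : ℝ} (ht : t ∈ Icc 0 S) : ex S X t = X t := by
  rw [ex, min_eq_left ht.2, max_eq_right ht.1]

theorem ex_cont (C : Cal F) (hS : 0 < S) (h : SmT n (Ico 0 (S + 1)) X) :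
    Continuous (Function.uncurry (ex S X)) :=
  (cont C h).comp_continuous (f := fun q : ℝ × M => (max 0 (min q.1 S), q.2)) (by fun_prop)
    fun _ => ⟨⟨le_max_left _ _, (max_le hS.le (min_le_right _ _)).trans_lt (lt_add_one S)⟩,
      mem_univ _⟩

/-- the inequality for test functions -/
theorem test (C : Cal F) (h1 : F.Bas1) (h2 : F.Bas2) (hG : GRN F μ) (hT : TFT F μ) (hS : 0 < S)
    (hX : Hy F S ρ A X) (χ : ℝ → M → ℝ) (a b : ℝ) (sχ : SmT n univ χ) (χ0 : ∀ t x, 0 ≤ χ t x)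
    (ha : 0 < a) (hb : b < S) (hs : ∀ t x, χ t x ≠ 0 → t ∈ Icc a b ∧ F.r x ≤ ρ) :
    0 ≤ ∫ q : ℝ × M, (dt χ q.1 q.2 * ex S X q.1 q.2 + ex S X q.1 q.2 * F.lap q.1 (χ q.1) q.2) *
      vol F q.1 q.2 ∂(volume.prod μ) := by
  set G : ℝ × M → ℝ := fun q =>
    (dt χ q.1 q.2 * ex S X q.1 q.2 + ex S X q.1 q.2 * F.lap q.1 (χ q.1) q.2) * vol F q.1 q.2
  by_cases hi : Integrable G (volume.prod μ)
  swap
  · rw [integral_undef hi]
  have z : ∀ t ∉ Icc a b, ∀ x, χ t x = 0 := fun t ht x => by_contra fun h => ht (hs t x h).1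
  have sχ' : SmT n (Ico 0 (S + 1)) χ := smT_mono sχ (subset_univ _)
  obtain ⟨i1, e1⟩ := hT (S + 1) (ρ + 1) (fun t x => χ t x * X t x) (smT_mul sχ' hX.1)
    (fun t _ x hx => by
      rw [show χ t x = 0 from by_contra fun h => by linarith [(hs t x h).2], zero_mul])
    0 S le_rfl hS.le (lt_add_one S)
  simp only [z S fun h => hb.not_ge h.2, z 0 fun h => ha.not_ge h.1, zero_mul, sub_self] at e1
  have g0 : ∀ t ∉ Ioc 0 S, ∫ x, G (t, x) ∂μ = 0 := fun t ht => by
    have ht' : t ∉ Icc a b := fun h => ht ⟨ha.trans_le h.1, h.2.trans hb.le⟩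
    refine integral_eq_zero_of_ae (Eventually.of_forall fun x => ?_)
    have d0 : dt χ t x = 0 := by
      rw [dt, EventuallyEq.deriv_eq (f := fun _ => 0), deriv_const]
      filter_upwards [isClosed_Icc.isOpen_compl.mem_nhds ht'] with s h using z s h x
    simp [G, d0, show χ t = fun _ => 0 from funext (z t ht'), C.const]
  rw [integral_prod _ hi, ← setIntegral_eq_integral_of_forall_compl_eq_zero g0,
    ← intervalIntegral.integral_of_le hS.le]
  refine e1.trans_le (intervalIntegral.integral_mono_ae_restrict hS.le i1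
    hi.integral_prod_left.intervalIntegrable ?_)
  rw [← Measure.restrict_congr_set Ioo_ae_eq_Icc]
  filter_upwards [ae_restrict_mem measurableSet_Ioo, ae_restrict_of_ae hi.prod_right_ae]
    with τ hτ i2
  have hτ' := Ioo_subset_Icc_self hτ
  have hτ2 : τ ∈ Ioo 0 (S + 1) := ⟨hτ.1, hτ.2.trans (lt_add_one S)⟩
  obtain ⟨χ', -, dχ⟩ := C.cont_dt _ χ sχ'
  obtain ⟨X', -, dX⟩ := C.cont_dt _ X hX.1
  have k := fun G hi e => key C h1 h2 hG hτ.1.le (C.sm _ χ sχ τ (mem_univ τ))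
    (C.sm _ X hX.1 τ (Ioo_subset_Ico_self hτ2)) (G := G)
    (H := fun x => G x + χ τ x * F.lap τ (X τ) x - F.R τ x * (χ τ x * X τ x)) (χ0 τ)
    (fun x hx => (hs τ x hx).2) (fun x hx => ((hX.2 x hx).2.1 τ hτ').1) hi e
  simp only [G, ex_eq hτ'] at i2 ⊢
  refine le_of_eq_of_le (integral_congr_ae (Eventually.of_forall fun x => ?_))
    (k (fun x => dt χ τ x * X τ x) ((i2.sub (k (fun _ => 0) (by simp) fun _ => rfl).1).congr
      (Eventually.of_forall fun x => by simp only [Pi.sub_apply]; ring)) fun _ => rfl).2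
  have e : dt (fun t x => χ t x * X t x) τ x = dt χ τ x * X τ x + χ τ x * dt X τ x := by
    rw [dt, dt, dt, (dχ τ hτ2 x).deriv, (dX τ hτ2 x).deriv]
    exact ((dχ τ hτ2 x).mul (dX τ hτ2 x)).deriv
  simp only [e]
  by_cases h : χ τ x = 0
  · simp [h]
  · rw [(hX.2 x (hs τ x h).2).2.2 τ hτ]

end U1a

open U1a in
/-- **U1** -/
theorem u1 [RiemannianBundle (fun x : M => TangentSpace 𝓘(ℝ, Cm n) x)] [ProperSpace M]
    [MeasurableSpace M] [BorelSpace M] {μ : Measure M} {F : Flow n M} (C : Cal F) (h1 : F.Bas1)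
    (h2 : F.Bas2) (b3 : B3 n μ) (hbg : BG n μ) (hW : WTE F μ) (hS : STA F 1) (hG : GRN F μ)
    (hT : TFT F μ) (hQ : QL F μ) (hN : INTF F) : U1 F := by
  intro S S0 ρ₀ A₀ ε ε0
  have : IsFiniteMeasureOnCompacts μ := ⟨fun K hK => b3.fin K hK⟩
  obtain ⟨N, hW⟩ := hW
  set A := max A₀ 0
  have A0 : 0 ≤ A := le_max_right _ _
  obtain ⟨A', hA', hi⟩ := init C h1 h2 hG hT hW hS A0
  obtain ⟨m, m0, hm⟩ := maj_bd h1 (ρ₀ + 1)
  have B0 : 0 < A * m + 1 := by positivity
  obtain ⟨δ₀, δ0, hδ⟩ := hN S S0 ρ₀ (ε / 2 / (A * m + 1)) (by positivity)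
  set δ := min δ₀ (min 1 S)
  have d0 : 0 < δ := lt_min δ0 (lt_min one_pos S0)
  have d1 : δ ≤ 1 := (min_le_right _ _).trans (min_le_left _ _)
  have d2 : δ ≤ S := (min_le_right _ _).trans (min_le_right _ _)
  have cK : IsCompact (Icc 0 S ×ˢ closedBall F.o (ρ₀ + 1)) :=
    isCompact_Icc.prod (isCompact_closedBall _ _)
  have cv := (vol_cont h1).mono
    (prod_mono (Icc_subset_Ici_self : Icc 0 S ⊆ _) (subset_univ (closedBall F.o (ρ₀ + 1))))
  obtain ⟨v, v0, hv⟩ := cK.exists_forall_le' cv fun q _ => (Real.exp_pos _ : 0 < vol F q.1 q.2)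
  obtain ⟨K, K1, hK⟩ := hbg
  have fin : ∀ x s, μ (ball x s) ≠ ⊤ := fun x s => measure_ball_lt_top.ne
  have o0 : 0 < μ.real (ball F.o 1) :=
    ENNReal.toReal_pos (b3.pos _ isOpen_ball (nonempty_ball.2 one_pos)).ne' (fin _ _)
  set w := μ.real (ball F.o 1) / (K * ((|ρ₀| + 1) / δ) ^ (2 * n))
  have w0 : 0 < w := by positivity
  have hw : ∀ x, F.r x ≤ ρ₀ → w ≤ μ.real (ball x δ) := fun x hx => by
    rw [div_le_iff₀' (by positivity)]
    refine (measureReal_mono (ball_subset_ball' ?_) (fin _ _)).trans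
      (hK x δ _ d0 (d1.trans (le_add_of_nonneg_left (abs_nonneg _))))
    rw [dist_comm]
    linarith [show dist x F.o ≤ |ρ₀| from hx.trans (le_abs_self _)]
  obtain ⟨ρ, hρ⟩ := hQ N hW S S0 (ρ₀ + 1) A' (ε / 2 * v * (δ * w) / 2) (by positivity)
  obtain ⟨ρ', hρ'⟩ := hi ρ
  refine ⟨max (max ρ ρ') (ρ₀ + 1), fun X sX hX t ht x hx => ?_⟩
  have hy : ∀ ρ1, ρ1 ≤ max (max ρ ρ') (ρ₀ + 1) → Hy F S ρ1 A X := fun ρ1 h => ⟨sX, fun y hy => by
    obtain ⟨a, b, c⟩ := hX y (hy.trans h)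
    exact ⟨a, fun s hs => ⟨(b s hs).1, (b s hs).2.trans (mul_le_mul_of_nonneg_right
      (le_max_left _ _) (zero_le_one.trans (maj_pos y)))⟩, c⟩⟩
  have y1 := hy ρ (le_max_of_le_left (le_max_left _ _))
  have y2 := hy (ρ₀ + 1) (le_max_right _ _)
  have cD := ex_cont C S0 sX
  obtain ⟨m', -, hm'⟩ := maj_bd h1 ρ
  have q := hρ (ex S X) (ex S X) (A * m') cD.measurable cD.measurable (fun s hs y hy => by
      rw [ex_eq (Ioo_subset_Icc_self hs)]
      obtain ⟨a, b⟩ := (y1.2 y hy).2.1 s (Ioo_subset_Icc_self hs)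
      exact ⟨a, le_rfl, b.trans (mul_le_mul_of_nonneg_right hA' (zero_le_one.trans (maj_pos y))),
        b.trans (mul_le_mul_of_nonneg_left (hm' y hy) A0)⟩)
    (fun s hs => by
      rw [ex_eq (Ioo_subset_Icc_self hs)]
      exact hρ' S X (hy ρ' (le_max_of_le_left (le_max_right _ _))) s hs)
    (test C h1 h2 hG hT S0 y1)
  by_contra hc
  have osc := hδ (fun t x => (A * m + 1)⁻¹ * X t x)
    (smT_cmul _ (smT_mono sX (Icc_subset_Ico_right (lt_add_one S)))) (fun y hy => by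
      obtain ⟨a, b, c⟩ := y2.2 y hy
      refine ⟨by rw [a, mul_zero], fun s hs => ?_, fun s hs => ?_⟩
      · rw [abs_of_nonneg (mul_nonneg (inv_pos.2 B0).le (b s hs).1), inv_mul_le_one₀ B0]
        linarith [(b s hs).2, mul_le_mul_of_nonneg_left (hm y hy) A0]
      · have c2 := C.c2 _ (C.sm _ X sX s ⟨hs.1.le, hs.2.trans (lt_add_one S)⟩) y
        have := C.lin s (A * m + 1)⁻¹ 0 _ _ y c2 c2
        simp only [zero_mul, add_zero] at this
        rw [this, ← c s hs, dt, dt, deriv_const_mul_field]) t ht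
  set c := min t (S - δ)
  have sub : Ioo c (c + δ) ×ˢ ball x δ ⊆ Ioo 0 S ×ˢ closedBall F.o (ρ₀ + 1) := by
    refine prod_mono (Ioo_subset_Ioo (le_min ht.1 (by linarith)) ?_)
      (ball_subset_closedBall.trans (closedBall_subset_closedBall' ?_))
    · linarith [min_le_right t (S - δ)]
    · linarith [show dist x F.o ≤ ρ₀ from hx]
  have sub2 : Ioo 0 S ×ˢ closedBall F.o (ρ₀ + 1) ⊆ Icc 0 S ×ˢ closedBall F.o (ρ₀ + 1) :=
    prod_mono Ioo_subset_Icc_self le_rfl
  have i1 : IntegrableOn (fun q : ℝ × M => ex S X q.1 q.2 * vol F q.1 q.2)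
      (Ioo 0 S ×ˢ closedBall F.o (ρ₀ + 1)) (volume.prod μ) :=
    ((cD.continuousOn.mul cv).integrableOn_compact cK).mono_set sub2
  have l1 := setIntegral_mono_set i1 (by
    filter_upwards [ae_restrict_mem (measurableSet_Ioo.prod measurableSet_closedBall)] with p hp
    rw [ex_eq (sub2 hp).1]
    exact mul_nonneg ((y2.2 _ hp.2).2.1 _ (sub2 hp).1).1 (Real.exp_pos _).le) sub.eventuallyLE
  have l2 := setIntegral_ge_of_const_le_real (c := ε / 2 * v)
    (measurableSet_Ioo.prod measurableSet_ball)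
    ((measure_mono (sub.trans sub2)).trans_lt cK.measure_lt_top).ne (fun p hp => by
      have hp' := sub2 (sub hp)
      refine mul_le_mul ?_ (hv p hp') v0.le ?_ <;> rw [ex_eq hp'.1]
      swap
      · exact ((y2.2 _ hp'.2).2.1 _ hp'.1).1
      have h4 : |t - p.1| ≤ δ := abs_le.2 ⟨by linarith [hp.1.2, min_le_left t (S - δ)], by
        linarith [hp.1.1, le_min (sub_le_self t d0.le) (sub_le_sub_right ht.2 δ)]⟩
      have h3 := osc p.1 hp'.1 x p.2 hx (h4.trans (min_le_left _ _))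
        ((dist_comm _ _).trans_le ((mem_ball.1 hp.2).le.trans (min_le_left _ _)))
      rw [← mul_sub, abs_mul, abs_of_pos (inv_pos.2 B0), inv_mul_eq_div,
        div_le_div_iff_of_pos_right B0] at h3
      linarith [(abs_le.1 h3).2, not_le.1 hc])
    (i1.mono_set sub)
  rw [measureReal_prod_prod, Real.volume_real_Ioo_of_le (by linarith), add_sub_cancel_left] at l2
  have l3 : ε / 2 * v * (δ * w) ≤ ε / 2 * v * (δ * μ.real (ball x δ)) := by
    have := hw x hx
    gcongr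
  have : 0 < ε / 2 * v * (δ * w) := by positivity
  linarith

end Vale.Agent.P253W.HK
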