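import Vale.Agent.P253W.HK.Defs

/-!
# P253W, block HK: rules for `Ug`, volumes of balls
-/

open scoped ENNReal Topology
open MeasureTheory Set Metric Filter

set_option linter.unusedSectionVars false

noncomputable section

namespace Vale.Agent.P253W.HK

variable {X : Type} [MetricSpace X] {u v G H : X → ℝ}

theorem Ug.mono (h : Ug u G) (hH : Continuous H) (hle : ∀ p, G p ≤ H p) : Ug u H :=
  ⟨h.1, hH, fun p => (h.2.2.1 p).trans (hle p), fun p ε hε => (h.2.2.2 p ε hε).mono fun q hq =>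
    hq.trans (by gcongr; exact hle p)⟩

theorem Ug.sub_const (h : Ug u G) (c : ℝ) : Ug (fun p => u p - c) G :=
  ⟨h.1.sub continuous_const, h.2.1, h.2.2.1, fun p ε hε => (h.2.2.2 p ε hε).mono fun q hq => by
    rwa [sub_sub_sub_cancel_right]⟩

/-- composition with a function which is locally Lipschitz with constants near `L` -/
theorem Ug.comp_lip (h : Ug u G) {φ L : ℝ → ℝ} (hφ : Continuous φ) (hL : Continuous L)
    (h0 : ∀ a, 0 ≤ L a) (hl : ∀ a, ∀ ε > (0 : ℝ), ∀ᶠ b in 𝓝 a, |φ b - φ a| ≤ (L a + ε) * |b - a|) :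
    Ug (fun p => φ (u p)) fun p => L (u p) * G p := by
  refine ⟨hφ.comp h.1, (hL.comp h.1).mul h.2.1, fun p => mul_nonneg (h0 _) (h.2.2.1 p),
    fun p ε hε => ?_⟩
  have hG := h.2.2.1 p
  have hLp := h0 (u p)
  obtain ⟨δ, hδ, hδ'⟩ : ∃ δ > (0 : ℝ), (L (u p) + δ) * (G p + δ) ≤ L (u p) * G p + ε := by
    refine ⟨min 1 (ε / (L (u p) + G p + 1)), by positivity, ?_⟩
    have a1 := min_le_left 1 (ε / (L (u p) + G p + 1))
    have a2 := (le_div_iff₀ (by positivity)).1 (min_le_right 1 (ε / (L (u p) + G p + 1)))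
    have a3 : 0 < min 1 (ε / (L (u p) + G p + 1)) := by positivity
    nlinarith
  filter_upwards [h.2.2.2 p δ hδ, h.1.continuousAt.eventually (hl (u p) δ hδ)] with q h1 h2
  calc |φ (u q) - φ (u p)| ≤ (L (u p) + δ) * ((G p + δ) * dist q p) := h2.trans (by gcongr)
    _ ≤ _ := by rw [← mul_assoc]; gcongr

theorem Ug.comp (h : Ug u G) {φ : ℝ → ℝ} (hφ : ContDiff ℝ 1 φ) :
    Ug (fun p => φ (u p)) fun p => |deriv φ (u p)| * G p := by
  refine h.comp_lip (L := fun a => |deriv φ a|) hφ.continuous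
    (hφ.continuous_deriv le_rfl).abs (fun a => abs_nonneg _) fun a ε hε => ?_
  have h1 := (hφ.differentiable one_ne_zero a).hasDerivAt.isLittleO.def hε
  filter_upwards [h1] with b hb
  rw [Real.norm_eq_abs, Real.norm_eq_abs, smul_eq_mul] at hb
  have h2 := abs_add_le (φ b - φ a - (b - a) * deriv φ a) ((b - a) * deriv φ a)
  rw [sub_add_cancel, abs_mul] at h2
  linarith

theorem Ug.mul (h : Ug u G) (h' : Ug v H) :
    Ug (fun p => u p * v p) fun p => |u p| * H p + |v p| * G p := by
  refine ⟨h.1.mul h'.1, (h.1.abs.mul h'.2.1).add (h'.1.abs.mul h.2.1), fun p =>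
    add_nonneg (mul_nonneg (abs_nonneg _) (h'.2.2.1 p)) (mul_nonneg (abs_nonneg _) (h.2.2.1 p)),
    fun p ε hε => ?_⟩
  have hG := h.2.2.1 p
  have hH := h'.2.2.1 p
  obtain ⟨δ, hδ, hδ'⟩ : ∃ δ > (0 : ℝ), (|u p| + δ) * (H p + δ) + |v p| * (G p + δ) ≤
      |u p| * H p + |v p| * G p + ε := by
    refine ⟨min 1 (ε / (|u p| + |v p| + H p + 1)), by positivity, ?_⟩
    have a1 := min_le_left 1 (ε / (|u p| + |v p| + H p + 1))
    have a2 := (le_div_iff₀ (by positivity)).1 (min_le_right 1 (ε / (|u p| + |v p| + H p + 1)))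
    have a3 : 0 < min 1 (ε / (|u p| + |v p| + H p + 1)) := by positivity
    nlinarith
  have hu : ∀ᶠ q in 𝓝 p, |u q| < |u p| + δ :=
    h.1.abs.continuousAt.eventually_lt continuousAt_const (by linarith)
  filter_upwards [h.2.2.2 p δ hδ, h'.2.2.2 p δ hδ, hu] with q h1 h2 h3
  have h4 : u q * v q - u p * v p = u q * (v q - v p) + v p * (u q - u p) := by ring
  rw [h4]
  refine (abs_add_le _ _).trans ?_
  rw [abs_mul, abs_mul]
  calc |u q| * |v q - v p| + |v p| * |u q - u p|
      ≤ (|u p| + δ) * ((H p + δ) * dist q p) + |v p| * ((G p + δ) * dist q p) := by gcongr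
    _ = ((|u p| + δ) * (H p + δ) + |v p| * (G p + δ)) * dist q p := by ring
    _ ≤ _ := by gcongr

/-- the Lipschitz step from `0` to `1` on `[a, b]` -/
def st (a b s : ℝ) : ℝ := max (min ((s - a) / (b - a)) 1) 0

theorem st_mem (a b s : ℝ) : 0 ≤ st a b s ∧ st a b s ≤ 1 :=
  ⟨le_max_right _ _, max_le (min_le_right _ _) zero_le_one⟩

theorem st_zero {a b s : ℝ} (hab : a < b) (h : s ≤ a) : st a b s = 0 :=
  max_eq_right ((min_le_left _ _).trans (div_nonpos_of_nonpos_of_nonneg (by linarith) (by linarith)))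

theorem st_one {a b s : ℝ} (hab : a < b) (h : b ≤ s) : st a b s = 1 := by
  rw [st, min_eq_right ((one_le_div (by linarith)).2 (by linarith)), max_eq_left zero_le_one]

theorem st_cont (a b : ℝ) : Continuous (st a b) := by unfold st; fun_prop

theorem st_lip {a b : ℝ} (hab : a < b) (s t : ℝ) : |st a b s - st a b t| ≤ 1 / (b - a) * |s - t| := by
  refine (abs_max_sub_max_le_abs _ _ _).trans ((abs_min_sub_min_le_max _ _ _ _).trans ?_)
  rw [sub_self, abs_zero, max_eq_left (abs_nonneg _), ← sub_div, abs_div,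
    abs_of_pos (sub_pos.2 hab), sub_sub_sub_cancel_right, one_div_mul_eq_div]

/-- the cutoff function of the balls of radii `r < r'` -/
theorem ug_cut (x : X) {r r' r'' : ℝ} (h : r < r') (h' : r' < r'') :
    Ug (fun y => 1 - st r r' (dist y x)) fun y => 1 / (r' - r) * (1 - st r' r'' (dist y x)) := by
  have hp : 0 < 1 / (r' - r) := one_div_pos.2 (sub_pos.2 h)
  have c1 := st_cont r r'
  have c2 := st_cont r' r''
  refine ⟨by fun_prop, by fun_prop, fun p => mul_nonneg hp.le (sub_nonneg.2 (st_mem _ _ _).2),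
    fun p ε hε => ?_⟩
  rcases le_or_gt (dist p x) r' with hp' | hp'
  · refine Eventually.of_forall fun q => ?_
    beta_reduce
    rw [st_zero h' hp', sub_sub_sub_cancel_left, sub_zero, mul_one]
    refine (st_lip h _ _).trans ?_
    have := abs_dist_sub_le p q x
    rw [dist_comm p q] at this
    gcongr
    linarith
  · have hq : ∀ᶠ q in 𝓝 p, r' < dist q x :=
      continuousAt_const.eventually_lt (by fun_prop) hp'
    filter_upwards [hq] with q hq
    rw [st_one h hq.le, st_one h hp'.le, sub_self, abs_zero]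
    have := mul_nonneg hp.le (sub_nonneg.2 (st_mem r' r'' (dist p x)).2)
    positivity

theorem Ug.pos (h : Ug u G) {k k' : ℝ} (hk : k < k') :
    Ug (fun p => max (u p - k') 0) fun p => st k k' (u p) * G p := by
  refine h.comp_lip (φ := fun a => max (a - k') 0) (by fun_prop) (st_cont k k')
    (fun a => (st_mem _ _ _).1) fun a ε hε => ?_
  rcases lt_or_ge a k' with ha | ha
  · filter_upwards [Iio_mem_nhds ha] with b (hb : b < k')
    rw [max_eq_right (by linarith), max_eq_right (by linarith), sub_self, abs_zero]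
    have := (st_mem k k' a).1
    positivity
  · refine Eventually.of_forall fun b => (abs_max_sub_max_le_abs _ _ _).trans ?_
    rw [st_one hk ha, sub_sub_sub_cancel_right]
    nlinarith [abs_nonneg (b - a)]

/-- truncation in the domain and in the range -/
theorem Ug.trunc (h : Ug u G) (x : X) {k k' r r' r'' : ℝ} (hk : k < k') (hr : r < r')
    (hr' : r' < r'') : ∃ w W : X → ℝ, Ug w W ∧ (∀ y ∈ ball x r, w y = max (u y - k') 0) ∧
      (∀ y, w y ≠ 0 → y ∈ ball x r' ∧ k' < u y) ∧ (∀ y ∉ ball x r'', w y = 0 ∧ W y = 0) ∧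
      ∀ y, W y ^ 2 ≤ 2 * (ball x r' ∩ {y | k < u y}).indicator (fun y => G y ^ 2) y +
        2 / (r' - r) ^ 2 * (ball x r'').indicator (fun y => max (u y - k') 0 ^ 2) y := by
  refine ⟨_, _, (ug_cut x hr hr').mul (h.pos hk), fun y hy => ?_, fun y hy => ?_, fun y hy => ?_,
    fun y => ?_⟩
  · rw [st_zero hr (le_of_lt hy), sub_zero, one_mul]
  · refine ⟨mem_ball.2 (not_le.1 fun h1 => hy ?_), not_le.1 fun h1 => hy ?_⟩
    · rw [st_one hr h1, sub_self, zero_mul]
    · rw [max_eq_right (by linarith), mul_zero]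
  · have h1 : r'' ≤ dist y x := not_lt.1 hy
    simp only [st_one hr (hr'.le.trans h1), st_one hr' h1, sub_self, zero_mul, abs_zero, mul_zero,
      add_zero, and_self]
  · have a1 := st_mem r r' (dist y x)
    have a2 := st_mem r' r'' (dist y x)
    have a3 := st_mem k k' (u y)
    have a4 := h.2.2.1 y
    have a5 : 0 ≤ max (u y - k') 0 := le_max_right _ _
    have a6 : 0 < r' - r := sub_pos.2 hr
    have b1 : (|1 - st r r' (dist y x)| * (st k k' (u y) * G y)) ^ 2 ≤
        (ball x r' ∩ {y | k < u y}).indicator (fun y => G y ^ 2) y := by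
      by_cases hy : y ∈ ball x r' ∩ {y | k < u y}
      · rw [indicator_of_mem hy, abs_of_nonneg (by linarith)]
        have e1 : st k k' (u y) * G y ≤ G y := mul_le_of_le_one_left a4 a3.2
        have e2 : 0 ≤ st k k' (u y) * G y := mul_nonneg a3.1 a4
        exact pow_le_pow_left₀ (mul_nonneg (by linarith) e2)
          ((mul_le_of_le_one_left e2 (by linarith)).trans e1) 2
      · rw [indicator_of_notMem hy]
        rcases not_and_or.1 hy with h1 | h1
        · rw [st_one hr (not_lt.1 h1)]; simp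
        · rw [st_zero hk (not_lt.1 h1)]; simp
    have b2 : (|max (u y - k') 0| * (1 / (r' - r) * (1 - st r' r'' (dist y x)))) ^ 2 ≤
        1 / (r' - r) ^ 2 * (ball x r'').indicator (fun y => max (u y - k') 0 ^ 2) y := by
      by_cases hy : y ∈ ball x r''
      · rw [indicator_of_mem hy, abs_of_nonneg a5, mul_pow, mul_pow, mul_comm, one_div_pow]
        have : (1 - st r' r'' (dist y x)) ^ 2 ≤ 1 := pow_le_one₀ (by linarith) (by linarith)
        gcongr
        exact mul_le_of_le_one_right (by positivity) this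
      · rw [indicator_of_notMem hy, st_one hr' (not_lt.1 hy)]; simp
    rw [show 2 / (r' - r) ^ 2 = 2 * (1 / (r' - r) ^ 2) by ring, mul_assoc 2]
    nlinarith [sq_nonneg (|1 - st r r' (dist y x)| * (st k k' (u y) * G y) -
      |max (u y - k') 0| * (1 / (r' - r) * (1 - st r' r'' (dist y x))))]

variable [MeasurableSpace X] {μ : Measure X} {m : ℕ}

theorem Sp.ball_ne (h : Sp μ m) (x : X) (s : ℝ) : μ (ball x s) ≠ ⊤ :=
  ((measure_mono ball_subset_closedBall).trans_lt (h.fin x s)).ne

/-- comparison of balls with different centres -/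
theorem Sp.dbl (h : Sp μ m) : ∃ C ≥ (1 : ℝ), ∀ x y s t T, 0 < s → s ≤ T → dist x y + t ≤ T →
    μ.real (ball x t) ≤ C * (T / s) ^ m * μ.real (ball y s) := by
  obtain ⟨C, hC, hb⟩ := h.bg
  exact ⟨C, hC, fun x y s t T hs hT hd => (measureReal_mono
    (ball_subset_ball' (by linarith)) (h.ball_ne y T)).trans (hb y s T hs hT)⟩

variable [ProperSpace X] [BorelSpace X]

theorem Sp.cpt (h : Sp μ m) : IsFiniteMeasureOnCompacts μ := ⟨fun K hK => by
  rcases K.eq_empty_or_nonempty with rfl | ⟨x, -⟩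
  · simp
  · obtain ⟨r, hr⟩ := hK.isBounded.subset_closedBall x
    exact (measure_mono hr).trans_lt (h.fin x r)⟩

theorem Sp.intOn (h : Sp μ m) {f : X → ℝ} (hf : Continuous f) {A : Set X} {x : X} {s : ℝ}
    (hA : A ⊆ ball x s) : IntegrableOn f A μ :=
  haveI := h.cpt
  (hf.continuousOn.integrableOn_compact (isCompact_closedBall x s)).mono_set
    (hA.trans ball_subset_closedBall)

theorem Sp.int (h : Sp μ m) {f : X → ℝ} (hf : Continuous f) {x : X} {s : ℝ}
    (h0 : ∀ y ∉ ball x s, f y = 0) : Integrable f μ :=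
  (integrableOn_iff_integrable_of_support_subset fun y hy => by
    by_contra h1; exact hy (h0 y h1)).1 (h.intOn hf Subset.rfl)

/-- the energy of a truncation -/
theorem Sp.trunc (h : Sp μ m) (hu : Ug u G) (x : X) {k k' r r' r'' : ℝ} (hk : k < k') (hr : r < r')
    (hr' : r' < r'') : ∃ w W : X → ℝ, Ug w W ∧ (∀ y ∉ ball x r'', w y = 0 ∧ W y = 0) ∧
      {y | w y ≠ 0} ⊆ ball x r' ∩ {y | k' < u y} ∧
      ∫ y in ball x r, max (u y - k') 0 ^ 2 ∂μ ≤ ∫ y, w y ^ 2 ∂μ ∧
      ∫ y, W y ^ 2 ∂μ ≤ 2 * ∫ y in ball x r' ∩ {y | k < u y}, G y ^ 2 ∂μ +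
        2 / (r' - r) ^ 2 * ∫ y in ball x r'', max (u y - k') 0 ^ 2 ∂μ := by
  obtain ⟨w, W, h1, h2, h3, h4, h5⟩ := hu.trunc x hk hr hr'
  have c1 := hu.1
  have c2 := hu.2.1
  have m1 : MeasurableSet (ball x r' ∩ {y | k < u y}) :=
    (isOpen_ball.inter (isOpen_lt continuous_const c1)).measurableSet
  have i1 := (integrable_indicator_iff m1).2
    (h.intOn (f := fun y => G y ^ 2) (by fun_prop) inter_subset_left)
  have i2 := (integrable_indicator_iff (measurableSet_ball (x := x) (ε := r''))).2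
    (h.intOn (f := fun y => max (u y - k') 0 ^ 2) (by fun_prop) Subset.rfl)
  refine ⟨w, W, h1, h4, h3, ?_, ?_⟩
  · rw [setIntegral_congr_fun measurableSet_ball (g := fun y => w y ^ 2) fun y hy => by
      simp only [h2 y hy]]
    exact setIntegral_le_integral (h.int (x := x) (s := r'') (h1.1.pow 2) fun y hy => by
      simp [(h4 y hy).1])
      (Eventually.of_forall fun y => sq_nonneg _)
  · rw [← integral_indicator m1, ← integral_indicator measurableSet_ball, ← integral_const_mul,
      ← integral_const_mul, ← integral_add (i1.const_mul _) (i2.const_mul _)]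
    exact integral_mono (h.int (x := x) (s := r'') (h1.2.1.pow 2) fun y hy => by simp [(h4 y hy).2])
      ((i1.const_mul _).add (i2.const_mul _)) h5

/-- the inequality of Chebyshev -/
theorem Sp.cheb (h : Sp μ m) {f : X → ℝ} (hf : Continuous f) (h0 : ∀ y, 0 ≤ f y) {x : X} {s a : ℝ}
    {A : Set X} (hA : MeasurableSet A) (hs : A ⊆ ball x s) (ha : ∀ y ∈ A, a ≤ f y) :
    a * μ.real A ≤ ∫ y in ball x s, f y ∂μ := by
  calc a * μ.real A = ∫ _ in A, a ∂μ := by rw [setIntegral_const, smul_eq_mul, mul_comm]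
    _ ≤ ∫ y in A, f y ∂μ :=
      setIntegral_mono_on (h.intOn continuous_const hs) (h.intOn hf hs) hA ha
    _ ≤ _ := setIntegral_mono_set (h.intOn hf Subset.rfl) (Eventually.of_forall h0)
      hs.eventuallyLE

omit [ProperSpace X] [BorelSpace X] in
theorem Cac.sub_const {N : ℝ} {U : Set X} (h : Cac μ u G N U) (c : ℝ) :
    Cac μ (fun p => u p - c) G N U := fun x r r' k h1 h2 h3 => by
  have := h x r r' (k + c) h1 h2 h3
  simp only [lt_sub_iff_add_lt, sub_sub, add_comm c k]
  exact this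

end Vale.Agent.P253W.HK
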